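import Mathlib

/-!
# Row 323, block B1: ABSTRACT MIN-MAX in a Hilbert space (Mathlib only).   helper120.  Prefix `mma`.

`H` = a real Hilbert space (`H¹` of the sphere), `j : H → L` = the passage to a weaker metric (`L²`).  `E : H → ℝ` the energy, `D : H → H` its gradient.
The class of a parameter set `Q` with "boundary" `Qb`: all `h : P → H` such that `j ∘ h` is continuous on `Q` and `h` is odd on `Qb`.
No cut-off, no flow: ONE explicit gradient step `u ↦ u - τ D u` maps the class to itself (`D` odd, the step is `j`-Lipschitz) and lowers `E` by `τ ‖D u‖² / 2`.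

* `mma_descent`      : quadratic upper bound `E (u+v) ≤ E u + ⟪D u, v⟫ + Λ/2 ‖v‖²`  ⟹  descent for `τ Λ ≤ 1`
* `mma_exists_almost`: almost critical points at the level `mmaWidth`
* `mma_ps_of_compact`: Palais-Smale from `D u = a u + K u`, `K` `j`-Lipschitz, and `j`-precompactness of the sublevels
* `mma_critical`     : a critical point at the level `mmaWidth`
-/

set_option autoImplicit false

open Filter Topology
open scoped RealInnerProductSpace

namespace Claimed.Agent.R323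

variable {H : Type*} [NormedAddCommGroup H] [InnerProductSpace ℝ H]
variable {L : Type*} [PseudoMetricSpace L]
variable {P : Type*} [TopologicalSpace P] [Neg P]

/-- the min-max class -/
structure MmaFam (Q Qb : Set P) (j : H → L) (h : P → H) : Prop where
  cont : ContinuousOn (fun q => j (h q)) Q
  odd : ∀ q ∈ Qb, h (-q) = - h q

/-- the admissible upper levels -/
def mmaLevels (E : H → ℝ) (Q Qb : Set P) (j : H → L) : Set ℝ :=
  {c | ∃ h : P → H, MmaFam Q Qb j h ∧ ∀ q ∈ Q, E (h q) ≤ c}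

/-- the width -/
noncomputable def mmaWidth (E : H → ℝ) (Q Qb : Set P) (j : H → L) : ℝ := sInf (mmaLevels E Q Qb j)

/-- the data of one gradient step -/
structure MmaStep (E : H → ℝ) (D : H → H) (j : H → L) (τ : ℝ) : Prop where
  τ_pos : 0 < τ
  descent : ∀ u, E (u - τ • D u) ≤ E u - τ / 2 * ‖D u‖ ^ 2
  odd : ∀ u, D (-u) = - D u
  lip : ∃ Λ : ℝ, ∀ u v, dist (j (u - τ • D u)) (j (v - τ • D v)) ≤ Λ * dist (j u) (j v)

/-- descent from a quadratic upper bound -/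
theorem mma_descent {E : H → ℝ} {D : H → H} {Λ τ : ℝ}
    (hq : ∀ u v, E (u + v) ≤ E u + ⟪D u, v⟫ + Λ / 2 * ‖v‖ ^ 2) (hτ : 0 < τ) (hτΛ : τ * Λ ≤ 1) (u : H) :
    E (u - τ • D u) ≤ E u - τ / 2 * ‖D u‖ ^ 2 := by
  have h1 := hq u (-(τ • D u))
  rw [← sub_eq_add_neg, inner_neg_right, inner_smul_right, real_inner_self_eq_norm_sq, norm_neg, norm_smul,
    Real.norm_of_nonneg hτ.le] at h1
  have h2 : 0 ≤ ‖D u‖ ^ 2 := by positivity
  have h3 : τ * (τ * Λ) * ‖D u‖ ^ 2 ≤ τ * 1 * ‖D u‖ ^ 2 :=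
    mul_le_mul_of_nonneg_right (mul_le_mul_of_nonneg_left hτΛ hτ.le) h2
  nlinarith [h1, h3]

/-- the gradient step maps the class to itself -/
theorem MmaFam.step {E : H → ℝ} {D : H → H} {j : H → L} {τ : ℝ} (hs : MmaStep E D j τ) {Q Qb : Set P} {h : P → H}
    (hh : MmaFam Q Qb j h) : MmaFam Q Qb j fun q => h q - τ • D (h q) := by
  obtain ⟨Λ, hΛ⟩ := hs.lip
  refine ⟨?_, fun q hq => ?_⟩
  · intro q₀ hq₀
    have h0 := hh.cont q₀ hq₀
    rw [ContinuousWithinAt, tendsto_iff_dist_tendsto_zero] at h0 ⊢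
    have h1 : Tendsto (fun q => Λ * dist (j (h q)) (j (h q₀))) (𝓝[Q] q₀) (𝓝 0) := by
      simpa using h0.const_mul Λ
    exact squeeze_zero (fun _ => dist_nonneg) (fun q => hΛ _ _) h1
  · rw [hh.odd q hq, hs.odd]
    simp only [smul_neg, sub_neg_eq_add, neg_sub]
    abel

theorem mma_levels_bddBelow {E : H → ℝ} (hE : ∀ u, 0 ≤ E u) {Q Qb : Set P} (hQ : Q.Nonempty) (j : H → L) :
    BddBelow (mmaLevels E Q Qb j) := by
  obtain ⟨q, hq⟩ := hQ
  exact ⟨0, fun c ⟨h, _, hc⟩ => (hE _).trans (hc q hq)⟩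

theorem mma_width_le {E : H → ℝ} (hE : ∀ u, 0 ≤ E u) {Q Qb : Set P} (hQ : Q.Nonempty) {j : H → L} {h : P → H}
    (hh : MmaFam Q Qb j h) {c : ℝ} (hc : ∀ q ∈ Q, E (h q) ≤ c) : mmaWidth E Q Qb j ≤ c :=
  csInf_le (mma_levels_bddBelow hE hQ j) ⟨h, hh, hc⟩

/-- a lower bound of the width: every family of the class meets a set on which `E ≥ b` -/
theorem mma_le_width {E : H → ℝ} {Q Qb : Set P} {j : H → L} (hne : (mmaLevels E Q Qb j).Nonempty) {b : ℝ}
    (hb : ∀ h : P → H, MmaFam Q Qb j h → ∃ q ∈ Q, b ≤ E (h q)) : b ≤ mmaWidth E Q Qb j := by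
  refine le_csInf hne ?_
  rintro c ⟨h, hh, hc⟩
  obtain ⟨q, hq, hbq⟩ := hb h hh
  exact hbq.trans (hc q hq)

/-- **almost critical points at the level of the width** -/
theorem mma_exists_almost {E : H → ℝ} {D : H → H} {j : H → L} {τ : ℝ} (hs : MmaStep E D j τ) (hE : ∀ u, 0 ≤ E u)
    {Q Qb : Set P} (hQ : Q.Nonempty) (hne : (mmaLevels E Q Qb j).Nonempty) {δ : ℝ} (hδ : 0 < δ) :
    ∃ u, |E u - mmaWidth E Q Qb j| ≤ δ ∧ ‖D u‖ ≤ δ := by
  by_contra hcon
  push Not at hcon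
  set c₀ := mmaWidth E Q Qb j with hc₀
  have hτ := hs.τ_pos
  set η := min δ (τ * δ ^ 2 / 4) with hη
  have hη0 : 0 < η := lt_min hδ (by positivity)
  obtain ⟨c, ⟨h, hh, hc⟩, hlt⟩ := exists_lt_of_csInf_lt hne (show sInf (mmaLevels E Q Qb j) < c₀ + η by
    rw [hc₀]; unfold mmaWidth; linarith)
  have key : ∀ q ∈ Q, E (h q - τ • D (h q)) ≤ c₀ - η := by
    intro q hq
    have h1 := hs.descent (h q)
    have h2 := hc q hq
    have h3 : 0 ≤ τ / 2 * ‖D (h q)‖ ^ 2 := by positivity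
    by_cases h4 : c₀ - δ ≤ E (h q)
    · have h5 : |E (h q) - c₀| ≤ δ := by
        rw [abs_le]
        constructor
        · linarith
        · have := min_le_left δ (τ * δ ^ 2 / 4)
          linarith
      have h6 := hcon (h q) h5
      have h7 : δ ^ 2 ≤ ‖D (h q)‖ ^ 2 := by
        apply pow_le_pow_left₀ hδ.le h6.le
      have h8 : τ / 2 * δ ^ 2 ≤ τ / 2 * ‖D (h q)‖ ^ 2 := mul_le_mul_of_nonneg_left h7 (by positivity)
      have h9 := min_le_right δ (τ * δ ^ 2 / 4)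
      nlinarith
    · have := min_le_left δ (τ * δ ^ 2 / 4)
      linarith
  have := mma_width_le hE hQ (hh.step hs) key
  linarith

/-- the Palais-Smale property (in the form which is used) -/
def MmaPS (E : H → ℝ) (D : H → H) : Prop :=
  ∀ (u : ℕ → H) (c : ℝ), Tendsto (fun k => E (u k)) atTop (𝓝 c) → Tendsto (fun k => D (u k)) atTop (𝓝 0) →
    ∃ v, D v = 0 ∧ E v = c

/-- **a critical point at the level of the width** -/
theorem mma_critical {E : H → ℝ} {D : H → H} {j : H → L} {τ : ℝ} (hs : MmaStep E D j τ) (hE : ∀ u, 0 ≤ E u)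
    (hps : MmaPS E D) {Q Qb : Set P} (hQ : Q.Nonempty) (hne : (mmaLevels E Q Qb j).Nonempty) :
    ∃ v, D v = 0 ∧ E v = mmaWidth E Q Qb j := by
  have hpos : ∀ k : ℕ, (0 : ℝ) < 1 / ((k : ℝ) + 1) := fun k => by positivity
  choose u hu1 hu2 using fun k : ℕ => mma_exists_almost hs hE hQ hne (hpos k)
  have hlim : Tendsto (fun k : ℕ => 1 / ((k : ℝ) + 1)) atTop (𝓝 0) := tendsto_one_div_add_atTop_nhds_zero_nat
  refine hps u _ ?_ ?_
  · rw [tendsto_iff_dist_tendsto_zero]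
    exact squeeze_zero (fun _ => dist_nonneg) (fun k => by rw [Real.dist_eq]; exact hu1 k) hlim
  · rw [tendsto_zero_iff_norm_tendsto_zero]
    exact squeeze_zero (fun _ => norm_nonneg _) hu2 hlim

/-- Palais-Smale from compactness in the weaker metric -/
theorem mma_ps_of_compact [CompleteSpace H] {E : H → ℝ} {D K : H → H} {j : H → L} {a Λ : ℝ} (ha : 0 < a)
    (hD : ∀ u, D u = a • u + K u) (hK : ∀ u v, ‖K u - K v‖ ≤ Λ * dist (j u) (j v))
    (hcpt : ∀ (u : ℕ → H) (C : ℝ), (∀ k, E (u k) ≤ C) → ∃ φ : ℕ → ℕ, StrictMono φ ∧ CauchySeq fun k => j (u (φ k)))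
    (hEc : Continuous E) (hDc : Continuous D) : MmaPS E D := by
  intro u c hEu hDu
  obtain ⟨C, hC⟩ : ∃ C, ∀ k, E (u k) ≤ C := by
    obtain ⟨C, hC⟩ := hEu.bddAbove_range
    exact ⟨C, fun k => hC ⟨k, rfl⟩⟩
  obtain ⟨φ, hφ, hcau⟩ := hcpt u C hC
  have hDφ : Tendsto (fun k => D (u (φ k))) atTop (𝓝 0) := hDu.comp hφ.tendsto_atTop
  have hΛ0 : 0 ≤ max Λ 0 := le_max_right _ _
  have hcs : CauchySeq fun k => u (φ k) := by
    rw [Metric.cauchySeq_iff]
    intro r hr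
    have hr1 : 0 < a * r / 4 := by positivity
    have hr2 : 0 < a * r / (4 * (max Λ 0 + 1)) := by positivity
    obtain ⟨N1, hN1⟩ := (Metric.tendsto_atTop.1 hDφ) _ hr1
    obtain ⟨N2, hN2⟩ := (Metric.cauchySeq_iff.1 hcau) _ hr2
    refine ⟨max N1 N2, fun k hk l hl => ?_⟩
    have k1 := hN1 k (le_trans (le_max_left _ _) hk)
    have l1 := hN1 l (le_trans (le_max_left _ _) hl)
    have kl := hN2 k (le_trans (le_max_right _ _) hk) l (le_trans (le_max_right _ _) hl)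
    rw [dist_zero_right] at k1 l1
    have e1 : a • (u (φ k) - u (φ l)) = (D (u (φ k)) - D (u (φ l))) - (K (u (φ k)) - K (u (φ l))) := by
      rw [hD, hD, smul_sub]
      abel
    have e2 : a * ‖u (φ k) - u (φ l)‖ ≤ ‖D (u (φ k))‖ + ‖D (u (φ l))‖ + Λ * dist (j (u (φ k))) (j (u (φ l))) := by
      have : ‖a • (u (φ k) - u (φ l))‖ = a * ‖u (φ k) - u (φ l)‖ := by
        rw [norm_smul, Real.norm_of_nonneg ha.le]
      rw [← this, e1]
      refine (norm_sub_le _ _).trans ?_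
      exact add_le_add (norm_sub_le _ _) (hK _ _)
    have e3 : Λ * dist (j (u (φ k))) (j (u (φ l))) ≤ (max Λ 0 + 1) * (a * r / (4 * (max Λ 0 + 1))) := by
      refine mul_le_mul ?_ kl.le dist_nonneg (by positivity)
      have := le_max_left Λ 0
      linarith
    have e4 : (max Λ 0 + 1) * (a * r / (4 * (max Λ 0 + 1))) = a * r / 4 := by
      field_simp
    rw [dist_eq_norm]
    have e5 : a * ‖u (φ k) - u (φ l)‖ < a * r := by
      rw [e4] at e3
      linarith
    exact lt_of_mul_lt_mul_left e5 ha.le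
  obtain ⟨v, hv⟩ := cauchySeq_tendsto_of_complete hcs
  refine ⟨v, ?_, ?_⟩
  · exact tendsto_nhds_unique ((hDc.tendsto v).comp hv) hDφ
  · exact tendsto_nhds_unique ((hEc.tendsto v).comp hv) (hEu.comp hφ.tendsto_atTop)

/-- Palais-Smale from compactness w.r.t. a weaker "distance" `d` (no axioms on `d`), `K` uniformly continuous from `d` to the norm -/
theorem mma_ps_of_compact' [CompleteSpace H] {E : H → ℝ} {D K : H → H} {d : H → H → ℝ} {a : ℝ} (ha : 0 < a)
    (hD : ∀ u, D u = a • u + K u) (hK : ∀ r > 0, ∃ s > 0, ∀ u v, d u v < s → ‖K u - K v‖ < r)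
    (hcpt : ∀ (u : ℕ → H) (C : ℝ), (∀ k, E (u k) ≤ C) →
      ∃ φ : ℕ → ℕ, StrictMono φ ∧ ∀ s > 0, ∃ N, ∀ k ≥ N, ∀ l ≥ N, d (u (φ k)) (u (φ l)) < s)
    (hEc : Continuous E) (hDc : Continuous D) : MmaPS E D := by
  intro u c hEu hDu
  obtain ⟨C, hC⟩ : ∃ C, ∀ k, E (u k) ≤ C := by
    obtain ⟨C, hC⟩ := hEu.bddAbove_range
    exact ⟨C, fun k => hC ⟨k, rfl⟩⟩
  obtain ⟨φ, hφ, hcau⟩ := hcpt u C hC
  have hDφ : Tendsto (fun k => D (u (φ k))) atTop (𝓝 0) := hDu.comp hφ.tendsto_atTop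
  have hcs : CauchySeq fun k => u (φ k) := by
    rw [Metric.cauchySeq_iff]
    intro r hr
    have hr1 : 0 < a * r / 4 := by positivity
    obtain ⟨N1, hN1⟩ := (Metric.tendsto_atTop.1 hDφ) _ hr1
    obtain ⟨s, hs, hKs⟩ := hK _ hr1
    obtain ⟨N2, hN2⟩ := hcau s hs
    refine ⟨max N1 N2, fun k hk l hl => ?_⟩
    have k1 := hN1 k (le_trans (le_max_left _ _) hk)
    have l1 := hN1 l (le_trans (le_max_left _ _) hl)
    have kl := hKs _ _ (hN2 k (le_trans (le_max_right _ _) hk) l (le_trans (le_max_right _ _) hl))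
    rw [dist_zero_right] at k1 l1
    have e1 : a • (u (φ k) - u (φ l)) = (D (u (φ k)) - D (u (φ l))) - (K (u (φ k)) - K (u (φ l))) := by
      rw [hD, hD, smul_sub]
      abel
    have e2 : a * ‖u (φ k) - u (φ l)‖ ≤ ‖D (u (φ k))‖ + ‖D (u (φ l))‖ + ‖K (u (φ k)) - K (u (φ l))‖ := by
      have : ‖a • (u (φ k) - u (φ l))‖ = a * ‖u (φ k) - u (φ l)‖ := by
        rw [norm_smul, Real.norm_of_nonneg ha.le]
      rw [← this, e1]
      refine (norm_sub_le _ _).trans ?_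
      exact add_le_add (norm_sub_le _ _) le_rfl
    rw [dist_eq_norm]
    have e5 : a * ‖u (φ k) - u (φ l)‖ < a * r := by
      linarith
    exact lt_of_mul_lt_mul_left e5 ha.le
  obtain ⟨v, hv⟩ := cauchySeq_tendsto_of_complete hcs
  refine ⟨v, ?_, ?_⟩
  · exact tendsto_nhds_unique ((hDc.tendsto v).comp hv) hDφ
  · exact tendsto_nhds_unique ((hEc.tendsto v).comp hv) (hEu.comp hφ.tendsto_atTop)

end Claimed.Agent.R323
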