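import Claimed.Agent.R323.Defs
import Claimed.Agent.R273.BuBorsuk

/-!
# Row 323, block B, piece B7: the Borsuk-Ulam adapter.   (helper20)

`mm_bu`: a continuous map `Q = \bar B^{m+2} × [-3,3] → ℝ^{m+3}` which is odd on the boundary of `Q` has a zero.
* `mm_bu_cube`: the same for the sup norm ball of `Fin N → ℝ`: double the cube to the sup norm sphere of `Fin (N+1) → ℝ`
  (`g x = F (init x)` if the last coordinate is `≥ 0`, `- F (- init x)` if it is `≤ 0`) and apply `R273.bu_borsuk_ulam`.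
* `mmKap`: an odd continuous map from the cube to `Q` which maps the boundary to the boundary.
-/

set_option autoImplicit false
open scoped ContDiff ENNReal NNReal RealInnerProductSpace Topology
open MeasureTheory Metric Set Filter

namespace Claimed.Agent.R323

open Claimed.Agent.Gmt

/-- the first `N` coordinates. -/
def mmInit {N : ℕ} (x : Fin (N + 1) → ℝ) : Fin N → ℝ := fun i => x (Fin.castSucc i)

theorem mmInit_continuous {N : ℕ} : Continuous (mmInit : (Fin (N + 1) → ℝ) → (Fin N → ℝ)) :=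
  continuous_pi fun i => continuous_apply (Fin.castSucc i)

theorem mmInit_neg {N : ℕ} (x : Fin (N + 1) → ℝ) : mmInit (-x) = - mmInit x := rfl

theorem mmInit_norm_le {N : ℕ} (x : Fin (N + 1) → ℝ) : ‖mmInit x‖ ≤ ‖x‖ := by
  rw [pi_norm_le_iff_of_nonneg (norm_nonneg _)]
  intro i
  exact norm_le_pi_norm x (Fin.castSucc i)

/-- on the sup norm sphere: either the last coordinate has modulus one or the first ones have norm one. -/
theorem mm_norm_cases {N : ℕ} (x : Fin (N + 1) → ℝ) (hx : ‖x‖ = 1) :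
    ‖mmInit x‖ = 1 ∨ |x (Fin.last N)| = 1 := by
  by_contra hcon
  push Not at hcon
  obtain ⟨h1, h2⟩ := hcon
  have h3 : ‖mmInit x‖ < 1 := lt_of_le_of_ne (hx ▸ mmInit_norm_le x) h1
  have h4 : |x (Fin.last N)| < 1 := by
    refine lt_of_le_of_ne ?_ h2
    have := norm_le_pi_norm x (Fin.last N)
    rwa [hx, Real.norm_eq_abs] at this
  have h5 : ‖x‖ < 1 := by
    rw [pi_norm_lt_iff one_pos]
    intro i
    refine Fin.lastCases ?_ (fun j => ?_) i
    · rwa [Real.norm_eq_abs]
    · exact lt_of_le_of_lt (norm_le_pi_norm (mmInit x) j) h3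
  linarith

/-- **Borsuk-Ulam on the cube**: a continuous map from the sup norm ball to `ℝ^N`, odd on the boundary, has a zero. -/
theorem mm_bu_cube (N : ℕ) (F : (Fin N → ℝ) → (Fin N → ℝ)) (hc : ContinuousOn F (closedBall 0 1))
    (hodd : ∀ c ∈ sphere (0 : Fin N → ℝ) 1, F (-c) = - F c) : ∃ c ∈ closedBall (0 : Fin N → ℝ) 1, F c = 0 := by
  classical
  set g : (Fin (N + 1) → ℝ) → (Fin N → ℝ) := fun x =>
    if 0 ≤ x (Fin.last N) then F (mmInit x) else - F (- mmInit x) with hg
  have hmem : ∀ x ∈ sphere (0 : Fin (N + 1) → ℝ) 1, mmInit x ∈ closedBall (0 : Fin N → ℝ) 1 := by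
    intro x hx
    rw [mem_sphere_zero_iff_norm] at hx
    rw [mem_closedBall_zero_iff]
    exact hx ▸ mmInit_norm_le x
  have hmem' : ∀ x ∈ sphere (0 : Fin (N + 1) → ℝ) 1, - mmInit x ∈ closedBall (0 : Fin N → ℝ) 1 := by
    intro x hx
    have := hmem x hx
    rw [mem_closedBall_zero_iff] at this ⊢
    rwa [norm_neg]
  -- agreement on the equator
  have heq : ∀ x ∈ sphere (0 : Fin (N + 1) → ℝ) 1, x (Fin.last N) = 0 → F (mmInit x) = - F (- mmInit x) := by
    intro x hx h0
    rw [mem_sphere_zero_iff_norm] at hx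
    rcases mm_norm_cases x hx with h | h
    · rw [hodd (mmInit x) (by rwa [mem_sphere_zero_iff_norm]), neg_neg]
    · rw [h0] at h; simp at h
  have hcont : ContinuousOn g (sphere (0 : Fin (N + 1) → ℝ) 1) := by
    have hA : ContinuousOn (fun x : Fin (N + 1) → ℝ => F (mmInit x)) (sphere (0 : Fin (N + 1) → ℝ) 1) :=
      hc.comp mmInit_continuous.continuousOn hmem
    have hB : ContinuousOn (fun x : Fin (N + 1) → ℝ => - F (- mmInit x)) (sphere (0 : Fin (N + 1) → ℝ) 1) :=
      (hc.comp mmInit_continuous.neg.continuousOn hmem').neg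
    have hlast : Continuous fun x : Fin (N + 1) → ℝ => x (Fin.last N) := continuous_apply _
    rw [hg]
    refine ContinuousOn.if ?_ (hA.mono inter_subset_left) (hB.mono inter_subset_left)
    intro x hx
    have hfr : x (Fin.last N) = 0 := by
      have h1 : frontier {x : Fin (N + 1) → ℝ | 0 ≤ x (Fin.last N)} ⊆ {x | 0 = x (Fin.last N)} :=
        frontier_le_subset_eq continuous_const hlast
      exact (h1 hx.2).symm
    exact heq x hx.1 hfr
  have hgodd : ∀ x ∈ sphere (0 : Fin (N + 1) → ℝ) 1, g (-x) = - g x := by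
    intro x hx
    simp only [hg, Pi.neg_apply, mmInit_neg, neg_neg]
    rcases lt_trichotomy (x (Fin.last N)) 0 with h | h | h
    · rw [if_pos (by linarith), if_neg (by linarith), neg_neg]
    · rw [if_pos (by linarith), if_pos (by linarith)]
      have := heq x hx h
      rw [this, neg_neg]
    · rw [if_neg (by linarith), if_pos (by linarith)]
  obtain ⟨x, hx, hx0⟩ := R273.bu_borsuk_ulam N g hcont hgodd
  by_cases h : 0 ≤ x (Fin.last N)
  · refine ⟨mmInit x, hmem x hx, ?_⟩
    simpa [hg, h] using hx0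
  · refine ⟨- mmInit x, hmem' x hx, ?_⟩
    have : - F (- mmInit x) = 0 := by simpa [hg, h] using hx0
    exact neg_eq_zero.1 this

/-- the first `m+2` coordinates as a Euclidean vector. -/
noncomputable def mmVec (m : ℕ) (c : Fin (m + 3) → ℝ) : E (m + 2) := WithLp.toLp 2 (mmInit c)

theorem mmVec_continuous (m : ℕ) : Continuous (mmVec m) :=
  (PiLp.continuous_toLp 2 _).comp mmInit_continuous

theorem mmVec_neg (m : ℕ) (c : Fin (m + 3) → ℝ) : mmVec m (-c) = - mmVec m c := rfl

theorem mmVec_norm_ge (m : ℕ) (c : Fin (m + 3) → ℝ) : ‖mmInit c‖ ≤ ‖mmVec m c‖ := by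
  rw [pi_norm_le_iff_of_nonneg (norm_nonneg _)]
  intro i
  exact PiLp.norm_apply_le (mmVec m c) i

/-- an odd continuous map from the cube onto `Q`. -/
noncomputable def mmKap (m : ℕ) (c : Fin (m + 3) → ℝ) : E (m + 2) × ℝ :=
  ((max 1 ‖mmVec m c‖)⁻¹ • mmVec m c, 3 * c (Fin.last (m + 2)))

theorem mmKap_continuous (m : ℕ) : Continuous (mmKap m) := by
  unfold mmKap
  refine Continuous.prodMk ?_ (continuous_const.mul (continuous_apply _))
  have h1 : Continuous fun c : Fin (m + 3) → ℝ => (max 1 ‖mmVec m c‖)⁻¹ := by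
    refine Continuous.inv₀ (continuous_const.max (mmVec_continuous m).norm) fun c => ?_
    have : (1 : ℝ) ≤ max 1 ‖mmVec m c‖ := le_max_left _ _
    linarith
  exact h1.smul (mmVec_continuous m)

theorem mmKap_neg (m : ℕ) (c : Fin (m + 3) → ℝ) : mmKap m (-c) = - mmKap m c := by
  unfold mmKap
  rw [mmVec_neg, norm_neg, smul_neg, Pi.neg_apply, mul_neg]
  rfl

theorem mmKap_fst_norm (m : ℕ) (c : Fin (m + 3) → ℝ) : ‖(mmKap m c).1‖ = ‖mmVec m c‖ / max 1 ‖mmVec m c‖ := by
  have h1 : (0 : ℝ) < max 1 ‖mmVec m c‖ := lt_of_lt_of_le one_pos (le_max_left _ _)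
  show ‖(max 1 ‖mmVec m c‖)⁻¹ • mmVec m c‖ = _
  rw [norm_smul, norm_inv, Real.norm_of_nonneg h1.le, div_eq_inv_mul]

theorem mmKap_mem (m : ℕ) (c : Fin (m + 3) → ℝ) (hc : ‖c‖ ≤ 1) : mmKap m c ∈ acQ m := by
  have h1 : (0 : ℝ) < max 1 ‖mmVec m c‖ := lt_of_lt_of_le one_pos (le_max_left _ _)
  refine ⟨?_, ?_⟩
  · rw [mmKap_fst_norm, div_le_one h1]
    exact le_max_right _ _
  · show |3 * c (Fin.last (m + 2))| ≤ 3
    have := (norm_le_pi_norm c (Fin.last (m + 2))).trans hc
    rw [Real.norm_eq_abs] at this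
    rw [abs_mul, abs_of_pos (by norm_num : (0 : ℝ) < 3)]
    linarith

theorem mmKap_mem_bd (m : ℕ) (c : Fin (m + 3) → ℝ) (hc : ‖c‖ = 1) : mmKap m c ∈ acQb m := by
  refine ⟨mmKap_mem m c hc.le, ?_⟩
  rcases mm_norm_cases c hc with h | h
  · left
    have h2 : 1 ≤ ‖mmVec m c‖ := h ▸ mmVec_norm_ge m c
    rw [mmKap_fst_norm, max_eq_right h2, div_self (by linarith)]
  · right
    show |3 * c (Fin.last (m + 2))| = 3
    rw [abs_mul, h, abs_of_pos (by norm_num : (0 : ℝ) < 3), mul_one]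

/-- **B7: Borsuk-Ulam on `Q`.** -/
theorem mm_bu (m : ℕ) (f : E (m + 2) × ℝ → (Fin (m + 3) → ℝ)) (hc : ContinuousOn f (acQ m))
    (hodd : ∀ q ∈ acQb m, f (-q) = - f q) : ∃ q ∈ acQ m, f q = 0 := by
  have h1 : ContinuousOn (fun c => f (mmKap m c)) (closedBall (0 : Fin (m + 3) → ℝ) 1) :=
    hc.comp (mmKap_continuous m).continuousOn fun c hc' => mmKap_mem m c (by simpa using hc')
  obtain ⟨c, hc1, hc0⟩ := mm_bu_cube (m + 3) (fun c => f (mmKap m c)) h1 (by
    intro c hc'
    show f (mmKap m (-c)) = - f (mmKap m c)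
    rw [mmKap_neg]
    exact hodd _ (mmKap_mem_bd m c (by simpa using hc')))
  exact ⟨mmKap m c, mmKap_mem m c (by simpa using hc1), hc0⟩

end Claimed.Agent.R323
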