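import Claimed.Agent.R323.Mm.HilIbp
import Claimed.Agent.Lib.Gmt.BvCompactB

/-!
# Row 323, block B4: `L¹`-PRECOMPACTNESS OF BOUNDED SETS OF `mmHil`: PROVED, no sorry.   Owner helper37 (statement by helper120).

PLAN.  `u_k := indicator (ball 0 1) (z k).fst` (locally integrable on `E n`).  `W := mmOm n` (open).  For `x ∈ W` take `r` with `closedBall x r ⊆ W`, `r ≤ ‖x‖/2`:
`∫⁻_{ball x r} ‖u_k‖ₑ ≤ √ν(B₁) C`, and `gmtVar u_k (ball x r) ≤ ofReal (∫_{ball x r} ‖mmGd n ε (z k)‖) ≤ (2√2/(ε‖x‖)) √ν(B₁) C` by `mm_ibp` (every `GmtTest (ball x r) T` is a `GmtTest (mmOm n) T`; `|∫⟪G,T⟫| ≤ ∫‖G‖` for `‖T‖ ≤ 1`).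
`gmt_exists_cauchy_subseq` gives `φ` with `∫⁻_K ‖u_{φ i} - u_{φ j}‖ₑ → 0` for the compact `K = closedBall 0 (3/4) \ ball 0 (1/2) ⊆ W`.
`mm_annulus` (`a = 1/2`, `b = 3/4`; the sphere of radius `3/4` is null or use `ball 0 (3/4) \ ball 0 (1/2) ⊆ K`): `mmL1 z z' = ((3/4)ⁿ - (1/2)ⁿ)⁻¹ ∫_{…} |u - u'|`.
-/

set_option autoImplicit false
open scoped ContDiff ENNReal NNReal RealInnerProductSpace Topology
open MeasureTheory Metric Set Filter

namespace Claimed.Agent.R323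

open Claimed.Agent.Gmt

variable {n : ℕ} {ε : ℝ}

/-- Cauchy-Schwarz on the finite measure, vector valued -/
theorem mmc_l1_le_vec (f : Lp (E n) 2 (mmNu n)) : ∫ x, ‖f x‖ ∂(mmNu n) ≤ Real.sqrt ((mmNu n) univ).toReal * ‖f‖ := by
  have h1 : eLpNorm f 1 (mmNu n) ≤ eLpNorm f 2 (mmNu n) * (mmNu n) univ ^ ((1 : ℝ) / 2) := by
    have := eLpNorm_le_eLpNorm_mul_rpow_measure_univ (μ := mmNu n) (p := 1) (q := 2) (by norm_num) (Lp.aestronglyMeasurable f)
    convert this using 3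
    norm_num
  have h2 : ∫ x, ‖f x‖ ∂(mmNu n) = (eLpNorm f 1 (mmNu n)).toReal := by
    rw [eLpNorm_one_eq_lintegral_enorm, ← integral_norm_eq_lintegral_enorm (Lp.aestronglyMeasurable f)]
  rw [h2, Lp.norm_def, Real.sqrt_eq_rpow, ENNReal.toReal_rpow, mul_comm, ← ENNReal.toReal_mul]
  refine ENNReal.toReal_mono ?_ h1
  exact ENNReal.mul_ne_top (Lp.eLpNorm_ne_top f) (ENNReal.rpow_ne_top_of_nonneg (by norm_num) (measure_ne_top _ _))

/-- the first component, extended by zero -/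
noncomputable def mmcU (z : MmAmb n) : E n → ℝ := (ball (0 : E n) 1).indicator fun x => z.fst x

theorem mmc_integrable (z : MmAmb n) : Integrable (mmcU z) := by
  unfold mmcU
  rw [integrable_indicator_iff measurableSet_ball]
  exact mm_integrable_fst z

theorem mmc_lintegral_le (z : MmAmb n) (s : Set (E n)) :
    ∫⁻ y in s, ‖mmcU z y‖ₑ ≤ ENNReal.ofReal (Real.sqrt ((mmNu n) univ).toReal * ‖z‖) := by
  have h1 : ∫⁻ y in s, ‖mmcU z y‖ₑ ≤ ∫⁻ y, ‖mmcU z y‖ₑ := setLIntegral_le_lintegral s _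
  have h2 : ∫⁻ y, ‖mmcU z y‖ₑ = ∫⁻ y, ‖z.fst y‖ₑ ∂(mmNu n) := by
    unfold mmcU mmNu
    rw [← lintegral_indicator measurableSet_ball]
    refine lintegral_congr fun y => ?_
    by_cases hy : y ∈ ball (0 : E n) 1
    · simp [hy]
    · simp [hy]
  have h3 : ∫⁻ y, ‖z.fst y‖ₑ ∂(mmNu n) = ENNReal.ofReal (∫ y, |z.fst y| ∂(mmNu n)) := by
    rw [ofReal_integral_eq_lintegral_ofReal (mm_integrable_fst z).abs (Eventually.of_forall fun _ => abs_nonneg _)]
    refine lintegral_congr fun y => ?_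
    rw [← Real.norm_eq_abs, ofReal_norm]
  rw [h2, h3] at h1
  refine h1.trans (ENNReal.ofReal_le_ofReal ?_)
  exact (mm_l1_le_aux z.fst).trans (mul_le_mul_of_nonneg_left (mm_norm_fst_le z) (Real.sqrt_nonneg _))

/-- the variation on a ball away from the origin -/
theorem mmc_var_le (hε : 0 < ε) {z : MmAmb n} (hz : z ∈ mmHil n ε) {x : E n} {r : ℝ} (hsub : ball x r ⊆ mmOm n) (hr : r ≤ ‖x‖ / 2) (hx : x ≠ 0) :
    gmtVar (mmcU z) (ball x r) ≤ ENNReal.ofReal (2 * Real.sqrt 2 / (ε * ‖x‖) * (Real.sqrt ((mmNu n) univ).toReal * ‖z‖)) := by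
  unfold gmtVar
  refine iSup_le fun T => iSup_le fun hT => iSup_le fun hT1 => ENNReal.ofReal_le_ofReal ?_
  have hx0 : 0 < ‖x‖ := norm_pos_iff.2 hx
  have hT' : GmtTest (mmOm n) T := ⟨hT.c1, hT.cpt, hT.sub.trans hsub⟩
  have e1 : ∫ y, mmcU z y * gmtDiv T y = ∫ y, z.fst y * gmtDiv T y ∂(mmNu n) := by
    unfold mmcU mmNu
    rw [← integral_indicator measurableSet_ball]
    refine integral_congr_ae (Eventually.of_forall fun y => ?_)
    by_cases hy : y ∈ ball (0 : E n) 1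
    · simp [hy]
    · simp [hy]
  rw [e1, mm_ibp hε hz hT']
  set c : ℝ := 2 * Real.sqrt 2 / (ε * ‖x‖) with hc
  have hc0 : 0 ≤ c := by positivity
  have hpt : ∀ y, ‖⟪mmGd n ε z y, T y⟫‖ ≤ c * ‖z.snd y‖ := by
    intro y
    by_cases hy : y ∈ ball x r
    · have hyn : ‖x‖ / 2 ≤ ‖y‖ := by
        have h1 : ‖x - y‖ < r := by rw [← dist_eq_norm, dist_comm]; exact hy
        have h2 : ‖x‖ ≤ ‖x - y‖ + ‖y‖ := by
          calc ‖x‖ = ‖(x - y) + y‖ := by rw [sub_add_cancel]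
            _ ≤ _ := norm_add_le _ _
        linarith
      have hy0 : 0 < ‖y‖ := by linarith
      calc ‖⟪mmGd n ε z y, T y⟫‖ ≤ ‖mmGd n ε z y‖ * ‖T y‖ := norm_inner_le_norm _ _
        _ ≤ ‖mmGd n ε z y‖ * 1 := mul_le_mul_of_nonneg_left (hT1 y) (norm_nonneg _)
        _ = Real.sqrt 2 / (ε * ‖y‖) * ‖z.snd y‖ := by
            unfold mmGd
            rw [mul_one, norm_smul, Real.norm_of_nonneg (by positivity)]
        _ ≤ c * ‖z.snd y‖ := by
            refine mul_le_mul_of_nonneg_right ?_ (norm_nonneg _)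
            rw [hc, div_le_div_iff₀ (by positivity) (by positivity)]
            have h2 : 0 ≤ Real.sqrt 2 := Real.sqrt_nonneg 2
            nlinarith [mul_nonneg h2 hε.le, mul_nonneg (mul_nonneg h2 hε.le) (by linarith : 0 ≤ ‖y‖ - ‖x‖ / 2)]
    · have : T y = 0 := image_eq_zero_of_notMem_tsupport fun h => hy (hT.sub h)
      rw [this, inner_zero_right, norm_zero]
      positivity
  have hint : Integrable (fun y => c * ‖z.snd y‖) (mmNu n) := ((Lp.memLp z.snd).integrable (by norm_num)).norm.const_mul c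
  calc - ∫ y, ⟪mmGd n ε z y, T y⟫ ∂(mmNu n) ≤ ‖∫ y, ⟪mmGd n ε z y, T y⟫ ∂(mmNu n)‖ := by
        rw [Real.norm_eq_abs]; exact neg_le_abs _
    _ ≤ ∫ y, c * ‖z.snd y‖ ∂(mmNu n) := norm_integral_le_of_norm_le hint (Eventually.of_forall hpt)
    _ = c * ∫ y, ‖z.snd y‖ ∂(mmNu n) := integral_const_mul _ _
    _ ≤ c * (Real.sqrt ((mmNu n) univ).toReal * ‖z‖) := by
        refine mul_le_mul_of_nonneg_left ?_ hc0
        exact (mmc_l1_le_vec z.snd).trans (mul_le_mul_of_nonneg_left (mm_norm_snd_le z) (Real.sqrt_nonneg _))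

theorem mm_cpt {n : ℕ} (hn : 1 ≤ n) {ε : ℝ} (hε : 0 < ε) (z : ℕ → mmHil n ε) (C : ℝ) (hC : ∀ k, ‖z k‖ ≤ C) :
    ∃ φ : ℕ → ℕ, StrictMono φ ∧ ∀ s > 0, ∃ N, ∀ k ≥ N, ∀ l ≥ N, mmL1 (z (φ k) : MmAmb n) (z (φ l) : MmAmb n) < s := by
  have hW : IsOpen (mmOm n) := isOpen_ball.sdiff isClosed_singleton
  set V : ℝ := Real.sqrt ((mmNu n) univ).toReal with hV
  have hV0 : 0 ≤ V := Real.sqrt_nonneg _
  have hC' : ∀ k, ‖(z k : MmAmb n)‖ ≤ C := hC
  obtain ⟨φ, hφ, hcau⟩ := gmt_exists_cauchy_subseq hW (u := fun k => mmcU (z k : MmAmb n)) (fun k => (mmc_integrable _).locallyIntegrable) (by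
    intro x hx
    have hx0 : x ≠ 0 := fun h => hx.2 h
    have hxn : 0 < ‖x‖ := norm_pos_iff.2 hx0
    obtain ⟨r₀, hr₀, hsub⟩ := Metric.isOpen_iff.1 hW x hx
    refine ⟨min r₀ (‖x‖ / 2), lt_min hr₀ (by positivity), ENNReal.ofReal (V * C) + ENNReal.ofReal (2 * Real.sqrt 2 / (ε * ‖x‖) * (V * C)) * volume (ball x (min r₀ (‖x‖ / 2))),
      ENNReal.add_ne_top.2 ⟨ENNReal.ofReal_ne_top, ENNReal.mul_ne_top ENNReal.ofReal_ne_top measure_ball_lt_top.ne⟩, Eventually.of_forall fun k => ?_⟩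
    have a1 := (mmc_lintegral_le (z k : MmAmb n) (ball x (min r₀ (‖x‖ / 2)))).trans
      (ENNReal.ofReal_le_ofReal (mul_le_mul_of_nonneg_left (hC' k) hV0))
    have a2 := (mmc_var_le hε (z k).2 ((ball_subset_ball (min_le_left _ _)).trans hsub) (min_le_right r₀ (‖x‖ / 2)) hx0).trans
      (ENNReal.ofReal_le_ofReal (mul_le_mul_of_nonneg_left (mul_le_mul_of_nonneg_left (hC' k) hV0)
        (by positivity : 0 ≤ 2 * Real.sqrt 2 / (ε * ‖x‖))))
    rw [lintegral_add_right _ measurable_const, setLIntegral_const]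
    exact add_le_add a1 (mul_le_mul_left a2 _))
  refine ⟨φ, hφ, fun s hs => ?_⟩
  set K : Set (E n) := closedBall 0 (3 / 4) \ ball 0 (1 / 2) with hK
  have hKc : IsCompact K := (isCompact_closedBall (0 : E n) _).diff isOpen_ball
  have hKW : K ⊆ mmOm n := by
    intro y hy
    refine ⟨?_, ?_⟩
    · have := hy.1
      rw [mem_closedBall_zero_iff] at this
      rw [mem_ball_zero_iff]
      linarith
    · intro h0
      apply hy.2
      rw [mem_singleton_iff.1 h0]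
      simp
  set δ : ℝ := (3 / 4 : ℝ) ^ n - (1 / 2 : ℝ) ^ n with hδ
  have hδ0 : 0 < δ := sub_pos.2 (pow_lt_pow_left₀ (by norm_num) (by norm_num) (by omega))
  obtain ⟨N, hN⟩ := hcau K hKc hKW (ENNReal.ofReal (s * δ / 2)) (ENNReal.ofReal_pos.2 (by positivity))
  refine ⟨N, fun k hk l hl => ?_⟩
  have h1 := hN k hk l hl
  have h2 := mm_annulus (z (φ k)).2 (z (φ l)).2 (a := 1 / 2) (b := 3 / 4) (by norm_num) (by norm_num) (by norm_num)
  set A : Set (E n) := ball 0 (3 / 4) \ ball 0 (1 / 2) with hA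
  have hAK : A ⊆ K := sdiff_subset_sdiff_left ball_subset_closedBall
  have hAm : MeasurableSet A := measurableSet_ball.diff measurableSet_ball
  have hA1 : A ⊆ ball 0 1 := fun y hy => ball_subset_ball (by norm_num) hy.1
  have hm : AEStronglyMeasurable (fun x => (z (φ k) : MmAmb n).fst x - (z (φ l) : MmAmb n).fst x) (volume.restrict A) := by
    have := ((mm_integrable_fst (z (φ k) : MmAmb n)).sub (mm_integrable_fst (z (φ l) : MmAmb n))).aestronglyMeasurable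
    exact this.mono_measure (Measure.restrict_mono hA1 le_rfl)
  have h3 : ∫ x in A, |(z (φ k) : MmAmb n).fst x - (z (φ l) : MmAmb n).fst x| ≤ s * δ / 2 := by
    have e : ∫ x in A, |(z (φ k) : MmAmb n).fst x - (z (φ l) : MmAmb n).fst x| =
        (∫⁻ x in A, ‖(z (φ k) : MmAmb n).fst x - (z (φ l) : MmAmb n).fst x‖ₑ).toReal := integral_norm_eq_lintegral_enorm hm
    rw [e]
    have h4 : ∫⁻ x in A, ‖(z (φ k) : MmAmb n).fst x - (z (φ l) : MmAmb n).fst x‖ₑ ≤ ENNReal.ofReal (s * δ / 2) := by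
      refine le_trans ?_ h1
      refine le_trans (le_of_eq ?_) (lintegral_mono_set hAK)
      refine setLIntegral_congr_fun hAm fun y hy => ?_
      have hy1 := hA1 hy
      simp [mmcU, hy1]
    calc _ ≤ (ENNReal.ofReal (s * δ / 2)).toReal := ENNReal.toReal_mono ENNReal.ofReal_ne_top h4
      _ = s * δ / 2 := ENNReal.toReal_ofReal (by positivity)
  rw [h2] at h3
  have : mmL1 (z (φ k) : MmAmb n) (z (φ l) : MmAmb n) ≤ s / 2 := by
    by_contra hcon
    push Not at hcon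
    nlinarith
  linarith

end Claimed.Agent.R323
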