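import Claimed.Agent.R323.Mm.HilIbp

/-!
# Row 323, block B5a: THE RADIAL AVERAGE (tools of the symmetric criticality).   Architect helper235.   Prefix `mmAv`, `mm_`.   LEAVES `L-B-CR-POL`, `L-B-CR-DER`, `L-B-CR-LIP`.

`mmAv n p ξ x = ∫₀¹ ξ(s x/‖x‖) s^p ds` : the `0`-homogeneous function dual to the test function `ξ` (support in the punctured unit ball) with the weight `s^p`.
* `mmAv_hom`, `mmAv_lip`, `mmAv_mmLip` : it belongs to the class `MmLip`;
* `mmAv_fderiv` : its derivative in the directions `w ⊥ x`;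
* **`mm_polar`** : `n ∫_{B₁} H · mmAv n p ξ = ∫_{B₁} ‖x‖^{p+1-n} H ξ` for `H` bounded, measurable, `0`-homogeneous  (polar coordinates).
-/

set_option autoImplicit false
open scoped ContDiff ENNReal NNReal RealInnerProductSpace Topology
open MeasureTheory Metric Set Filter

namespace Claimed.Agent.R323

open Claimed.Agent.Gmt

variable {n : ℕ}

/-- the radial average of `ξ` with the weight `s^p` -/
noncomputable def mmAv (n p : ℕ) (ξ : E n → ℝ) (x : E n) : ℝ := ∫ s in (0 : ℝ)..1, ξ (s • (‖x‖⁻¹ • x)) * s ^ p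

theorem mm_unit_smul {t : ℝ} (ht : 0 < t) (x : E n) : ‖t • x‖⁻¹ • (t • x) = ‖x‖⁻¹ • x := by
  rw [norm_smul, Real.norm_of_nonneg ht.le, smul_smul, mul_inv, mul_assoc, mul_comm _ t, ← mul_assoc, inv_mul_cancel₀ ht.ne', one_mul]

theorem mmAv_hom (p : ℕ) (ξ : E n → ℝ) {t : ℝ} (ht : 0 < t) (x : E n) : mmAv n p ξ (t • x) = mmAv n p ξ x := by
  unfold mmAv
  rw [mm_unit_smul ht]

/-- **LEAF `L-B-CR-LIP`** (~40 l.).  On the sphere `‖x‖⁻¹ • x = x` (`inv_one`, `one_smul`).  `|∫₀¹ (ξ(s x) - ξ(s y)) s^p ds| ≤ ∫₀¹ K s ‖x - y‖ s^p ds ≤ K ‖x - y‖`: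
`intervalIntegral.integral_sub` (integrands continuous in `s`: `hξ.continuous`), `intervalIntegral.norm_integral_le_of_norm_le_const` with the constant `K * ‖x - y‖` (`|s| ≤ 1`, `|s^p| ≤ 1` on `Ι 0 1`; `dist (s • x) (s • y) = |s| dist x y`). -/
theorem mmAv_lip (p : ℕ) {ξ : E n → ℝ} {K : ℝ≥0} (hξ : LipschitzWith K ξ) : LipschitzOnWith K (mmAv n p ξ) (sphere 0 1) := by
  refine LipschitzOnWith.of_dist_le_mul fun x hx y hy => ?_
  rw [mem_sphere_zero_iff_norm] at hx hy
  have hci : ∀ v : E n, IntervalIntegrable (fun s : ℝ => ξ (s • v) * s ^ p) volume 0 1 := fun v =>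
    ((hξ.continuous.comp (continuous_id.smul continuous_const)).mul (continuous_pow p)).intervalIntegrable _ _
  unfold mmAv
  rw [hx, hy, inv_one, one_smul, one_smul, dist_eq_norm, ← intervalIntegral.integral_sub (hci x) (hci y)]
  have h := intervalIntegral.norm_integral_le_of_norm_le_const (a := (0 : ℝ)) (b := 1) (C := K * dist x y)
    (f := fun s : ℝ => ξ (s • x) * s ^ p - ξ (s • y) * s ^ p) (fun s hs => by
      rw [uIoc_of_le zero_le_one] at hs
      have h1 : ‖ξ (s • x) - ξ (s • y)‖ ≤ K * dist x y := by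
        rw [← dist_eq_norm]
        refine (hξ.dist_le_mul _ _).trans ?_
        rw [dist_smul₀, Real.norm_of_nonneg hs.1.le]
        have : s * dist x y ≤ 1 * dist x y := mul_le_mul_of_nonneg_right hs.2 dist_nonneg
        rw [one_mul] at this
        exact mul_le_mul_of_nonneg_left this K.2
      have h2 : ‖s ^ p‖ ≤ 1 := by
        rw [norm_pow, Real.norm_of_nonneg hs.1.le]
        exact pow_le_one₀ hs.1.le hs.2
      rw [← sub_mul, norm_mul]
      calc _ ≤ (K * dist x y) * 1 := mul_le_mul h1 h2 (norm_nonneg _) (by positivity)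
        _ = _ := mul_one _)
  simpa using h

theorem mmAv_mmLip (p : ℕ) {ξ : E n → ℝ} {K : ℝ≥0} (hξ : LipschitzWith K ξ) : MmLip n (mmAv n p ξ) :=
  ⟨fun _ ht x => mmAv_hom p ξ ht x, K, mmAv_lip p hξ⟩

/-- the derivative of the normalisation in a tangential direction -/
theorem mmAv_unit_hasFDerivAt {x : E n} (hx : x ≠ 0) : ∃ N' : E n →L[ℝ] E n, HasFDerivAt (fun y : E n => ‖y‖⁻¹ • y) N' x ∧
    ∀ w : E n, ⟪x, w⟫ = 0 → N' w = ‖x‖⁻¹ • w := by
  have hn : ‖x‖ ≠ 0 := norm_ne_zero_iff.2 hx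
  have h1 : HasFDerivAt (fun y : E n => ‖y‖ ^ 2) (2 • innerSL ℝ x) x := (hasStrictFDerivAt_norm_sq x).hasFDerivAt
  have h2 := h1.sqrt (pow_ne_zero 2 hn)
  have e : (fun y : E n => Real.sqrt (‖y‖ ^ 2)) = fun y => ‖y‖ := funext fun y => Real.sqrt_sq (norm_nonneg y)
  rw [e] at h2
  have h3 := (hasDerivAt_inv hn).comp_hasFDerivAt x h2
  have h4 := HasFDerivAt.smul h3 (hasFDerivAt_id x)
  refine ⟨_, h4, fun w hw => ?_⟩
  simp [hw]

/-- differentiation under the integral sign -/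
theorem mmAv_J_hasFDerivAt (p : ℕ) {φ : E n → ℝ} (hφ : ContDiff ℝ 1 φ) (hc : HasCompactSupport φ) (y : E n) :
    HasFDerivAt (fun y : E n => ∫ s in (0 : ℝ)..1, φ (s • y) * s ^ p) (∫ s in (0 : ℝ)..1, (s ^ (p + 1)) • fderiv ℝ φ (s • y)) y := by
  have hcd : Continuous (fderiv ℝ φ) := hφ.continuous_fderiv (by norm_num)
  obtain ⟨C, hC⟩ := hcd.bounded_above_of_compact_support (hc.fderiv (𝕜 := ℝ))
  have hcont : ∀ v : E n, Continuous fun s : ℝ => φ (s • v) * s ^ p := fun v =>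
    (hφ.continuous.comp (continuous_id.smul continuous_const)).mul (continuous_pow p)
  have hcont' : Continuous fun s : ℝ => (s ^ (p + 1)) • fderiv ℝ φ (s • y) :=
    (continuous_pow (p + 1)).smul (hcd.comp (continuous_id.smul continuous_const))
  refine intervalIntegral.hasFDerivAt_integral_of_dominated_of_fderiv_le (𝕜 := ℝ) (s := univ) (bound := fun _ => C)
    (F := fun (y : E n) (s : ℝ) => φ (s • y) * s ^ p) (F' := fun (y : E n) (s : ℝ) => (s ^ (p + 1)) • fderiv ℝ φ (s • y))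
    univ_mem (Eventually.of_forall fun v => (hcont v).aestronglyMeasurable) ((hcont y).intervalIntegrable _ _)
    hcont'.aestronglyMeasurable (Eventually.of_forall fun s hs v _ => ?_) intervalIntegrable_const
    (Eventually.of_forall fun s _ v _ => ?_)
  · rw [uIoc_of_le zero_le_one] at hs
    rw [norm_smul, norm_pow, Real.norm_of_nonneg hs.1.le]
    calc s ^ (p + 1) * ‖fderiv ℝ φ (s • v)‖ ≤ 1 * C := mul_le_mul (pow_le_one₀ hs.1.le hs.2) (hC _) (norm_nonneg _) zero_le_one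
      _ = C := one_mul C
  · have h1 : HasFDerivAt (fun v : E n => s • v) (s • ContinuousLinearMap.id ℝ (E n)) v := (hasFDerivAt_id v).const_smul s
    have h2 : HasFDerivAt φ (fderiv ℝ φ (s • v)) (s • v) := (hφ.differentiable (by norm_num) _).hasFDerivAt
    have h3 : HasFDerivAt (fun v : E n => φ (s • v) * s ^ p) ((s ^ p) • (fderiv ℝ φ (s • v)).comp (s • ContinuousLinearMap.id ℝ (E n))) v :=
      (h2.comp v h1).mul_const (s ^ p)
    have e : (s ^ (p + 1)) • fderiv ℝ φ (s • v) = (s ^ p) • (fderiv ℝ φ (s • v)).comp (s • ContinuousLinearMap.id ℝ (E n)) := by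
      ext w
      simp only [_root_.smul_apply, ContinuousLinearMap.comp_apply, ContinuousLinearMap.id_apply, map_smul, smul_eq_mul, pow_succ]
      ring
    rw [e]
    exact h3

/-- **LEAF `L-B-CR-DER`** (~150 l.): the derivative of the radial average in a tangential direction.
PLAN.  `J y := ∫ s in 0..1, φ (s • y) * s ^ p`, so `mmAv n p φ = J ∘ N`, `N x = ‖x‖⁻¹ • x`.
(1) `HasFDerivAt J (∫ s in 0..1, (s ^ (p + 1)) • fderiv ℝ φ (s • y)) y` : `intervalIntegral.hasFDerivAt_integral_of_dominated_of_fderiv_le` (`s := univ`/a ball, bound = the constant `sup ‖fderiv φ‖`, which exists since `fderiv φ` is continuous with compact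
support: `hc.fderiv`, `Continuous.bounded_above_of_compact_support`); `HasFDerivAt (fun y => φ (s • y) * s ^ p) ((s ^ p * s) • fderiv ℝ φ (s • y)) y` by the chain rule with `y ↦ s • y`.
(2) `HasFDerivAt N (‖x‖⁻¹ • id - (‖x‖⁻¹ ^ 3) • (innerSL x).smulRight x) x` for `x ≠ 0` (`hasStrictFDerivAt_norm_sq` / `HasFDerivAt.norm`-type lemmas: `(contDiffAt_norm ℝ hx)`, `fderiv_norm..`; or write `‖x‖ = √⟪x,x⟫`); only its value at `w ⊥ x` matters: `‖x‖⁻¹ • w`.
   SHORTCUT which avoids (2): since `mmAv` is `0`-homogeneous and `J ∘ N` is differentiable at `x` (composition), compute the derivative along the curve `t ↦ x + t • w`: `‖x + t w‖² = ‖x‖² + t² ‖w‖²`, so `d/dt ‖x + t w‖⁻¹ = 0` at `t = 0`.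
(3) chain rule, `ContinuousLinearMap.intervalIntegral_apply` to evaluate the integral of operators at `w`. -/
theorem mmAv_fderiv (p : ℕ) {φ : E n → ℝ} (hφ : ContDiff ℝ 1 φ) (hc : HasCompactSupport φ) {x w : E n} (hx : x ≠ 0) (hw : ⟪x, w⟫ = 0) :
    ‖x‖ * fderiv ℝ (mmAv n p φ) x w = ∫ s in (0 : ℝ)..1, fderiv ℝ φ (s • (‖x‖⁻¹ • x)) w * s ^ (p + 1) := by
  have hn : ‖x‖ ≠ 0 := norm_ne_zero_iff.2 hx
  obtain ⟨N', hN, hNw⟩ := mmAv_unit_hasFDerivAt hx
  have hJ := mmAv_J_hasFDerivAt p hφ hc (‖x‖⁻¹ • x)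
  have hcomp : HasFDerivAt (mmAv n p φ) ((∫ s in (0 : ℝ)..1, (s ^ (p + 1)) • fderiv ℝ φ (s • (‖x‖⁻¹ • x))).comp N') x :=
    HasFDerivAt.comp (g := fun y : E n => ∫ s in (0 : ℝ)..1, φ (s • y) * s ^ p) (f := fun y : E n => ‖y‖⁻¹ • y) x hJ hN
  have hcd : Continuous (fderiv ℝ φ) := hφ.continuous_fderiv (by norm_num)
  have hcont' : Continuous fun s : ℝ => (s ^ (p + 1)) • fderiv ℝ φ (s • (‖x‖⁻¹ • x)) :=
    (continuous_pow (p + 1)).smul (hcd.comp (continuous_id.smul continuous_const))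
  rw [hcomp.fderiv, ContinuousLinearMap.comp_apply, hNw w hw, map_smul, smul_eq_mul, ← mul_assoc, mul_inv_cancel₀ hn, one_mul,
    ContinuousLinearMap.intervalIntegral_apply (hcont'.intervalIntegrable _ _)]
  refine intervalIntegral.integral_congr fun s _ => ?_
  simp [mul_comm]

/-- general polar coordinates on `E n` -/
theorem mm_pol_gen (hn : 1 ≤ n) {f : E n → ℝ} (hf : Integrable f volume) :
    ∫ x, f x = ∫ w : sphere (0 : E n) 1, (∫ r in Ioi (0:ℝ), r ^ (n - 1) * f (r • w.1)) ∂(volume : Measure (E n)).toSphere := by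
  have : Nonempty (Fin n) := ⟨⟨0, by omega⟩⟩
  have : Nontrivial (E n) := inferInstance
  have hdim : Module.finrank ℝ (E n) = n := by simp
  have hmp := (volume : Measure (E n)).measurePreserving_homeomorphUnitSphereProd
  rw [hdim] at hmp
  let g : sphere (0 : E n) 1 × Ioi (0:ℝ) → ℝ := fun z => f (z.2.1 • z.1.1)
  have hg : ∀ x : ({0}ᶜ : Set (E n)), g (homeomorphUnitSphereProd (E n) x) = f x.1 := by
    intro x
    have hx : ‖x.1‖ ≠ 0 := norm_ne_zero_iff.2 x.2
    simp only [g, homeomorphUnitSphereProd_apply_snd_coe, homeomorphUnitSphereProd_apply_fst_coe, smul_smul,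
      mul_inv_cancel₀ hx, one_smul]
  have h1 : ∫ x, f x = ∫ x : ({0}ᶜ : Set (E n)), f x.1 ∂((volume : Measure (E n)).comap (↑)) := by
    rw [integral_subtype_comap (measurableSet_singleton _).compl fun x ↦ f x, restrict_compl_singleton]
  have h2 : ∫ x : ({0}ᶜ : Set (E n)), f x.1 ∂((volume : Measure (E n)).comap (↑)) =
      ∫ z, g z ∂((volume : Measure (E n)).toSphere.prod (.volumeIoiPow (n - 1))) := by
    rw [← hmp.integral_comp (Homeomorph.measurableEmbedding _) g]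
    simp only [hg]
  have hgi : Integrable g ((volume : Measure (E n)).toSphere.prod (.volumeIoiPow (n - 1))) := by
    rw [← hmp.integrable_comp_emb (Homeomorph.measurableEmbedding _)]
    have e : (g ∘ homeomorphUnitSphereProd (E n)) = fun x => f x.1 := funext hg
    rw [e]
    exact (integrableOn_iff_comap_subtypeVal (measurableSet_singleton (0 : E n)).compl).1 hf.integrableOn
  rw [h1, h2, integral_prod _ hgi]
  congr 1; ext w
  simp only [Measure.volumeIoiPow, ENNReal.ofReal, g]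
  rw [integral_withDensity_eq_integral_smul,
    integral_subtype_comap measurableSet_Ioi fun a ↦ Real.toNNReal (a ^ (n - 1)) • f (a • w.1),
    setIntegral_congr_fun measurableSet_Ioi fun x hx ↦ ?_]
  · rw [NNReal.smul_def, Real.coe_toNNReal _ (pow_nonneg hx.out.le _), smul_eq_mul]
  · exact (measurable_subtype_coe.pow_const _).real_toNNReal

theorem mm_pol_mem {w : E n} (hw : ‖w‖ = 1) {r : ℝ} (hr : 0 < r) : r • w ∈ ball (0 : E n) 1 ↔ r < 1 := by
  rw [mem_ball_zero_iff, norm_smul, hw, mul_one, Real.norm_of_nonneg hr.le]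

theorem mm_pol_J_cont (p : ℕ) {ξ : E n → ℝ} (hξ : Continuous ξ) :
    Continuous fun y : E n => ∫ s in (0 : ℝ)..1, ξ (s • y) * s ^ p := by
  apply intervalIntegral.continuous_parametric_intervalIntegral_of_continuous
  · fun_prop
  · exact continuous_const

theorem mm_pol_av_meas (p : ℕ) {ξ : E n → ℝ} (hξ : Continuous ξ) : Measurable (mmAv n p ξ) := by
  have h : Measurable fun x : E n => ‖x‖⁻¹ • x := by fun_prop
  exact (mm_pol_J_cont p hξ).measurable.comp h

theorem mm_pol_av_bdd (p : ℕ) {ξ : E n → ℝ} {B : ℝ} (hB : ∀ x, |ξ x| ≤ B) (x : E n) : |mmAv n p ξ x| ≤ B := by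
  unfold mmAv
  have h := intervalIntegral.norm_integral_le_of_norm_le_const (a := (0:ℝ)) (b := 1) (C := B)
    (f := fun s => ξ (s • (‖x‖⁻¹ • x)) * s ^ p) (fun s hs => by
      rw [uIoc_of_le zero_le_one] at hs
      rw [Real.norm_eq_abs, abs_mul, abs_of_nonneg (pow_nonneg hs.1.le p)]
      have hB0 : 0 ≤ B := (abs_nonneg _).trans (hB 0)
      calc _ ≤ B * 1 := mul_le_mul (hB _) (pow_le_one₀ hs.1.le hs.2) (pow_nonneg hs.1.le p) hB0
        _ = B := mul_one B)
  simpa using h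

/-- **LEAF `L-B-CR-POL`** (~200 l.): **POLAR COORDINATES**.
ROUTE A (Mathlib polar coordinates).  `Measure.measurePreserving_homeomorphUnitSphereProd volume` (see the proof of `integral_fun_norm_addHaar`, `Mathlib/MeasureTheory/Constructions/HaarToSphere.lean`): for integrable `f`,
`∫ f = ∫_{ω ∈ S} ∫_{r > 0} r^{n-1} f(r ω) dr dσ(ω)`.  Left side: `f = 1_{B₁} H · mmAv`, `f (r ω) = 1_{r<1} H ω · mmAv ω`, `n ∫₀¹ r^{n-1} dr = 1`.  Right side: `f (r ω) = 1_{r<1} r^{p+1-n} H ω ξ(r ω)`, `r^{n-1} r^{p+1-n} = r^p`.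
ROUTE B (Fubini + dilations, no sphere).  `mmAv n p ξ x = ‖x‖^{p+1} ∫_{t>0} ξ(t x) t^p dt` (substitution `s = t ‖x‖`; `ξ (t x) = 0` for `t ‖x‖ ≥ 1`);  Fubini;  for fixed `t`: `y = t x`
(`Measure.setIntegral_comp_smul_of_pos`), `H (y/t) = H y`: `∫_{B₁} H(x) ‖x‖^{p+1} ξ(t x) dx = t^{-n-p-1} ∫_{B_t} H ‖y‖^{p+1} ξ`;  Fubini again;  `∫_{t > ‖y‖} t^{-n-1} dt = ‖y‖^{-n}/n` (`integral_Ioi_rpow_of_lt`).
Integrability: `ξ` is bounded with support in `{r₀ ≤ ‖y‖ ≤ 1}`. -/
theorem mm_polar (hn : 1 ≤ n) (p : ℕ) {H : E n → ℝ} (hH : Measurable H) {C : ℝ} (hHb : ∀ x, |H x| ≤ C) (hHh : ∀ t : ℝ, 0 < t → ∀ x, H (t • x) = H x)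
    {ξ : E n → ℝ} (hξ : Continuous ξ) (hs : tsupport ξ ⊆ mmOm n) :
    (n : ℝ) * ∫ x, H x * mmAv n p ξ x ∂(mmNu n) = ∫ x, ‖x‖ ^ (p + 1) * (‖x‖ ^ n)⁻¹ * (H x * ξ x) ∂(mmNu n) := by
  have hC0 : 0 ≤ C := (abs_nonneg _).trans (hHb 0)
  -- `ξ` is bounded
  have hcs : HasCompactSupport ξ := by
    apply IsCompact.of_isClosed_subset (isCompact_closedBall (0 : E n) 1) (isClosed_tsupport ξ)
    exact hs.trans (sdiff_subset.trans ball_subset_closedBall)
  obtain ⟨B, hB⟩ : ∃ B, ∀ x, |ξ x| ≤ B := by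
    obtain ⟨B, hB⟩ := hξ.bounded_above_of_compact_support hcs
    exact ⟨B, fun x => by simpa using hB x⟩
  have hB0 : 0 ≤ B := (abs_nonneg _).trans (hB 0)
  -- `ξ` vanishes near `0`
  obtain ⟨r₀, hr₀, hz⟩ : ∃ r₀ : ℝ, 0 < r₀ ∧ ∀ x, ‖x‖ < r₀ → ξ x = 0 := by
    have h0 : (0 : E n) ∉ tsupport ξ := fun h => (hs h).2 rfl
    have ho : (tsupport ξ)ᶜ ∈ 𝓝 (0 : E n) := (isClosed_tsupport ξ).isOpen_compl.mem_nhds h0
    obtain ⟨r₀, hr₀, hb⟩ := Metric.mem_nhds_iff.1 ho
    exact ⟨r₀, hr₀, fun x hx => image_eq_zero_of_notMem_tsupport (hb (by simpa using hx))⟩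
  have hfin : (volume : Measure (E n)) (ball 0 1) ≠ ⊤ := measure_ball_lt_top.ne
  have hAm := mm_pol_av_meas (n := n) p hξ
  -- integrability
  have hi1 : Integrable ((ball (0 : E n) 1).indicator fun x => H x * mmAv n p ξ x) volume := by
    rw [integrable_indicator_iff measurableSet_ball]
    apply Measure.integrableOn_of_bounded hfin (hH.mul hAm).aestronglyMeasurable (M := C * B)
    refine Eventually.of_forall fun x => ?_
    rw [Real.norm_eq_abs, Pi.mul_apply, abs_mul]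
    exact mul_le_mul (hHb x) (mm_pol_av_bdd p hB x) (abs_nonneg _) hC0
  have hi2 : Integrable ((ball (0 : E n) 1).indicator fun x => ‖x‖ ^ (p + 1) * (‖x‖ ^ n)⁻¹ * (H x * ξ x)) volume := by
    rw [integrable_indicator_iff measurableSet_ball]
    have hm : Measurable fun x : E n => ‖x‖ ^ (p + 1) * (‖x‖ ^ n)⁻¹ * (H x * ξ x) := by
      have := hξ.measurable
      fun_prop
    apply Measure.integrableOn_of_bounded hfin hm.aestronglyMeasurable (M := 1 * (r₀ ^ n)⁻¹ * (C * B))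
    filter_upwards [ae_restrict_mem measurableSet_ball] with x hx
    rw [mem_ball_zero_iff] at hx
    by_cases hx0 : ‖x‖ < r₀
    · rw [hz x hx0]; simp only [mul_zero, norm_zero]; positivity
    · rw [not_lt] at hx0
      rw [Real.norm_eq_abs, abs_mul, abs_mul, abs_mul, abs_of_nonneg (by positivity : 0 ≤ ‖x‖ ^ (p + 1)),
        abs_of_nonneg (by positivity : 0 ≤ (‖x‖ ^ n)⁻¹)]
      apply mul_le_mul _ (mul_le_mul (hHb x) (hB x) (abs_nonneg _) hC0) (by positivity) (by positivity)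
      apply mul_le_mul (pow_le_one₀ (norm_nonneg _) hx.le) _ (by positivity) zero_le_one
      exact inv_anti₀ (by positivity) (pow_le_pow_left₀ hr₀.le hx0 n)
  unfold mmNu
  rw [← integral_indicator measurableSet_ball, ← integral_indicator measurableSet_ball, mm_pol_gen hn hi1, mm_pol_gen hn hi2,
    ← integral_const_mul]
  congr 1; ext w
  have hw : ‖w.1‖ = 1 := by simp
  have hAw : mmAv n p ξ w.1 = ∫ s in (0 : ℝ)..1, ξ (s • w.1) * s ^ p := by
    unfold mmAv; rw [hw, inv_one, one_smul]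
  have hn0 : (n : ℝ) ≠ 0 := by positivity
  -- inner integral 1
  have e1 : ∫ r in Ioi (0:ℝ), r ^ (n - 1) * (ball (0 : E n) 1).indicator (fun x => H x * mmAv n p ξ x) (r • w.1) =
      (n : ℝ)⁻¹ * (H w.1 * mmAv n p ξ w.1) := by
    have : ∀ r ∈ Ioi (0:ℝ), r ^ (n - 1) * (ball (0 : E n) 1).indicator (fun x => H x * mmAv n p ξ x) (r • w.1) =
        (Iio (1:ℝ)).indicator (fun r => r ^ (n - 1) * (H w.1 * mmAv n p ξ w.1)) r := by
      intro r hr
      by_cases h1 : r < 1
      · rw [indicator_of_mem ((mm_pol_mem hw hr).2 h1), indicator_of_mem (show r ∈ Iio (1:ℝ) from h1), hHh r hr]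
        congr 2
        unfold mmAv
        rw [norm_smul, Real.norm_of_nonneg (le_of_lt hr), smul_smul, mul_inv, mul_assoc, mul_comm _ r, ← mul_assoc,
          inv_mul_cancel₀ (ne_of_gt hr), one_mul]
      · rw [indicator_of_notMem (fun h => h1 ((mm_pol_mem hw hr).1 h)), indicator_of_notMem (show r ∉ Iio (1:ℝ) from h1), mul_zero]
    rw [setIntegral_congr_fun measurableSet_Ioi this, setIntegral_indicator measurableSet_Iio, Ioi_inter_Iio,
      ← integral_Ioc_eq_integral_Ioo, ← intervalIntegral.integral_of_le zero_le_one, intervalIntegral.integral_mul_const,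
      integral_pow, Nat.sub_add_cancel hn]
    have : ((n - 1 : ℕ) : ℝ) + 1 = n := by
      rw [Nat.cast_sub hn]; simp
    rw [this, one_pow, zero_pow (by omega)]
    simp
  have e2 : ∫ r in Ioi (0:ℝ), r ^ (n - 1) * (ball (0 : E n) 1).indicator (fun x => ‖x‖ ^ (p + 1) * (‖x‖ ^ n)⁻¹ * (H x * ξ x)) (r • w.1) =
      H w.1 * mmAv n p ξ w.1 := by
    have : ∀ r ∈ Ioi (0:ℝ), r ^ (n - 1) * (ball (0 : E n) 1).indicator (fun x => ‖x‖ ^ (p + 1) * (‖x‖ ^ n)⁻¹ * (H x * ξ x)) (r • w.1) =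
        (Iio (1:ℝ)).indicator (fun r => H w.1 * (ξ (r • w.1) * r ^ p)) r := by
      intro r hr
      have hr' : (0:ℝ) < r := hr
      by_cases h1 : r < 1
      · rw [indicator_of_mem ((mm_pol_mem hw hr).2 h1), indicator_of_mem (show r ∈ Iio (1:ℝ) from h1), hHh r hr,
          norm_smul, hw, mul_one, Real.norm_of_nonneg hr'.le]
        obtain ⟨m, rfl⟩ : ∃ m, n = m + 1 := ⟨n - 1, by omega⟩
        simp only [Nat.add_sub_cancel]
        field_simp
        ring
      · rw [indicator_of_notMem (fun h => h1 ((mm_pol_mem hw hr).1 h)), indicator_of_notMem (show r ∉ Iio (1:ℝ) from h1), mul_zero]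
    rw [setIntegral_congr_fun measurableSet_Ioi this, setIntegral_indicator measurableSet_Iio, Ioi_inter_Iio,
      ← integral_Ioc_eq_integral_Ioo, ← intervalIntegral.integral_of_le zero_le_one, intervalIntegral.integral_const_mul, hAw]
  rw [e1, e2, ← mul_assoc, mul_inv_cancel₀ hn0, one_mul]

end Claimed.Agent.R323
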