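import Claimed.Agent.R323.Mm.HilIbp

/-!
# Row 323, block B: (H3) THE CHAIN RULE IN `mmHil`.   helper235.   NO SORRY IN THIS FILE (rests on the leaves of `Mm/HilBase.lean`).

`mm_chain` : `β ∈ C¹`, `|β'| ≤ C`, `z = (u, g) ∈ mmHil n ε`  ⟹  `∃ w ∈ mmHil n ε`, `w.fst = β(u)`, `w.snd = β'(u) g` a.e.
Proof: `mm_seq_ae` (a.e. + `L²` approximation by the class), `MmLip.comp`, `mmGr_comp`; first component: Lipschitz; second component: Vitali (`tendsto_Lp_finite_of_tendsto_ae`), the family `β'(U_k) g_k` is dominated by the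
`L²`-convergent, hence uniformly integrable, family `C |g_k|` (`mm_unifInt_of_le`).
-/

set_option autoImplicit false
open scoped ContDiff ENNReal NNReal RealInnerProductSpace Topology
open MeasureTheory Metric Set Filter
namespace Claimed.Agent.R323
open Claimed.Agent.Gmt
variable {n : ℕ} {ε : ℝ}


/-- domination preserves uniform integrability -/
theorem mm_unifInt_of_le {α ι F G : Type*} [MeasurableSpace α] {μ : Measure α} [NormedAddCommGroup F] [NormedAddCommGroup G] {p : ℝ≥0∞}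
    {f : ι → α → F} {h : ι → α → G} {C : ℝ≥0} (hh : UnifIntegrable h p μ) (hle : ∀ k, ∀ᵐ x ∂μ, ‖f k x‖₊ ≤ C * ‖h k x‖₊) : UnifIntegrable f p μ := by
  intro η hη
  obtain ⟨δ, hδ, H⟩ := hh (ε := η / (C + 1)) (by positivity)
  refine ⟨δ, hδ, fun k s hs hμ => ?_⟩
  have h1 : eLpNorm (s.indicator (f k)) p μ ≤ C • eLpNorm (s.indicator (h k)) p μ := by
    refine eLpNorm_le_nnreal_smul_eLpNorm_of_ae_le_mul ?_ p
    filter_upwards [hle k] with x hx
    by_cases hxs : x ∈ s
    · rwa [indicator_of_mem hxs, indicator_of_mem hxs]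
    · rw [indicator_of_notMem hxs, indicator_of_notMem hxs]
      simp
  refine h1.trans ?_
  calc C • eLpNorm (s.indicator (h k)) p μ ≤ C • ENNReal.ofReal (η / (C + 1)) := by
        gcongr
        exact H k s hs hμ
    _ = ENNReal.ofReal (C * (η / (C + 1))) := by
        rw [ENNReal.smul_def, smul_eq_mul, ENNReal.ofReal_mul C.coe_nonneg, ENNReal.ofReal_coe_nnreal]
    _ ≤ ENNReal.ofReal η := by
        refine ENNReal.ofReal_le_ofReal ?_
        have hC : (0 : ℝ) ≤ C := C.coe_nonneg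
        rw [mul_div_assoc', div_le_iff₀ (by positivity)]
        nlinarith


theorem mm_lip_of_deriv {β β' : ℝ → ℝ} (hβ : ∀ s, HasDerivAt β (β' s) s) {C : ℝ≥0} (hC : ∀ s, |β' s| ≤ C) : LipschitzWith C β := by
  refine lipschitzWith_of_nnnorm_deriv_le (fun s => (hβ s).differentiableAt) fun s => ?_
  rw [(hβ s).deriv, ← NNReal.coe_le_coe, coe_nnnorm, Real.norm_eq_abs]
  exact hC s

/-- **(H3) THE CHAIN RULE IN `mmHil`**: `(β(u), β'(u) g) ∈ mmHil` for `β ∈ C¹` with bounded derivative. -/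
theorem mm_chain {β β' : ℝ → ℝ} (hβ : ∀ s, HasDerivAt β (β' s) s) (hc : Continuous β') {C : ℝ≥0} (hC : ∀ s, |β' s| ≤ C)
    {z : MmAmb n} (hz : z ∈ mmHil n ε) :
    ∃ w ∈ mmHil n ε, ((w.fst : E n → ℝ) =ᵐ[mmNu n] fun x => β (z.fst x)) ∧ ((w.snd : E n → E n) =ᵐ[mmNu n] fun x => β' (z.fst x) • z.snd x) := by
  have hlip := mm_lip_of_deriv hβ hC
  obtain ⟨U, hU, hlim, hae1, hae2⟩ := mm_seq_ae hz
  -- the limit
  have hf : MemLp (fun x => β (z.fst x)) 2 (mmNu n) := by
    have h1 : MemLp ((fun s => β s - β 0) ∘ (z.fst : E n → ℝ)) 2 (mmNu n) :=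
      LipschitzWith.comp_memLp (K := C) (LipschitzWith.of_dist_le_mul fun a b => by
        have := hlip.dist_le_mul a b
        simpa [Real.dist_eq] using this) (by simp) (Lp.memLp z.fst)
    have h2 := h1.add (memLp_const (β 0))
    refine h2.ae_eq (Eventually.of_forall fun x => ?_)
    simp
  have hG : MemLp (fun x => β' (z.fst x) • z.snd x) 2 (mmNu n) := by
    refine (Lp.memLp z.snd).of_le_mul (c := C) ?_ (Eventually.of_forall fun x => ?_)
    · exact (hc.comp_aestronglyMeasurable (Lp.aestronglyMeasurable z.fst)).smul (Lp.aestronglyMeasurable z.snd)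
    · rw [norm_smul, Real.norm_eq_abs]
      gcongr
      exact hC _
  refine ⟨WithLp.toLp 2 (hf.toLp _, hG.toLp _), ?_, hf.coeFn_toLp, hG.coeFn_toLp⟩
  have hV : ∀ k, MmLip n fun x => β (U k x) := fun k => (hU k).comp hlip
  -- convergence of the first components
  have t1 : Tendsto (fun k => (mmEmb n ε fun x => β (U k x)).fst) atTop (𝓝 (hf.toLp _)) := by
    rw [Lp.tendsto_Lp_iff_tendsto_eLpNorm]
    have h0 := (Lp.tendsto_Lp_iff_tendsto_eLpNorm' _ _).1 (mm_fst_tendsto hlim)
    have h1 : Tendsto (fun k => C • eLpNorm (⇑(mmEmb n ε (U k)).fst - ⇑z.fst) 2 (mmNu n)) atTop (𝓝 0) := by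
      have := ENNReal.Tendsto.const_mul (a := (C : ℝ≥0∞)) h0 (Or.inr ENNReal.coe_ne_top)
      simpa [ENNReal.smul_def] using this
    refine tendsto_of_tendsto_of_tendsto_of_le_of_le tendsto_const_nhds h1 (fun _ => zero_le) fun k => ?_
    refine eLpNorm_le_nnreal_smul_eLpNorm_of_ae_le_mul ?_ 2
    filter_upwards [mmEmb_fst ε (hV k), mmEmb_fst ε (hU k)] with x h1 h2
    simp only [Pi.sub_apply]
    rw [h1, h2, ← NNReal.coe_le_coe]
    push_cast
    have := hlip.dist_le_mul (U k x) (z.fst x)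
    simpa [Real.dist_eq] using this
  -- convergence of the second components
  have t2 : Tendsto (fun k => (mmEmb n ε fun x => β (U k x)).snd) atTop (𝓝 (hG.toLp _)) := by
    rw [Lp.tendsto_Lp_iff_tendsto_eLpNorm]
    have h0 := (Lp.tendsto_Lp_iff_tendsto_eLpNorm' _ _).1 (mm_snd_tendsto hlim)
    have hui : UnifIntegrable (fun k => (⇑(mmEmb n ε (U k)).snd : E n → E n)) 2 (mmNu n) :=
      unifIntegrable_of_tendsto_Lp (by norm_num) (by norm_num) (fun k => Lp.memLp _) (Lp.memLp z.snd) h0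
    have hsnd : ∀ k, (⇑(mmEmb n ε fun x => β (U k x)).snd : E n → E n) =ᵐ[mmNu n] fun x => β' (U k x) • mmGr n ε (U k) x := by
      intro k
      filter_upwards [mmEmb_snd ε (hV k), (hU k).ae_differentiableAt'] with x h1 h2
      rw [h1]
      exact mmGr_comp ε h2 (hβ _)
    have hui2 : UnifIntegrable (fun k => (⇑(mmEmb n ε fun x => β (U k x)).snd : E n → E n)) 2 (mmNu n) := by
      refine mm_unifInt_of_le (C := C) hui fun k => ?_
      filter_upwards [hsnd k, mmEmb_snd ε (hU k)] with x h1 h2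
      rw [h1, h2, nnnorm_smul]
      gcongr
      rw [← NNReal.coe_le_coe, coe_nnnorm, Real.norm_eq_abs]
      exact hC _
    refine tendsto_Lp_finite_of_tendsto_ae (by norm_num) (by norm_num) (fun k => Lp.aestronglyMeasurable _) hG hui2 ?_
    filter_upwards [hae1, hae2, ae_all_iff.2 hsnd] with x h1 h2 h3
    have : Tendsto (fun k => β' (U k x) • mmGr n ε (U k) x) atTop (𝓝 (β' (z.fst x) • z.snd x)) :=
      ((hc.tendsto _).comp h1).smul h2
    exact this.congr fun k => (h3 k).symm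
  have t3 : Tendsto (fun k => mmEmb n ε fun x => β (U k x)) atTop (𝓝 (WithLp.toLp 2 (hf.toLp _, hG.toLp _))) :=
    ((WithLp.prod_continuous_toLp 2 _ _).tendsto _).comp (t1.prodMk_nhds t2)
  exact (mmHil_isClosed n ε).mem_of_tendsto t3 (Eventually.of_forall fun k => mmEmb_mem ε _)

end Claimed.Agent.R323
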