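import Claimed.Agent.R323.Mm.En
import Claimed.Agent.R323.Mm.HilComp
import Claimed.Agent.R323.Mm.CritAv

/-!
# Row 323, block B5a: CRITICAL POINTS ARE FLAT WEAK SOLUTIONS.   Owner helper235 (statement of `mm_crit` by helper120).   NO SORRY IN THIS FILE
(rests on: `mm_crit_test` (`Mm/En.lean`), the leaves of `Mm/HilBase.lean`, and the three leaves of `Mm/CritAv.lean`: `mm_polar`, `mmAv_fderiv`, `mmAv_lip`).

`mmD n ε z = 0` means `∫ (2 ⟪g, γ⟫ + (2 u + b(u)) v) dν = 0` for all `(v, γ) ∈ mmHil n ε` (`mm_crit_test`).    `2 s + b(s) = W̃'(s)`.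
1. `mm_crit_bdd` : `|u| ≤ 1` a.e.: test with `(σ mmG(σ u), mmG'(σ u) g)`, `σ = ±1` (chain rule `mm_chain`): `∫ 2 mmG'(σu)|g|² + W̃'(σu) mmG(σu) = 0`, both terms `≥ 0`, `W̃'(s) mmG(s) > 0` for `s > 1`.
2. SYMMETRIC CRITICALITY: for a test function `φ` put `v = mmAv n (n-3) φ`.  `mm_sym0` : `n ∫ W̃'(u) v dν = ∫ ‖x‖⁻² W̃'(u) φ dν`;  `mm_sym1` : `n ∫ ⟪g, mmGr v⟫ dν = (ε/√2) ∫ ‖x‖⁻¹ ⟪g, ∇φ⟫ dν`.
   Both identities are closed conditions on `z` (`mm_cont_F`, `mm_cont_snd`), so by `mm_induction` it is enough to prove them on the class `MmLip`, where they are `mm_polar` (+ `mmAv_fderiv`, `mmGr_tang`).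
3. `mm_crit` : assembly.
-/

set_option autoImplicit false
open scoped ContDiff ENNReal NNReal RealInnerProductSpace Topology
open MeasureTheory Metric Set Filter

namespace Claimed.Agent.R323

open Claimed.Agent.Gmt

variable {n : ℕ} {ε : ℝ}

/-! ### integrability and continuity of the pairings -/

theorem mm_int_snd (z : MmAmb n) {ψ : E n → E n} (hψ : MemLp ψ 2 (mmNu n)) : Integrable (fun x => ⟪z.snd x, ψ x⟫) (mmNu n) := by
  refine (L2.integrable_inner z.snd (hψ.toLp ψ)).congr ?_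
  filter_upwards [hψ.coeFn_toLp] with x hx
  rw [hx]

theorem mm_memLp_F (z : MmAmb n) : MemLp (fun x => 2 * z.fst x + mmb (z.fst x)) 2 (mmNu n) := by
  have h1 : MemLp (fun x => 2 * z.fst x) 2 (mmNu n) := (Lp.memLp z.fst).const_mul 2
  have h2 : MemLp (fun x => mmb (z.fst x)) 2 (mmNu n) :=
    MemLp.of_bound (mmb_continuous.comp_aestronglyMeasurable (Lp.aestronglyMeasurable z.fst)) 2
      (Eventually.of_forall fun x => by rw [Real.norm_eq_abs]; exact mmb_abs_le _)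
  exact h1.add h2

theorem mm_int_F (z : MmAmb n) {ψ : E n → ℝ} (hψ : MemLp ψ 2 (mmNu n)) :
    Integrable (fun x => (2 * z.fst x + mmb (z.fst x)) * ψ x) (mmNu n) :=
  (mm_memLp_F z).integrable_mul hψ

theorem mm_cont_snd {ψ : E n → E n} (hψ : MemLp ψ 2 (mmNu n)) : Continuous fun z : MmAmb n => ∫ x, ⟪z.snd x, ψ x⟫ ∂(mmNu n) := by
  have h0 : MemLp (fun _ : E n => (0 : ℝ)) 2 (mmNu n) := MemLp.zero
  have e : (fun z : MmAmb n => ∫ x, ⟪z.snd x, ψ x⟫ ∂(mmNu n)) = fun z : MmAmb n => ⟪z, (WithLp.toLp 2 (h0.toLp _, hψ.toLp ψ) : MmAmb n)⟫ := by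
    funext z
    rw [mm_pair]
    simp
  rw [e]
  exact continuous_id.inner continuous_const

theorem mm_cont_F {ψ : E n → ℝ} (hψ : MemLp ψ 2 (mmNu n)) :
    Continuous fun z : MmAmb n => ∫ x, (2 * z.fst x + mmb (z.fst x)) * ψ x ∂(mmNu n) := by
  have e : (fun z : MmAmb n => ∫ x, (2 * z.fst x + mmb (z.fst x)) * ψ x ∂(mmNu n))
      = fun z : MmAmb n => ⟪hψ.toLp ψ, (2 : ℝ) • z.fst + mmbLp z.fst⟫ := by
    funext z
    rw [L2.inner_def]
    refine integral_congr_ae ?_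
    filter_upwards [hψ.coeFn_toLp, Lp.coeFn_add ((2 : ℝ) • z.fst) (mmbLp z.fst), Lp.coeFn_smul (2 : ℝ) z.fst,
      mmb_lipschitzWith.coeFn_compLp mmb_zero z.fst] with x h1 h2 h3 h4
    rw [h1, h2, Pi.add_apply, h3, Pi.smul_apply]
    unfold mmbLp
    rw [h4]
    simp only [Function.comp_apply, smul_eq_mul]
    simp [mul_comm]
  rw [e]
  have c1 : Continuous fun z : MmAmb n => z.fst := (WithLp.prod_continuous_ofLp 2 _ _).fst
  have c2 : Continuous fun z : MmAmb n => mmbLp z.fst := (mmb_lipschitzWith.continuous_compLp mmb_zero).comp c1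
  exact continuous_const.inner ((c1.const_smul (2 : ℝ)).add c2)


/-! ### `|u| ≤ 1` -/

theorem mm_F_sign {σ : ℝ} (hσ : σ = 1 ∨ σ = -1) (s : ℝ) : (2 * s + mmb s) * σ = 2 * (σ * s) + mmb (σ * s) := by
  rcases hσ with rfl | rfl
  · simp
  · rw [neg_one_mul, mmb_neg]
    ring

theorem mm_F_G_nonneg (s : ℝ) : 0 ≤ (2 * s + mmb s) * mmG s := by
  rcases le_or_gt s 1 with h | h
  · rw [mmG_of_le h, mul_zero]
  · exact mul_nonneg (mmWt_deriv_pos h).le (mmG_nonneg s)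

theorem mm_crit_side (hε : 0 < ε) {z : mmHil n ε} (hz : mmD n ε z = 0) {σ : ℝ} (hσ : σ = 1 ∨ σ = -1) :
    ∀ᵐ x ∂(mmNu n), σ * (z : MmAmb n).fst x ≤ 1 := by
  have hσ2 : σ * σ = 1 := by rcases hσ with rfl | rfl <;> norm_num
  have hβ : ∀ s, HasDerivAt (fun s => σ * mmG (σ * s)) (mmG' (σ * s)) s := by
    intro s
    have h1 : HasDerivAt (fun s : ℝ => σ * s) σ s := by simpa using (hasDerivAt_id s).const_mul σ
    have h2 := ((mmG_hasDerivAt (σ * s)).comp s h1).const_mul σ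
    have e : σ * (mmG' (σ * s) * σ) = mmG' (σ * s) := by rw [mul_comm (mmG' _), ← mul_assoc, hσ2, one_mul]
    rw [e] at h2
    exact h2
  obtain ⟨w, hw, h1, h2⟩ := mm_chain (ε := ε) (C := 1) hβ (mmG'_continuous.comp (continuous_const.mul continuous_id))
    (fun s => by rw [abs_of_nonneg (mmG'_nonneg _)]; exact mmG'_le _) z.2
  have ht := mm_crit_test hε hz ⟨w, hw⟩
  have hint : Integrable (fun x => 2 * ⟪(z : MmAmb n).snd x, w.snd x⟫ + (2 * (z : MmAmb n).fst x + mmb ((z : MmAmb n).fst x)) * w.fst x) (mmNu n) :=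
    ((mm_int_snd (z : MmAmb n) (Lp.memLp w.snd)).const_mul 2).add (mm_int_F (z : MmAmb n) (Lp.memLp w.fst))
  have hnn : ∀ᵐ x ∂(mmNu n), 0 ≤ 2 * ⟪(z : MmAmb n).snd x, w.snd x⟫ + (2 * (z : MmAmb n).fst x + mmb ((z : MmAmb n).fst x)) * w.fst x ∧
      (2 * (σ * (z : MmAmb n).fst x) + mmb (σ * (z : MmAmb n).fst x)) * mmG (σ * (z : MmAmb n).fst x)
        ≤ 2 * ⟪(z : MmAmb n).snd x, w.snd x⟫ + (2 * (z : MmAmb n).fst x + mmb ((z : MmAmb n).fst x)) * w.fst x := by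
    filter_upwards [h1, h2] with x e1 e2
    rw [e1, e2, inner_smul_right, real_inner_self_eq_norm_sq]
    have e3 : (2 * (z : MmAmb n).fst x + mmb ((z : MmAmb n).fst x)) * (σ * mmG (σ * (z : MmAmb n).fst x))
        = (2 * (σ * (z : MmAmb n).fst x) + mmb (σ * (z : MmAmb n).fst x)) * mmG (σ * (z : MmAmb n).fst x) := by
      rw [← mul_assoc, mm_F_sign hσ]
    rw [e3]
    have a1 : 0 ≤ mmG' (σ * (z : MmAmb n).fst x) * ‖(z : MmAmb n).snd x‖ ^ 2 := mul_nonneg (mmG'_nonneg _) (by positivity)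
    have a2 := mm_F_G_nonneg (σ * (z : MmAmb n).fst x)
    constructor <;> linarith
  have h0 := (integral_eq_zero_iff_of_nonneg_ae (hnn.mono fun x hx => hx.1) hint).1 ht
  filter_upwards [h0, hnn] with x e0 e1
  by_contra hlt
  push Not at hlt
  have : 0 < (2 * (σ * (z : MmAmb n).fst x) + mmb (σ * (z : MmAmb n).fst x)) * mmG (σ * (z : MmAmb n).fst x) :=
    mul_pos (mmWt_deriv_pos hlt) (mmG_pos hlt)
  have e0' : 2 * ⟪(z : MmAmb n).snd x, w.snd x⟫ + (2 * (z : MmAmb n).fst x + mmb ((z : MmAmb n).fst x)) * w.fst x = 0 := e0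
  linarith [e1.2]

theorem mm_crit_bdd (hε : 0 < ε) {z : mmHil n ε} (hz : mmD n ε z = 0) : ∀ᵐ x ∂(mmNu n), |(z : MmAmb n).fst x| ≤ 1 := by
  filter_upwards [mm_crit_side hε hz (Or.inl rfl), mm_crit_side hε hz (Or.inr rfl)] with x h1 h2
  rw [abs_le]
  constructor <;> linarith

/-! ### test functions -/

theorem mm_far_of_sub {F : Type*} [NormedAddCommGroup F] {ξ : E n → F} (hs : tsupport ξ ⊆ mmOm n) : ∃ r > 0, ∀ x, ‖x‖ < r → ξ x = 0 := by
  have h0 : (0 : E n) ∉ tsupport ξ := fun h => (hs h).2 rfl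
  obtain ⟨r, hr, hball⟩ := Metric.isOpen_iff.1 (isClosed_tsupport ξ).isOpen_compl 0 h0
  exact ⟨r, hr, fun x hx => image_eq_zero_of_notMem_tsupport (hball (by rwa [mem_ball_zero_iff]))⟩

theorem mm_cpt_of_sub {F : Type*} [NormedAddCommGroup F] {ξ : E n → F} (hs : tsupport ξ ⊆ mmOm n) : HasCompactSupport ξ :=
  (isCompact_closedBall (0 : E n) 1).of_isClosed_subset (isClosed_tsupport ξ) fun _ hx => ball_subset_closedBall (hs hx).1

/-- `‖x‖^{-k} ξ` is bounded -/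
theorem mm_wt_memLp {F : Type*} [NormedAddCommGroup F] [NormedSpace ℝ F] (k : ℕ) {ξ : E n → F} (hξ : Continuous ξ) (hs : tsupport ξ ⊆ mmOm n) :
    MemLp (fun x => (‖x‖ ^ k)⁻¹ • ξ x) 2 (mmNu n) := by
  obtain ⟨r, hr, hfar⟩ := mm_far_of_sub hs
  obtain ⟨C, hC⟩ := hξ.bounded_above_of_compact_support (mm_cpt_of_sub hs)
  have hm : AEStronglyMeasurable (fun x : E n => (‖x‖ ^ k)⁻¹ • ξ x) (mmNu n) :=
    ((measurable_norm.pow_const k).inv.aestronglyMeasurable).smul hξ.aestronglyMeasurable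
  refine MemLp.of_bound hm ((r ^ k)⁻¹ * C) (Eventually.of_forall fun x => ?_)
  have hC0 : 0 ≤ C := (norm_nonneg _).trans (hC 0)
  rcases lt_or_ge ‖x‖ r with hx | hx
  · rw [hfar x hx, smul_zero, norm_zero]
    positivity
  · rw [norm_smul, norm_inv, norm_pow, norm_norm]
    gcongr
    exact hC x

theorem mm_test_lip {φ : E n → ℝ} (hφ : GmtTestS0 (mmOm n) φ) : ∃ K : ℝ≥0, LipschitzWith K φ :=
  hφ.smooth.lipschitzWith_of_hasCompactSupport hφ.cpt (by simp)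

theorem mm_test_av {φ : E n → ℝ} (hφ : GmtTestS0 (mmOm n) φ) (p : ℕ) : MmLip n (mmAv n p φ) := by
  obtain ⟨K, hK⟩ := mm_test_lip hφ
  exact mmAv_mmLip p hK

/-! ### symmetric criticality, order zero -/

theorem mm_sym0 (hn : 3 ≤ n) {φ : E n → ℝ} (hφ : GmtTestS0 (mmOm n) φ) {z : MmAmb n} (hz : z ∈ mmHil n ε) :
    (n : ℝ) * ∫ x, (2 * z.fst x + mmb (z.fst x)) * mmAv n (n - 3) φ x ∂(mmNu n)
      = ∫ x, (2 * z.fst x + mmb (z.fst x)) * ((‖x‖ ^ 2)⁻¹ • φ x) ∂(mmNu n) := by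
  have hv := (mm_test_av hφ (n - 3)).memLp_fst
  have hψ := mm_wt_memLp 2 hφ.smooth.continuous hφ.sub
  refine mm_induction (ε := ε) (p := fun z => (n : ℝ) * ∫ x, (2 * z.fst x + mmb (z.fst x)) * mmAv n (n - 3) φ x ∂(mmNu n)
      = ∫ x, (2 * z.fst x + mmb (z.fst x)) * ((‖x‖ ^ 2)⁻¹ • φ x) ∂(mmNu n))
    (isClosed_eq (continuous_const.mul (mm_cont_F hv)) (mm_cont_F hψ)) (fun U hU => ?_) hz
  obtain ⟨C, hC⟩ := hU.bdd
  have hpol := mm_polar (n := n) (by omega) (n - 3) (H := fun x => 2 * U x + mmb (U x))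
    ((hU.measurable.const_mul 2).add (mmb_continuous.measurable.comp hU.measurable)) (C := 2 * C + 2)
    (fun x => by
      have h1 := hC x
      have h2 := mmb_abs_le (U x)
      calc |2 * U x + mmb (U x)| ≤ |2 * U x| + |mmb (U x)| := abs_add_le _ _
        _ ≤ 2 * C + 2 := by rw [abs_mul, abs_two]; linarith)
    (fun t ht x => by simp only [hU.hom t ht x]) hφ.smooth.continuous hφ.sub
  have e1 : ∫ x, (2 * (mmEmb n ε U).fst x + mmb ((mmEmb n ε U).fst x)) * mmAv n (n - 3) φ x ∂(mmNu n)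
      = ∫ x, (2 * U x + mmb (U x)) * mmAv n (n - 3) φ x ∂(mmNu n) := by
    refine integral_congr_ae ?_
    filter_upwards [mmEmb_fst ε hU] with x hx
    rw [hx]
  have e2 : ∫ x, (2 * (mmEmb n ε U).fst x + mmb ((mmEmb n ε U).fst x)) * ((‖x‖ ^ 2)⁻¹ • φ x) ∂(mmNu n)
      = ∫ x, ‖x‖ ^ (n - 3 + 1) * (‖x‖ ^ n)⁻¹ * ((2 * U x + mmb (U x)) * φ x) ∂(mmNu n) := by
    refine integral_congr_ae ?_
    filter_upwards [mmEmb_fst ε hU] with x hx
    rw [hx]
    rcases eq_or_ne x 0 with rfl | hx0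
    · have : φ 0 = 0 := image_eq_zero_of_notMem_tsupport fun h => (hφ.sub h).2 rfl
      simp [this]
    · have h3 : ‖x‖ ≠ 0 := norm_ne_zero_iff.2 hx0
      have e : ‖x‖ ^ n = ‖x‖ ^ (n - 3 + 1) * ‖x‖ ^ 2 := by
        rw [← pow_add]
        congr 1
        omega
      rw [e, smul_eq_mul]
      field_simp
  rw [e1, e2, hpol]

/-! ### the partial derivatives of a test function -/

theorem mm_D_smooth {φ : E n → ℝ} (hφ : ContDiff ℝ ∞ φ) (v : E n) : ContDiff ℝ ∞ fun y => fderiv ℝ φ y v :=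
  (hφ.fderiv_right (m := ∞) (by simp)).clm_apply contDiff_const

theorem mm_D_sub {φ : E n → ℝ} {S : Set (E n)} (hs : tsupport φ ⊆ S) (v : E n) : tsupport (fun y => fderiv ℝ φ y v) ⊆ S := by
  refine (closure_minimal (fun x hx => ?_) (isClosed_tsupport φ)).trans hs
  by_contra h
  exact hx (by simp [mmh_fderiv_zero_of_notMem h])

theorem mm_grad_cont {φ : E n → ℝ} (hφ : ContDiff ℝ ∞ φ) : Continuous fun y => gradient φ y := by
  unfold gradient
  exact (LinearIsometryEquiv.continuous _).comp (hφ.continuous_fderiv (by simp))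

theorem mm_grad_sub {φ : E n → ℝ} {S : Set (E n)} (hs : tsupport φ ⊆ S) : tsupport (fun y => gradient φ y) ⊆ S := by
  refine (closure_minimal (fun x hx => ?_) (isClosed_tsupport φ)).trans hs
  by_contra h
  exact hx (by simp [gradient, mmh_fderiv_zero_of_notMem h])

theorem mm_D_test {φ : E n → ℝ} (hφ : GmtTestS0 (mmOm n) φ) (v : E n) : GmtTestS0 (mmOm n) fun y => fderiv ℝ φ y v :=
  ⟨mm_D_smooth hφ.smooth v, mm_cpt_of_sub (mm_D_sub hφ.sub v), mm_D_sub hφ.sub v⟩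

/-- the tangential derivative of the radial average, in coordinates -/
theorem mmAv_fderiv_sum (p : ℕ) {φ : E n → ℝ} (hφ : GmtTestS0 (mmOm n) φ) {x w : E n} (hx : x ≠ 0) (hw : ⟪x, w⟫ = 0) :
    ‖x‖ * fderiv ℝ (mmAv n p φ) x w = ∑ i : Fin n, w i * mmAv n (p + 1) (fun y => fderiv ℝ φ y (eb i)) x := by
  rw [mmAv_fderiv p (hφ.smooth.of_le (by simp)) hφ.cpt hx hw]
  unfold mmAv
  simp_rw [← intervalIntegral.integral_const_mul]
  rw [← intervalIntegral.integral_finsetSum]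
  · refine intervalIntegral.integral_congr fun s _ => ?_
    rw [← mmh_sum_coord (fderiv ℝ φ (s • (‖x‖⁻¹ • x))) w, Finset.sum_mul]
    refine Finset.sum_congr rfl fun i _ => ?_
    ring
  · intro i _
    refine Continuous.intervalIntegrable ?_ _ _
    have h1 : Continuous fun y => fderiv ℝ φ y (eb i) := (mm_D_smooth hφ.smooth (eb i)).continuous
    exact continuous_const.mul ((h1.comp (continuous_id.smul continuous_const)).mul (continuous_pow _))


theorem mmGr_coord_bdd (ε : ℝ) {U : E n → ℝ} (hU : MmLip n U) : ∃ C : ℝ, ∀ (i : Fin n) (x : E n), |mmGr n ε U x i| ≤ C := by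
  obtain ⟨L, hL⟩ := hU.lip
  refine ⟨|ε| / Real.sqrt 2 * (4 * L), fun i x => ?_⟩
  calc |mmGr n ε U x i| = ‖mmGr n ε U x i‖ := (Real.norm_eq_abs _).symm
    _ ≤ ‖mmGr n ε U x‖ := PiLp.norm_apply_le _ _
    _ = |ε| / Real.sqrt 2 * (‖x‖ * ‖fderiv ℝ U x‖) := mmGr_norm ε U x
    _ ≤ |ε| / Real.sqrt 2 * (4 * L) := mul_le_mul_of_nonneg_left (hU.norm_fderiv_le hL x) (by positivity)

theorem mmGr_coord_meas (ε : ℝ) (U : E n → ℝ) (i : Fin n) : Measurable fun x => mmGr n ε U x i :=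
  (EuclideanSpace.proj i : E n →L[ℝ] ℝ).continuous.measurable.comp (mmGr_measurable ε U)

theorem mmGr_coord_memLp (ε : ℝ) {U : E n → ℝ} (hU : MmLip n U) (i : Fin n) : MemLp (fun x => mmGr n ε U x i) 2 (mmNu n) := by
  obtain ⟨C, hC⟩ := mmGr_coord_bdd ε hU
  exact MemLp.of_bound (mmGr_coord_meas ε U i).aestronglyMeasurable C (Eventually.of_forall fun x => by rw [Real.norm_eq_abs]; exact hC i x)

/-! ### symmetric criticality, order one -/

theorem mm_sym1 (hn : 3 ≤ n) {φ : E n → ℝ} (hφ : GmtTestS0 (mmOm n) φ) {z : MmAmb n} (hz : z ∈ mmHil n ε) :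
    (n : ℝ) * ∫ x, ⟪z.snd x, mmGr n ε (mmAv n (n - 3) φ) x⟫ ∂(mmNu n)
      = ε / Real.sqrt 2 * ∫ x, ⟪z.snd x, (‖x‖ ^ 1)⁻¹ • gradient φ x⟫ ∂(mmNu n) := by
  have hv := (mm_test_av hφ (n - 3)).memLp_snd ε
  have hψ := mm_wt_memLp 1 (mm_grad_cont hφ.smooth) (mm_grad_sub hφ.sub)
  refine mm_induction (ε := ε) (p := fun z => (n : ℝ) * ∫ x, ⟪z.snd x, mmGr n ε (mmAv n (n - 3) φ) x⟫ ∂(mmNu n)
      = ε / Real.sqrt 2 * ∫ x, ⟪z.snd x, (‖x‖ ^ 1)⁻¹ • gradient φ x⟫ ∂(mmNu n))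
    (isClosed_eq (continuous_const.mul (mm_cont_snd hv)) (continuous_const.mul (mm_cont_snd hψ))) (fun U hU => ?_) hz
  obtain ⟨C, hC⟩ := mmGr_coord_bdd ε hU
  have hn0 : ∀ᵐ x ∂(mmNu n), x ≠ 0 := by
    have : Nonempty (Fin n) := ⟨⟨0, by omega⟩⟩
    have : Nontrivial (E n) := inferInstance
    have h00 : (volume : Measure (E n)) {0} = 0 := measure_singleton 0
    exact ae_restrict_of_ae ((measure_eq_zero_iff_ae_notMem.1 h00).mono fun x hx h => hx (by simpa using h))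
  -- polar coordinates for each coordinate
  have hpol : ∀ i : Fin n, (n : ℝ) * ∫ x, mmGr n ε U x i * mmAv n (n - 3 + 1) (fun y => fderiv ℝ φ y (eb i)) x ∂(mmNu n)
      = ∫ x, mmGr n ε U x i * ((‖x‖ ^ 1)⁻¹ • fderiv ℝ φ x (eb i)) ∂(mmNu n) := by
    intro i
    rw [mm_polar (n := n) (by omega) (n - 3 + 1) (H := fun x => mmGr n ε U x i) (mmGr_coord_meas ε U i) (C := C) (hC i)
      (fun t ht x => by simp only [mmGr_hom hU.hom ht x]) (mm_D_smooth hφ.smooth (eb i)).continuous (mm_D_sub hφ.sub (eb i))]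
    refine integral_congr_ae ?_
    filter_upwards [hn0] with x hx0
    have h3 : ‖x‖ ≠ 0 := norm_ne_zero_iff.2 hx0
    have e : ‖x‖ ^ n = ‖x‖ ^ (n - 3 + 1 + 1) * ‖x‖ ^ 1 := by
      rw [← pow_add]
      congr 1
      omega
    rw [e, smul_eq_mul]
    field_simp
  have i1 : ∀ i : Fin n, Integrable (fun x => mmGr n ε U x i * mmAv n (n - 3 + 1) (fun y => fderiv ℝ φ y (eb i)) x) (mmNu n) := fun i =>
    (mmGr_coord_memLp ε hU i).integrable_mul (mm_test_av (mm_D_test hφ (eb i)) _).memLp_fst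
  have i2 : ∀ i : Fin n, Integrable (fun x => mmGr n ε U x i * ((‖x‖ ^ 1)⁻¹ • fderiv ℝ φ x (eb i))) (mmNu n) := fun i =>
    (mmGr_coord_memLp ε hU i).integrable_mul (mm_wt_memLp 1 (mm_D_smooth hφ.smooth (eb i)).continuous (mm_D_sub hφ.sub (eb i)))
  have e1 : ∫ x, ⟪(mmEmb n ε U).snd x, mmGr n ε (mmAv n (n - 3) φ) x⟫ ∂(mmNu n)
      = ε / Real.sqrt 2 * ∑ i : Fin n, ∫ x, mmGr n ε U x i * mmAv n (n - 3 + 1) (fun y => fderiv ℝ φ y (eb i)) x ∂(mmNu n) := by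
    rw [← integral_finsetSum _ fun i _ => i1 i, ← integral_const_mul]
    refine integral_congr_ae ?_
    filter_upwards [mmEmb_snd ε hU, hU.ae_differentiableAt', hn0] with x hx hd hx0
    rw [hx, ← mmAv_fderiv_sum (n - 3) hφ hx0 (mmGr_tang hU.hom hd)]
    conv_lhs => rw [mmGr.eq_1 n ε (mmAv n (n - 3) φ)]
    rw [inner_smul_right, real_inner_comm, mm_inner_gradient]
    ring
  have e2 : ∫ x, ⟪(mmEmb n ε U).snd x, (‖x‖ ^ 1)⁻¹ • gradient φ x⟫ ∂(mmNu n)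
      = ∑ i : Fin n, ∫ x, mmGr n ε U x i * ((‖x‖ ^ 1)⁻¹ • fderiv ℝ φ x (eb i)) ∂(mmNu n) := by
    rw [← integral_finsetSum _ fun i _ => i2 i]
    refine integral_congr_ae ?_
    filter_upwards [mmEmb_snd ε hU] with x hx
    rw [hx, inner_smul_right, real_inner_comm, mm_inner_gradient, ← mmh_sum_coord (fderiv ℝ φ x) (mmGr n ε U x), Finset.mul_sum]
    refine Finset.sum_congr rfl fun i _ => ?_
    rw [smul_eq_mul]
    ring
  rw [e1, e2, mul_left_comm, Finset.mul_sum]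
  congr 1
  exact Finset.sum_congr rfl fun i _ => hpol i

/-! ### assembly -/

theorem mm_crit_eq (hn : 3 ≤ n) (hε : 0 < ε) (z : mmHil n ε) (hz : mmD n ε z = 0) {φ : E n → ℝ} (hφ : GmtTestS0 (mmOm n) φ) :
    ∫ x, (ε ^ 2 * ⟪mmGd n ε z x, gradient φ x⟫ + (‖x‖ ^ 2)⁻¹ * acW' ((z : MmAmb n).fst x) * φ x) ∂(mmNu n) = 0 := by
  have hvL := mm_test_av hφ (n - 3)
  have hψ1 := mm_wt_memLp 1 (mm_grad_cont hφ.smooth) (mm_grad_sub hφ.sub)
  have hψ2 := mm_wt_memLp 2 hφ.smooth.continuous hφ.sub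
  have ht := mm_crit_test hε hz ⟨mmEmb n ε (mmAv n (n - 3) φ), mmEmb_mem ε _⟩
  have t1 : 2 * ∫ x, ⟪(z : MmAmb n).snd x, mmGr n ε (mmAv n (n - 3) φ) x⟫ ∂(mmNu n)
      + ∫ x, (2 * (z : MmAmb n).fst x + mmb ((z : MmAmb n).fst x)) * mmAv n (n - 3) φ x ∂(mmNu n) = 0 := by
    rw [← integral_const_mul, ← integral_add ((mm_int_snd (z : MmAmb n) (hvL.memLp_snd ε)).const_mul 2) (mm_int_F (z : MmAmb n) hvL.memLp_fst), ← ht]
    refine integral_congr_ae ?_
    filter_upwards [mmEmb_fst ε hvL, mmEmb_snd ε hvL] with x h1 h2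
    rw [h1, h2]
  have s0 := mm_sym0 hn hφ z.2
  have s1 := mm_sym1 hn hφ z.2
  have t2 : 2 * (ε / Real.sqrt 2 * ∫ x, ⟪(z : MmAmb n).snd x, (‖x‖ ^ 1)⁻¹ • gradient φ x⟫ ∂(mmNu n))
      + ∫ x, (2 * (z : MmAmb n).fst x + mmb ((z : MmAmb n).fst x)) * ((‖x‖ ^ 2)⁻¹ • φ x) ∂(mmNu n) = 0 := by
    rw [← s0, ← s1]
    have := congrArg (fun a => (n : ℝ) * a) t1
    simp only [mul_zero] at this
    linarith
  rw [← t2, ← mul_assoc, ← integral_const_mul,
    ← integral_add ((mm_int_snd (z : MmAmb n) hψ1).const_mul _) (mm_int_F (z : MmAmb n) hψ2)]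
  refine integral_congr_ae ?_
  filter_upwards [mm_crit_bdd hε hz] with x hx
  rw [mmWt_deriv_of_abs_le hx]
  simp only [mmGd, acW', smul_eq_mul]
  rw [inner_smul_left, inner_smul_right]
  simp only [conj_trivial, pow_one]
  have h2 : Real.sqrt 2 * Real.sqrt 2 = 2 := Real.mul_self_sqrt (by norm_num)
  have h2' : Real.sqrt 2 ≠ 0 := by positivity
  have e : ε ^ 2 * (Real.sqrt 2 / (ε * ‖x‖)) = 2 * (ε / Real.sqrt 2) * ‖x‖⁻¹ := by
    rcases eq_or_ne ‖x‖ 0 with h0 | h0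
    · simp [h0]
    · field_simp
      nlinarith
  rw [← mul_assoc, e]
  ring

theorem mm_crit {n : ℕ} (hn : 3 ≤ n) {ε : ℝ} (hε : 0 < ε) (z : mmHil n ε) (hz : mmD n ε z = 0) :
    MmWeak n ε (z : MmAmb n).fst (mmGd n ε z) where
  meas := Lp.aestronglyMeasurable _
  bdd := mm_crit_bdd hε hz
  memG := by
    refine ((Lp.memLp (z : MmAmb n).snd).const_smul (Real.sqrt 2 / ε)).of_le_mul (c := 1) ?_ (Eventually.of_forall fun x => ?_)
    · have hm : Measurable fun x : E n => ‖x‖ * (Real.sqrt 2 / (ε * ‖x‖)) :=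
        measurable_norm.mul (measurable_const.div (measurable_const.mul measurable_norm))
      have := hm.aestronglyMeasurable.smul (Lp.aestronglyMeasurable (μ := mmNu n) (z : MmAmb n).snd)
      refine this.congr (Eventually.of_forall fun x => ?_)
      simp only [mmGd, smul_smul]
      rfl
    · simp only [mmGd, Pi.smul_apply, smul_smul, one_mul]
      rw [norm_smul, norm_smul]
      refine mul_le_mul_of_nonneg_right ?_ (norm_nonneg _)
      rcases eq_or_ne ‖x‖ 0 with h0 | h0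
      · simp [h0]
        positivity
      · refine le_of_eq ?_
        congr 1
        field_simp
  grad := fun T hT => mm_ibp hε z.2 hT
  eq := fun φ hφ => mm_crit_eq hn hε z hz hφ
  hom := fun t ht ht1 => mm_hom_fst z.2 ht ht1

end Claimed.Agent.R323
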