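import Claimed.Agent.R323.Mm.HilBase
import Claimed.Agent.R323.Mm.Cpt

/-!
# Row 323, block B2/B3: THE ENERGY ON `mmHil`: descent step, Palais-Smale.   Architect helper120.   LEAVES L-B-EN-A/B/C/D.

`u = z.fst`, `g = z.snd`, `ν = mmNu n`.   `ε mmEn z = ‖z‖² + ∫ B(u) = ∫ |g|² + W̃(u)`.   `mmD z = (2 z + mmK z)/ε`, `⟪mmK z, ζ⟫ = ∫ b(u) ζ.fst`.
-/

set_option autoImplicit false
open scoped ContDiff ENNReal NNReal RealInnerProductSpace Topology
open MeasureTheory Metric Set Filter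

namespace Claimed.Agent.R323

open Claimed.Agent.Gmt

variable {n : ℕ} {ε : ℝ}

/-! ### LEAF L-B-EN-A: formulas for the energy -/

/-- PLAN: `mmB_continuous` ∘ a.e.-strongly measurable, `|mmB s| ≤ 1 + 2|s|` (`mmB_abs_le`), `mm_integrable_fst`, `ν` finite. -/
theorem mm_integrable_B (z : MmAmb n) : Integrable (fun x => mmB (z.fst x)) (mmNu n) := by
  have h1 : AEStronglyMeasurable (fun x => mmB (z.fst x)) (mmNu n) :=
    mmB_continuous.comp_aestronglyMeasurable (Lp.aestronglyMeasurable z.fst)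
  have h2 : Integrable (fun x => 1 + 2 * |z.fst x|) (mmNu n) :=
    (integrable_const 1).add ((mm_integrable_fst z).abs.const_mul 2)
  refine h2.mono' h1 (Eventually.of_forall fun x => ?_)
  rw [Real.norm_eq_abs]
  exact mmB_abs_le _

theorem mm_integrable_Wt (z : MmAmb n) : Integrable (fun x => mmWt (z.fst x)) (mmNu n) := by
  have h := (mm_integrable_B z).add (mm_integrable_fst_sq z)
  refine h.congr (Eventually.of_forall fun x => ?_)
  simp only [Pi.add_apply, mmB]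
  ring

/-- PLAN: `mm_norm_sq`, `mmB s = mmWt s - s²`, `integral_add/sub`. -/
theorem mmEn_eq (ε : ℝ) (z : MmAmb n) :
    mmEn n ε z = (∫ x, ‖z.snd x‖ ^ 2 ∂(mmNu n) + ∫ x, mmWt (z.fst x) ∂(mmNu n)) / ε := by
  unfold mmEn
  congr 1
  rw [mm_norm_sq]
  have h : ∫ x, mmB (z.fst x) ∂(mmNu n) = ∫ x, mmWt (z.fst x) ∂(mmNu n) - ∫ x, (z.fst x) ^ 2 ∂(mmNu n) := by
    rw [← integral_sub (mm_integrable_Wt z) (mm_integrable_fst_sq z)]
    rfl
  rw [h]
  ring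

theorem mmEn_nonneg (hε : 0 < ε) (z : MmAmb n) : 0 ≤ mmEn n ε z := by
  rw [mmEn_eq]
  exact div_nonneg (add_nonneg (integral_nonneg fun _ => by positivity) (integral_nonneg fun _ => mmWt_nonneg _)) hε.le

/-- PLAN: `norm_neg`; `(-z).fst = - z.fst` (`rfl`/`WithLp.neg_fst`), `Lp.coeFn_neg`, `mmB (-s) = mmB s` (`mmWt_neg`). -/
theorem mmEn_neg (ε : ℝ) (z : MmAmb n) : mmEn n ε (-z) = mmEn n ε z := by
  unfold mmEn
  rw [norm_neg]
  congr 2
  refine integral_congr_ae ?_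
  filter_upwards [Lp.coeFn_neg z.fst] with x hx
  rw [WithLp.neg_fst, hx, Pi.neg_apply]
  unfold mmB
  rw [mmWt_neg, neg_sq]

/-- PLAN: `mmWt_coercive : s²/2 - 1 ≤ mmWt s`; `mmEn_eq`, `mm_norm_sq`. -/
theorem mmEn_coercive (hε : 0 < ε) (z : MmAmb n) : ‖z‖ ^ 2 ≤ 2 * ε * mmEn n ε z + 2 * ((mmNu n) univ).toReal := by
  have h1 : ε * mmEn n ε z = ∫ x, ‖z.snd x‖ ^ 2 ∂(mmNu n) + ∫ x, mmWt (z.fst x) ∂(mmNu n) := by
    rw [mmEn_eq]
    field_simp
  have h2 : ∫ x, ((z.fst x) ^ 2 / 2 - 1) ∂(mmNu n) ≤ ∫ x, mmWt (z.fst x) ∂(mmNu n) :=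
    integral_mono (((mm_integrable_fst_sq z).div_const 2).sub (integrable_const 1)) (mm_integrable_Wt z)
      fun x => mmWt_coercive _
  rw [integral_sub ((mm_integrable_fst_sq z).div_const 2) (integrable_const 1), integral_div, integral_const] at h2
  have h3 : 0 ≤ ∫ x, ‖z.snd x‖ ^ 2 ∂(mmNu n) := integral_nonneg fun _ => by positivity
  rw [mm_norm_sq]
  simp only [smul_eq_mul, mul_one, Measure.real] at h2
  nlinarith

/-- **the energy identity**.  PLAN: `mmEn_eq`; `integral_congr_ae`: `‖z.snd x‖² = ε²/2 ‖x‖² ‖fderiv U x‖²` (`mmGr_norm_sq`), `mmWt (U x) = acW (U x)` (`mmWt_of_abs_le`); `∫ … ∂(mmNu n) = ∫ x in ball 0 1, …` is `rfl`;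
integrability of both pieces from `mm_integrable_snd_sq`, `mm_integrable_Wt` (to merge the two integrals); `ε ≠ 0`. -/
theorem mm_acE_eq (hε : 0 < ε) {U : E n → ℝ} {z : MmAmb n} (hb : ∀ x, |U x| ≤ 1) (h1 : (z.fst : E n → ℝ) =ᵐ[mmNu n] U)
    (h2 : (z.snd : E n → E n) =ᵐ[mmNu n] mmGr n ε U) : (n : ℝ) / acC * mmEn n ε z = acE n ε U := by
  rw [mmEn_eq]
  unfold acE
  congr 1
  have e1 : ∫ x, ‖z.snd x‖ ^ 2 ∂(mmNu n) = ∫ x, ε ^ 2 / 2 * ‖x‖ ^ 2 * ‖fderiv ℝ U x‖ ^ 2 ∂(mmNu n) := by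
    refine integral_congr_ae ?_
    filter_upwards [h2] with x hx
    rw [hx, mmGr_norm_sq]
  have e2 : ∫ x, mmWt (z.fst x) ∂(mmNu n) = ∫ x, acW (U x) ∂(mmNu n) := by
    refine integral_congr_ae ?_
    filter_upwards [h1] with x hx
    rw [hx, mmWt_of_abs_le (hb x)]
    rfl
  have i1 : Integrable (fun x => ε ^ 2 / 2 * ‖x‖ ^ 2 * ‖fderiv ℝ U x‖ ^ 2) (mmNu n) := by
    refine (mm_integrable_snd_sq z).congr ?_
    filter_upwards [h2] with x hx
    rw [hx, mmGr_norm_sq]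
  have i2 : Integrable (fun x => acW (U x)) (mmNu n) := by
    refine (mm_integrable_Wt z).congr ?_
    filter_upwards [h1] with x hx
    rw [hx, mmWt_of_abs_le (hb x)]
    rfl
  rw [e1, e2, ← integral_add i1 i2, ← integral_div]
  refine integral_congr_ae (Eventually.of_forall fun x => ?_)
  field_simp

/-! ### LEAF L-B-EN-B: continuity -/

/-- PLAN: `|mmB s - mmB t| ≤ 2 |s - t|` (`mmB_lip`), `integral_sub`, `norm_integral_le_integral_norm`. -/
theorem mm_B_lip (z z' : MmAmb n) : |∫ x, mmB (z.fst x) ∂(mmNu n) - ∫ x, mmB (z'.fst x) ∂(mmNu n)| ≤ 2 * mmL1 z z' := by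
  rw [← integral_sub (mm_integrable_B z) (mm_integrable_B z'), ← Real.norm_eq_abs]
  refine (norm_integral_le_integral_norm _).trans ?_
  unfold mmL1
  rw [← integral_const_mul]
  refine integral_mono ((mm_integrable_B z).sub (mm_integrable_B z')).norm
    ((((mm_integrable_fst z).sub (mm_integrable_fst z')).abs).const_mul 2) fun x => ?_
  rw [Real.norm_eq_abs]
  exact mmB_lip _ _

/-- PLAN: `‖z‖²` is continuous; `z ↦ ∫ B(z.fst)` is Lipschitz by `mm_B_lip`, `mm_l1_le` (`LipschitzWith.of_dist_le_mul` or `continuous_iff` by hand). -/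
theorem mmEn_continuous (n : ℕ) (ε : ℝ) : Continuous (mmEn n ε) := by
  unfold mmEn
  refine Continuous.div_const (Continuous.add (by fun_prop) ?_) _
  have h : LipschitzWith (2 * (Real.sqrt ((mmNu n) univ).toReal).toNNReal) fun z : MmAmb n => ∫ x, mmB (z.fst x) ∂(mmNu n) := by
    refine LipschitzWith.of_dist_le_mul fun z z' => ?_
    rw [Real.dist_eq, dist_eq_norm]
    refine (mm_B_lip z z').trans ?_
    have := mm_l1_le z z'
    push_cast
    rw [Real.coe_toNNReal _ (Real.sqrt_nonneg _)]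
    linarith
  exact h.continuous

/-! ### LEAF L-B-EN-C: the gradient -/

theorem mmbLp_coe (u : Lp ℝ 2 (mmNu n)) : (mmbLp u : E n → ℝ) =ᵐ[mmNu n] fun x => mmb (u x) :=
  mmb_lipschitzWith.coeFn_compLp mmb_zero u

theorem mmbLp_sub_le (u u' : Lp ℝ 2 (mmNu n)) : ‖mmbLp u - mmbLp u'‖ ≤ 3 * ‖u - u'‖ :=
  mmb_lipschitzWith.norm_compLp_sub_le mmb_zero u u'

/-- PLAN: `Lp.ext`, `mmbLp_coe`, `Lp.coeFn_neg`, `mmb_neg`. -/
theorem mmbLp_neg (u : Lp ℝ 2 (mmNu n)) : mmbLp (-u) = - mmbLp u := by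
  refine Lp.ext ?_
  filter_upwards [mmbLp_coe (-u), mmbLp_coe u, Lp.coeFn_neg u, Lp.coeFn_neg (mmbLp u)] with x h1 h2 h3 h4
  rw [h1, h4, Pi.neg_apply, h2, h3, Pi.neg_apply, mmb_neg]

/-- PLAN: `‖f‖² = ∫ f²` in `L²` (as in `mm_norm_fst_sq`), `mmbLp_coe`, `Lp.coeFn_sub`, `mmb_sq_le : (b s - b t)² ≤ 12 |s - t|`, `integral_mono`. -/
theorem mmbLp_sub_sq_le (z z' : MmAmb n) : ‖mmbLp z.fst - mmbLp z'.fst‖ ^ 2 ≤ 12 * mmL1 z z' := by
  have h1 : ‖mmbLp z.fst - mmbLp z'.fst‖ ^ 2 = ∫ x, (mmb (z.fst x) - mmb (z'.fst x)) ^ 2 ∂(mmNu n) := by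
    rw [← real_inner_self_eq_norm_sq, L2.inner_def]
    refine integral_congr_ae ?_
    filter_upwards [Lp.coeFn_sub (mmbLp z.fst) (mmbLp z'.fst), mmbLp_coe z.fst, mmbLp_coe z'.fst] with x h1 h2 h3
    rw [h1, Pi.sub_apply, h2, h3]
    simp [pow_two]
  rw [h1]
  unfold mmL1
  rw [← integral_const_mul]
  have i2 : Integrable (fun x => 12 * |z.fst x - z'.fst x|) (mmNu n) :=
    (((mm_integrable_fst z).sub (mm_integrable_fst z')).abs).const_mul 12
  have m1 : AEStronglyMeasurable (fun x => (mmb (z.fst x) - mmb (z'.fst x)) ^ 2) (mmNu n) :=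
    ((mmb_continuous.comp_aestronglyMeasurable (Lp.aestronglyMeasurable z.fst)).sub
      (mmb_continuous.comp_aestronglyMeasurable (Lp.aestronglyMeasurable z'.fst))).pow 2
  have i1 : Integrable (fun x => (mmb (z.fst x) - mmb (z'.fst x)) ^ 2) (mmNu n) := by
    refine i2.mono' m1 (Eventually.of_forall fun x => ?_)
    rw [Real.norm_eq_abs, abs_of_nonneg (by positivity)]
    exact mmb_sq_le _ _
  exact integral_mono i1 i2 fun x => mmb_sq_le _ _

/-- PLAN: the inner product of the subtype is the ambient one (`Submodule.coe_inner`); `Submodule.inner_orthogonalProjectionOnto_eq_of_mem_left`; `mm_inner`; `mmbLp_coe`; the second component is `0` (`Lp.coeFn_zero`, `inner_zero_left`). -/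
theorem mmK_inner (z ζ : mmHil n ε) :
    ⟪mmK n ε z, ζ⟫ = ∫ x, mmb ((z : MmAmb n).fst x) * (ζ : MmAmb n).fst x ∂(mmNu n) := by
  unfold mmK
  rw [Submodule.inner_orthogonalProjectionOnto_eq_of_mem_right, mm_inner]
  have h2 : ∫ x, ⟪((WithLp.toLp 2 (mmbLp (z : MmAmb n).fst, (0 : Lp (E n) 2 (mmNu n))) : MmAmb n).snd : E n → E n) x, (ζ : MmAmb n).snd x⟫ ∂(mmNu n) = 0 := by
    have : ∀ᵐ x ∂(mmNu n), ⟪((WithLp.toLp 2 (mmbLp (z : MmAmb n).fst, (0 : Lp (E n) 2 (mmNu n))) : MmAmb n).snd : E n → E n) x, (ζ : MmAmb n).snd x⟫ = 0 := by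
      filter_upwards [Lp.coeFn_zero (E n) 2 (mmNu n)] with x hx
      change ⟪((0 : Lp (E n) 2 (mmNu n)) : E n → E n) x, _⟫ = 0
      rw [hx, Pi.zero_apply, inner_zero_left]
    rw [integral_congr_ae this, integral_zero]
  rw [h2, add_zero]
  refine integral_congr_ae ?_
  filter_upwards [mmbLp_coe (z : MmAmb n).fst] with x hx
  change (mmbLp (z : MmAmb n).fst : E n → ℝ) x * _ = _
  rw [hx]

/-- PLAN: `map_sub`, the projection has norm `≤ 1` (`Submodule.norm_orthogonalProjectionOnto_apply_le` or `orthogonalProjectionOnto_norm_le`), `‖toLp (a, 0)‖ = ‖a‖` (`WithLp.prod_norm_sq_eq_of_L2`). -/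
theorem mmK_sub_le (z z' : mmHil n ε) : ‖mmK n ε z - mmK n ε z'‖ ≤ ‖mmbLp (z : MmAmb n).fst - mmbLp (z' : MmAmb n).fst‖ := by
  unfold mmK
  rw [← map_sub]
  refine (Submodule.norm_orthogonalProjectionOnto_apply_le _ _).trans (le_of_eq ?_)
  have h := WithLp.prod_norm_sq_eq_of_L2
    ((WithLp.toLp 2 (mmbLp (z : MmAmb n).fst, (0 : Lp (E n) 2 (mmNu n))) : MmAmb n) - WithLp.toLp 2 (mmbLp (z' : MmAmb n).fst, 0))
  have e1 : ((WithLp.toLp 2 (mmbLp (z : MmAmb n).fst, (0 : Lp (E n) 2 (mmNu n))) : MmAmb n) - WithLp.toLp 2 (mmbLp (z' : MmAmb n).fst, 0)).snd = 0 := by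
    simp
  have e2 : ((WithLp.toLp 2 (mmbLp (z : MmAmb n).fst, (0 : Lp (E n) 2 (mmNu n))) : MmAmb n) - WithLp.toLp 2 (mmbLp (z' : MmAmb n).fst, 0)).fst
      = mmbLp (z : MmAmb n).fst - mmbLp (z' : MmAmb n).fst := by
    simp
  rw [e1, e2, norm_zero] at h
  have h' : ‖((WithLp.toLp 2 (mmbLp (z : MmAmb n).fst, (0 : Lp (E n) 2 (mmNu n))) : MmAmb n) - WithLp.toLp 2 (mmbLp (z' : MmAmb n).fst, 0))‖ ^ 2
      = ‖mmbLp (z : MmAmb n).fst - mmbLp (z' : MmAmb n).fst‖ ^ 2 := by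
    rw [h]; ring
  exact (pow_left_inj₀ (norm_nonneg _) (norm_nonneg _) two_ne_zero).1 h'

theorem mmK_neg (z : mmHil n ε) : mmK n ε (-z) = - mmK n ε z := by
  unfold mmK
  rw [← map_neg]
  congr 1
  have : ((-z : mmHil n ε) : MmAmb n).fst = - (z : MmAmb n).fst := rfl
  rw [this, mmbLp_neg]
  refine WithLp.ofLp_injective 2 ?_
  simp

theorem mmD_neg (z : mmHil n ε) : mmD n ε (-z) = - mmD n ε z := by
  unfold mmD
  rw [mmK_neg, smul_neg, ← neg_add, smul_neg]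

theorem mmK_continuous (n : ℕ) (ε : ℝ) : Continuous (mmK n ε) := by
  have h : LipschitzWith 3 (mmK n ε) := by
    refine LipschitzWith.of_dist_le_mul fun z z' => ?_
    rw [dist_eq_norm, dist_eq_norm]
    refine (mmK_sub_le z z').trans ((mmbLp_sub_le _ _).trans ?_)
    have := mm_norm_fst_le ((z - z' : mmHil n ε) : MmAmb n)
    have e : ‖(z : MmAmb n).fst - (z' : MmAmb n).fst‖ ≤ ‖z - z'‖ := this
    push_cast
    linarith
  exact h.continuous

theorem mmD_continuous (n : ℕ) (ε : ℝ) : Continuous (mmD n ε) := by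
  unfold mmD
  exact ((continuous_id.const_smul (2 : ℝ)).add (mmK_continuous n ε)).const_smul (1 / ε)

theorem mm_inner_smul (c : ℝ) (a b : mmHil n ε) : ⟪c • a, b⟫ = c * ⟪a, b⟫ := by
  have := real_inner_smul_left a b c
  exact this

theorem mmD_inner (z v : mmHil n ε) : ⟪mmD n ε z, v⟫ = (2 * ⟪z, v⟫ + ⟪mmK n ε z, v⟫) / ε := by
  unfold mmD
  rw [mm_inner_smul, inner_add_left, mm_inner_smul]
  ring

theorem mm_integrable_b_mul (z v : MmAmb n) : Integrable (fun x => mmb (z.fst x) * v.fst x) (mmNu n) := by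
  refine (mm_integrable_fst v).bdd_mul (c := 2) (mmb_continuous.comp_aestronglyMeasurable (Lp.aestronglyMeasurable z.fst))
    (Eventually.of_forall fun x => ?_)
  rw [Real.norm_eq_abs]
  exact mmb_abs_le _

/-- **the quadratic upper bound**.  PLAN: `‖z + v‖² = ‖z‖² + 2⟪z,v⟫ + ‖v‖²` (`norm_add_sq_real`); `mmB (s + t) ≤ mmB s + mmb s * t` (`mmB_concave`) integrated (`Lp.coeFn_add`, `integral_mono`; integrability: `mm_integrable_B`, and `b(u) v ∈ L¹` since `|b| ≤ 2`);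
`mmK_inner`; `inner_smul_left`, `inner_add_left`; divide by `ε > 0`. -/
theorem mmEn_quad (hε : 0 < ε) (z v : mmHil n ε) :
    mmEn n ε ((z + v : mmHil n ε) : MmAmb n) ≤ mmEn n ε z + ⟪mmD n ε z, v⟫ + (2 / ε) / 2 * ‖v‖ ^ 2 := by
  have ib : Integrable (fun x => mmb ((z : MmAmb n).fst x) * (v : MmAmb n).fst x) (mmNu n) := mm_integrable_b_mul _ _
  have h1 : ∫ x, mmB (((z + v : mmHil n ε) : MmAmb n).fst x) ∂(mmNu n)
      ≤ ∫ x, mmB ((z : MmAmb n).fst x) ∂(mmNu n) + ∫ x, mmb ((z : MmAmb n).fst x) * (v : MmAmb n).fst x ∂(mmNu n) := by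
    rw [← integral_add (mm_integrable_B _) ib]
    refine integral_mono_ae (mm_integrable_B _) ((mm_integrable_B _).add ib) ?_
    filter_upwards [Lp.coeFn_add (z : MmAmb n).fst (v : MmAmb n).fst] with x hx
    have e : ((z + v : mmHil n ε) : MmAmb n).fst = (z : MmAmb n).fst + (v : MmAmb n).fst := rfl
    rw [e, hx, Pi.add_apply]
    exact mmB_concave _ _
  have h2 : ‖((z + v : mmHil n ε) : MmAmb n)‖ ^ 2 = ‖z‖ ^ 2 + 2 * ⟪z, v⟫ + ‖v‖ ^ 2 := norm_add_sq_real z v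
  have h3 : ⟪mmD n ε z, v⟫ = (2 * ⟪z, v⟫ + ∫ x, mmb ((z : MmAmb n).fst x) * (v : MmAmb n).fst x ∂(mmNu n)) / ε := by
    rw [mmD_inner, mmK_inner]
  have h4 : ‖(z : MmAmb n)‖ = ‖z‖ := rfl
  unfold mmEn
  rw [h2, h3, h4]
  have h5 : (‖z‖ ^ 2 + ∫ x, mmB ((z : MmAmb n).fst x) ∂(mmNu n)) / ε
      + (2 * ⟪z, v⟫ + ∫ x, mmb ((z : MmAmb n).fst x) * (v : MmAmb n).fst x ∂(mmNu n)) / ε + 2 / ε / 2 * ‖v‖ ^ 2
      = (‖z‖ ^ 2 + 2 * ⟪z, v⟫ + ‖v‖ ^ 2 + (∫ x, mmB ((z : MmAmb n).fst x) ∂(mmNu n)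
        + ∫ x, mmb ((z : MmAmb n).fst x) * (v : MmAmb n).fst x ∂(mmNu n))) / ε := by
    field_simp
    ring
  rw [h5]
  exact div_le_div_of_nonneg_right (by linarith) hε.le

/-- the step is `- K z / 2` -/
theorem mm_step_eq (hε : 0 < ε) (z : mmHil n ε) : z - (ε / 2) • mmD n ε z = -((1 / 2 : ℝ) • mmK n ε z) := by
  unfold mmD
  rw [smul_smul, show ε / 2 * (1 / ε) = 1 / 2 by field_simp, smul_add, smul_smul]
  norm_num

/-- **the gradient step** -/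
theorem mm_step (hε : 0 < ε) : MmaStep (fun z : mmHil n ε => mmEn n ε z) (mmD n ε) (mmJ n ε) (ε / 2) where
  τ_pos := by positivity
  descent := by
    have h1 : ε / 2 * (2 / ε) ≤ 1 := le_of_eq (by field_simp)
    exact mma_descent (E := fun z : mmHil n ε => mmEn n ε z) (Λ := 2 / ε) (τ := ε / 2) (mmEn_quad hε) (by positivity) h1
  odd := mmD_neg
  lip := by
    refine ⟨3 / 2, fun z z' => ?_⟩
    rw [mm_step_eq hε, mm_step_eq hε]
    have h1 : dist (mmJ n ε (-((1 / 2 : ℝ) • mmK n ε z))) (mmJ n ε (-((1 / 2 : ℝ) • mmK n ε z')))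
        ≤ ‖-((1 / 2 : ℝ) • mmK n ε z) - -((1 / 2 : ℝ) • mmK n ε z')‖ := by
      rw [dist_eq_norm]
      exact mm_norm_fst_le ((-((1 / 2 : ℝ) • mmK n ε z) - -((1 / 2 : ℝ) • mmK n ε z') : mmHil n ε) : MmAmb n)
    have h2 : ‖-((1 / 2 : ℝ) • mmK n ε z) - -((1 / 2 : ℝ) • mmK n ε z')‖ = 1 / 2 * ‖mmK n ε z - mmK n ε z'‖ := by
      rw [← neg_sub', norm_neg, ← smul_sub, norm_smul]
      norm_num
    have h3 := (mmK_sub_le z z').trans (mmbLp_sub_le _ _)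
    have h4 : dist (mmJ n ε z) (mmJ n ε z') = ‖(z : MmAmb n).fst - (z' : MmAmb n).fst‖ := dist_eq_norm _ _
    rw [h4]
    linarith

/-! ### LEAF L-B-EN-D: Palais-Smale, the equation of critical points -/

theorem mmK_unif (n : ℕ) (ε : ℝ) {r : ℝ} (hr : 0 < r) :
    ∃ s > 0, ∀ z z' : mmHil n ε, mmL1 (z : MmAmb n) (z' : MmAmb n) < s → ‖mmK n ε z - mmK n ε z'‖ < r := by
  refine ⟨r ^ 2 / 12, by positivity, fun z z' h => ?_⟩
  have h1 := mmK_sub_le z z'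
  have h2 := mmbLp_sub_sq_le (z : MmAmb n) (z' : MmAmb n)
  have h3 : ‖mmK n ε z - mmK n ε z'‖ ^ 2 < r ^ 2 := by
    have : ‖mmK n ε z - mmK n ε z'‖ ^ 2 ≤ ‖mmbLp (z : MmAmb n).fst - mmbLp (z' : MmAmb n).fst‖ ^ 2 :=
      pow_le_pow_left₀ (norm_nonneg _) h1 2
    linarith
  exact lt_of_pow_lt_pow_left₀ 2 hr.le h3

/-- **Palais-Smale** -/
theorem mm_ps (hn : 1 ≤ n) (hε : 0 < ε) : MmaPS (fun z : mmHil n ε => mmEn n ε z) (mmD n ε) := by
  refine mma_ps_of_compact' (K := fun z => (1 / ε) • mmK n ε z) (d := fun z z' => mmL1 (z : MmAmb n) (z' : MmAmb n))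
    (a := 2 / ε) (by positivity) (fun z => ?_) (fun r hr => ?_) (fun z C hC => ?_) ?_ (mmD_continuous n ε)
  · unfold mmD
    rw [smul_add, smul_smul]
    congr 2
    ring
  · obtain ⟨s, hs, h⟩ := mmK_unif n ε (show 0 < ε * r by positivity)
    refine ⟨s, hs, fun z z' hd => ?_⟩
    rw [← smul_sub, norm_smul, Real.norm_of_nonneg (by positivity)]
    have := h z z' hd
    rw [div_mul_eq_mul_div, one_mul, div_lt_iff₀ hε]
    linarith
  · refine mm_cpt hn hε z (Real.sqrt (2 * ε * C + 2 * ((mmNu n) univ).toReal)) fun k => ?_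
    apply Real.le_sqrt_of_sq_le
    have h1 := mmEn_coercive hε (z k : MmAmb n)
    have h2 : 2 * ε * mmEn n ε (z k : MmAmb n) ≤ 2 * ε * C := mul_le_mul_of_nonneg_left (hC k) (by positivity)
    have h3 : ‖z k‖ = ‖(z k : MmAmb n)‖ := rfl
    rw [h3]
    linarith
  · exact (mmEn_continuous n ε).comp continuous_subtype_val

/-- **the equation of a critical point**.  PLAN: `0 = ε ⟪mmD z, ζ⟫ = 2⟪z,ζ⟫ + ⟪mmK z, ζ⟫`, `mm_inner`, `mmK_inner`; merge the integrals (integrability: products of `L²` functions: `MemLp.integrable_mul`, `L2.integrable_inner`; `|b| ≤ 2`). -/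
theorem mm_crit_test (hε : 0 < ε) {z : mmHil n ε} (hz : mmD n ε z = 0) (ζ : mmHil n ε) :
    ∫ x, (2 * ⟪(z : MmAmb n).snd x, (ζ : MmAmb n).snd x⟫ + (2 * (z : MmAmb n).fst x + mmb ((z : MmAmb n).fst x)) * (ζ : MmAmb n).fst x) ∂(mmNu n) = 0 := by
  have h1 : ⟪mmD n ε z, ζ⟫ = 0 := by rw [hz, inner_zero_left]
  rw [mmD_inner, mmK_inner] at h1
  have h2 : ⟪z, ζ⟫ = ⟪(z : MmAmb n), (ζ : MmAmb n)⟫ := rfl
  rw [h2, mm_inner] at h1
  have h3 : 2 * (∫ x, (z : MmAmb n).fst x * (ζ : MmAmb n).fst x ∂(mmNu n) + ∫ x, ⟪(z : MmAmb n).snd x, (ζ : MmAmb n).snd x⟫ ∂(mmNu n))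
      + ∫ x, mmb ((z : MmAmb n).fst x) * (ζ : MmAmb n).fst x ∂(mmNu n) = 0 := by
    exact (div_eq_zero_iff.1 h1).resolve_right hε.ne'
  have i1 : Integrable (fun x => (z : MmAmb n).fst x * (ζ : MmAmb n).fst x) (mmNu n) :=
    (Lp.memLp (z : MmAmb n).fst).integrable_mul (Lp.memLp (ζ : MmAmb n).fst)
  have i2 : Integrable (fun x => ⟪(z : MmAmb n).snd x, (ζ : MmAmb n).snd x⟫) (mmNu n) :=
    L2.integrable_inner (𝕜 := ℝ) (z : MmAmb n).snd (ζ : MmAmb n).snd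
  have i3 := mm_integrable_b_mul (z : MmAmb n) (ζ : MmAmb n)
  have i4 : Integrable (fun x => 2 * ((z : MmAmb n).fst x * (ζ : MmAmb n).fst x + ⟪(z : MmAmb n).snd x, (ζ : MmAmb n).snd x⟫)) (mmNu n) :=
    (i1.add i2).const_mul 2
  rw [← h3, ← integral_add i1 i2, ← integral_const_mul, ← integral_add i4 i3]
  refine integral_congr_ae (Eventually.of_forall fun x => ?_)
  ring

theorem mm_levels_nonempty (m : ℕ) (ε : ℝ) :
    (mmaLevels (fun z : mmHil (m + 2) ε => mmEn (m + 2) ε z) (acQ m) (acQb m) (mmJ (m + 2) ε)).Nonempty :=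
  ⟨mmEn (m + 2) ε ((0 : mmHil (m + 2) ε) : MmAmb (m + 2)), fun _ => 0, ⟨continuousOn_const, fun _ _ => by simp⟩, fun _ _ => le_rfl⟩

theorem acQ_nonempty (m : ℕ) : (acQ m).Nonempty := ⟨0, by simp [acQ]⟩

end Claimed.Agent.R323
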