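import Claimed.Agent.R323.Mm.En

/-!
# Row 323, block B6: LIPSCHITZ FAMILIES ARE IN THE MIN-MAX CLASS.   Owner helper84 (statement by helper120).   No sorry.

`H q = mmEmb (h q)`.
* continuity of `mmJ ∘ H` on `acQ m`: `‖(H q).fst - (H q₀).fst‖_{L²(ν)} ≤ ν(B₁)^{1/2} · sup_{sphere} |h q - h q₀|` (homogeneity; `{0}` is null), `AcFam.cont`.
* oddness: `mmEmb_neg`;   energy: `mm_acE_eq`.
-/

set_option autoImplicit false
open scoped ContDiff ENNReal NNReal RealInnerProductSpace Topology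
open MeasureTheory Metric Set Filter

namespace Claimed.Agent.R323

open Claimed.Agent.Gmt

theorem AcFam.mmLip {m : ℕ} {h : E (m + 2) × ℝ → E (m + 2) → ℝ} (hh : AcFam m h) {q : E (m + 2) × ℝ} (hq : q ∈ acQ m) :
    MmLip (m + 2) (h q) := ⟨hh.hom q hq, hh.lip q hq⟩

theorem mmf_ae_ne (m : ℕ) : ∀ᵐ x ∂(mmNu (m + 2)), x ≠ 0 := by
  unfold mmNu
  refine ae_restrict_of_ae ?_
  exact compl_mem_ae_iff.2 (measure_singleton (0 : E (m + 2)))

/-- sup bound on the sphere ⟹ `L²` bound -/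
theorem mmf_dist_le (m : ℕ) (ε : ℝ) {U V : E (m + 2) → ℝ} (hU : MmLip (m + 2) U) (hV : MmLip (m + 2) V) {δ : ℝ} (hδ : 0 ≤ δ)
    (h : ∀ x ∈ sphere (0 : E (m + 2)) 1, |U x - V x| ≤ δ) :
    ‖(mmEmb (m + 2) ε U).fst - (mmEmb (m + 2) ε V).fst‖ ≤ (measureUnivNNReal (mmNu (m + 2))) ^ (2 : ℝ≥0∞).toReal⁻¹ * δ := by
  refine Lp.norm_le_of_ae_bound hδ ?_
  filter_upwards [mmf_ae_ne m, mmEmb_fst ε hU, mmEmb_fst ε hV, Lp.coeFn_sub (mmEmb (m + 2) ε U).fst (mmEmb (m + 2) ε V).fst]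
    with x hx h1 h2 h3
  rw [h3, Pi.sub_apply, h1, h2, Real.norm_eq_abs, hU.eq_unit hx, hV.eq_unit hx]
  refine h _ ?_
  rw [mem_sphere_zero_iff_norm, norm_smul, norm_inv, norm_norm, inv_mul_cancel₀ (norm_ne_zero_iff.2 hx)]

theorem mm_fam (m : ℕ) {ε : ℝ} (hε : 0 < ε) {h : E (m + 2) × ℝ → E (m + 2) → ℝ} (hh : AcFam m h) :
    ∃ H : E (m + 2) × ℝ → mmHil (m + 2) ε, MmaFam (acQ m) (acQb m) (mmJ (m + 2) ε) H ∧
      ∀ q ∈ acQ m, ((m + 2 : ℕ) : ℝ) / acC * mmEn (m + 2) ε (H q) = acE (m + 2) ε (h q) := by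
  refine ⟨fun q => ⟨mmEmb (m + 2) ε (h q), mmEmb_mem ε (h q)⟩, ⟨?_, ?_⟩, ?_⟩
  · intro q₀ hq₀
    rw [ContinuousWithinAt, Metric.tendsto_nhdsWithin_nhds]
    intro r hr
    set K : ℝ := (measureUnivNNReal (mmNu (m + 2))) ^ (2 : ℝ≥0∞).toReal⁻¹ with hK
    have hK0 : 0 ≤ K := by positivity
    obtain ⟨ρ, hρ, hc⟩ := hh.cont q₀ hq₀ (r / (2 * (K + 1))) (by positivity)
    refine ⟨ρ, hρ, fun q hq hd => ?_⟩
    have h1 := mmf_dist_le m ε (hh.mmLip hq) (hh.mmLip hq₀) (by positivity) (hc q hq hd)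
    rw [dist_eq_norm]
    show ‖(mmEmb (m + 2) ε (h q)).fst - (mmEmb (m + 2) ε (h q₀)).fst‖ < r
    refine lt_of_le_of_lt h1 ?_
    rw [← hK]
    have h2 : K * (r / (2 * (K + 1))) = r * (K / (2 * (K + 1))) := by ring
    rw [h2]
    have h3 : K / (2 * (K + 1)) < 1 := by
      rw [div_lt_one (by positivity)]
      linarith
    nlinarith
  · intro q hq
    have e : h (-q) = fun x => - h q x := funext fun x => hh.odd q hq x
    apply Subtype.ext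
    show mmEmb (m + 2) ε (h (-q)) = - mmEmb (m + 2) ε (h q)
    rw [e]
    exact mmEmb_neg ε (hh.mmLip hq.1)
  · intro q hq
    exact mm_acE_eq hε (hh.bdd q hq) (mmEmb_fst ε (hh.mmLip hq)) (mmEmb_snd ε (hh.mmLip hq))

end Claimed.Agent.R323
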