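import Claimed.Agent.R323.Mm.GapB
import Claimed.Agent.R323.Mm.Bu

/-!
# Row 323, block B8: THE GAP `w ε ≥ g σ_m`.   Owner helper84 (statement by helper120).   Consumes `gp_ball` (R323/Gap, helper129), `mm_bu` (Mm/Bu.lean).

`n = m + 2`, `β = mmBe`.
1. (`GapA.lean`) `mmgF0 u = ∫ β(u) dν`, `mmgF1 u i = ∫ x_i β(u) dν` are odd and Lipschitz on `L²(ν)`, so `q ↦ (F0, F1)(mmJ (h q))` is continuous on `acQ m`, odd on `acQb m`: `mm_bu` gives a balanced `q`.
2. (`GapB.lean`) `MmgKey n ε z`: the UNCONSTRAINED inequality `n (1 - 4 ε E/ω_n - (F0/ω_n)²) - κ² ∑ F1² ≤ A_n (3/√2) E`: for `z = mmEmb U` by `gp_ball` for `β ∘ U`, AM-GM (`mmBe_amgm`),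
   `1 - β² ≤ 4 W̃`; for `z ∈ mmHil` by density (`mm_induction`; both sides are continuous).
3. (here) constants: `g = (n - 1/π)/(n - 2/π)`, `ε < ω_n/(4 π acC g σ_m)`.
-/

set_option autoImplicit false
open scoped ContDiff ENNReal NNReal RealInnerProductSpace Topology
open MeasureTheory Metric Set Filter

namespace Claimed.Agent.R323

open Claimed.Agent.Gmt

/-- `σ_m = (m+1) ω_{m+1}`. -/
theorem mmg_sig (m : ℕ) : sig m = ((m : ℝ) + 1) * gmtOm (m + 1) := by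
  unfold sig linkArea
  have he : ‖(eb 0 : E (m + 2))‖ = 1 := by simp
  rw [gmtMu_open _ isOpen_ball, gmtP_half_ball (by omega) 0 he one_pos, one_pow, mul_one,
    ENNReal.toReal_ofReal (show 0 ≤ gmtOm (m + 2 - 1) from ENNReal.toReal_nonneg)]
  have e : m + 2 - 1 = m + 1 := by omega
  rw [e]
  push_cast
  ring

/-- the balancing map -/
noncomputable def mmgF (m : ℕ) (u : Lp ℝ 2 (mmNu (m + 2))) : Fin (m + 3) → ℝ :=
  Fin.cons (mmgF0 (m + 2) u) (fun i : Fin (m + 2) => mmgF1 (m + 2) u i)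

theorem mmgF_continuous (m : ℕ) : Continuous (mmgF m) := by
  refine continuous_pi fun i => ?_
  refine Fin.cases ?_ (fun j => ?_) i
  · simpa [mmgF] using mmgF0_continuous (n := m + 2)
  · simpa [mmgF] using mmgF1_continuous (n := m + 2) j

theorem mmgF_neg (m : ℕ) (u : Lp ℝ 2 (mmNu (m + 2))) : mmgF m (-u) = - mmgF m u := by
  funext i
  refine Fin.cases ?_ (fun j => ?_) i
  · simp [mmgF, mmgF0_neg]
  · simp [mmgF, mmgF1_neg]

/-- a balanced point -/
theorem mmg_balanced (m : ℕ) {ε : ℝ} {h : E (m + 2) × ℝ → mmHil (m + 2) ε} (hh : MmaFam (acQ m) (acQb m) (mmJ (m + 2) ε) h) :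
    ∃ q ∈ acQ m, mmgF0 (m + 2) (h q : MmAmb (m + 2)).fst = 0 ∧ ∀ i, mmgF1 (m + 2) (h q : MmAmb (m + 2)).fst i = 0 := by
  obtain ⟨q, hq, h0⟩ := mm_bu m (fun q => mmgF m (mmJ (m + 2) ε (h q))) ((mmgF_continuous m).comp_continuousOn hh.cont) (by
    intro q hq
    show mmgF m (mmJ (m + 2) ε (h (-q))) = - mmgF m (mmJ (m + 2) ε (h q))
    rw [hh.odd q hq, ← mmgF_neg]
    rfl)
  refine ⟨q, hq, ?_, fun i => ?_⟩
  · have := congrFun h0 0
    simpa [mmgF, mmJ] using this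
  · have := congrFun h0 i.succ
    simpa [mmgF, mmJ] using this

/-- the arithmetic -/
theorem mmg_arith {N σ w Y ε c : ℝ} (hN : 2 ≤ N) (hσ : 0 < σ) (hw : 0 < w) (hc : 0 < c) (hε : 0 < ε)
    (hε1 : ε < w / (4 * Real.pi * c * ((N - 1 / Real.pi) / (N - 2 / Real.pi)) * σ))
    (hkey : N - 4 * ε * c * Y / w ≤ (N - 2 / Real.pi) * Y / σ) :
    (N - 1 / Real.pi) / (N - 2 / Real.pi) * σ ≤ Y := by
  have hπ := Real.pi_gt_three
  have hπ0 := Real.pi_pos
  have h1 : 1 / Real.pi < 1 / 3 := one_div_lt_one_div_of_lt (by norm_num) hπ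
  have h2 : 2 / Real.pi = 2 * (1 / Real.pi) := by ring
  have ha : 0 < N - 2 / Real.pi := by rw [h2]; linarith
  have hb : 0 < N - 1 / Real.pi := by linarith
  set g := (N - 1 / Real.pi) / (N - 2 / Real.pi) with hg
  have hg0 : 0 < g := div_pos hb ha
  by_contra hcon
  rw [not_le] at hcon
  have k1 : (N - 2 / Real.pi) * Y / σ < N - 1 / Real.pi := by
    rw [div_lt_iff₀ hσ]
    have : (N - 2 / Real.pi) * Y < (N - 2 / Real.pi) * (g * σ) := mul_lt_mul_of_pos_left hcon ha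
    have e : (N - 2 / Real.pi) * (g * σ) = (N - 1 / Real.pi) * σ := by
      rw [hg, ← mul_assoc, mul_div_cancel₀ _ ha.ne']
    linarith
  have k2 : 4 * ε * c * Y / w < 1 / Real.pi := by
    have hD : 0 < 4 * Real.pi * c * g * σ := by positivity
    rw [lt_div_iff₀ hD] at hε1
    rw [div_lt_iff₀ hw]
    have k3 : 4 * ε * c * Y < 4 * ε * c * (g * σ) := mul_lt_mul_of_pos_left hcon (by positivity)
    have k4 : 4 * ε * c * (g * σ) = 1 / Real.pi * (ε * (4 * Real.pi * c * g * σ)) := by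
      field_simp
    have k5 : 1 / Real.pi * (ε * (4 * Real.pi * c * g * σ)) < 1 / Real.pi * w :=
      mul_lt_mul_of_pos_left hε1 (by positivity)
    linarith
  linarith

theorem mm_gap (m : ℕ) (hm : 2 ≤ m) :
    ∃ g : ℝ, 1 < g ∧ ∀ᶠ ε in 𝓝[>] (0 : ℝ), ∀ h : E (m + 2) × ℝ → mmHil (m + 2) ε,
      MmaFam (acQ m) (acQb m) (mmJ (m + 2) ε) h →
        ∃ q ∈ acQ m, g * sig m ≤ ((m + 2 : ℕ) : ℝ) / acC * mmEn (m + 2) ε (h q) := by
  have hπ := Real.pi_gt_three
  have hπ0 := Real.pi_pos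
  set N : ℝ := ((m + 2 : ℕ) : ℝ) with hN
  have hN2 : 2 ≤ N := by rw [hN]; push_cast; linarith [(Nat.cast_nonneg m : (0 : ℝ) ≤ m)]
  have h1 : 1 / Real.pi < 1 / 3 := one_div_lt_one_div_of_lt (by norm_num) hπ
  have h1' : 0 < 1 / Real.pi := by positivity
  have h2 : 2 / Real.pi = 2 * (1 / Real.pi) := by ring
  have ha : 0 < N - 2 / Real.pi := by rw [h2]; linarith
  have hσ : 0 < sig m := by
    rw [mmg_sig]
    have := mmg_om_pos (m + 1)
    positivity
  have hω := mmg_om_pos (m + 2)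
  have hs2 : 0 < Real.sqrt 2 := Real.sqrt_pos.2 (by norm_num)
  have hc : 0 < acC := by unfold acC; positivity
  refine ⟨(N - 1 / Real.pi) / (N - 2 / Real.pi), ?_, ?_⟩
  · rw [lt_div_iff₀ ha, h2]
    linarith
  have hg0 : 0 < (N - 1 / Real.pi) / (N - 2 / Real.pi) := div_pos (by linarith) ha
  have hε0 : 0 < gmtOm (m + 2) / (4 * Real.pi * acC * ((N - 1 / Real.pi) / (N - 2 / Real.pi)) * sig m) := by positivity
  filter_upwards [Ioo_mem_nhdsGT hε0] with ε hε h hh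
  obtain ⟨q, hq, b0, b1⟩ := mmg_balanced m hh
  refine ⟨q, hq, ?_⟩
  have hkey := mmg_key (n := m + 2) (by omega) hε.1 (h q).2
  unfold MmgKey at hkey
  simp only [b0, b1] at hkey
  refine mmg_arith hN2 hσ hω hc hε.1 hε.2 ?_
  set En := mmEn (m + 2) ε (h q : MmAmb (m + 2)) with hEn
  have e1 : m + 2 - 1 = m + 1 := by omega
  rw [e1] at hkey
  have e2 : (N - 1) * gmtOm (m + 1) = sig m := by
    rw [mmg_sig, hN]
    push_cast
    ring
  rw [← hN, e2] at hkey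
  have hs : Real.sqrt 2 * Real.sqrt 2 = 2 := Real.mul_self_sqrt (by norm_num)
  have e3 : N - 4 * ε * acC * (N / acC * En) / gmtOm (m + 2) = N * (1 - 4 * (ε * En) / gmtOm (m + 2)) := by
    field_simp
  have e4 : (N - 2 / Real.pi) * (N / acC * En) / sig m = (N / 2 - 1 / Real.pi) * (N / sig m) * (3 / Real.sqrt 2 * En) := by
    unfold acC
    field_simp
  rw [e3, e4]
  simpa using hkey

end Claimed.Agent.R323
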