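import Claimed.Agent.R323.Mm.HilBase

set_option autoImplicit false
open scoped ContDiff ENNReal NNReal RealInnerProductSpace Topology
open MeasureTheory Metric Set Filter

namespace Claimed.Agent.R323

open Claimed.Agent.Gmt

variable {n : ℕ} {ε : ℝ}

theorem mmBe_continuous : Continuous mmBe :=
  continuous_iff_continuousAt.2 fun s => (mmBe_hasDerivAt s).continuousAt

theorem mmBe_lipschitzWith : LipschitzWith (3 / 2) mmBe :=
  LipschitzWith.of_dist_le_mul fun s t => by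
    rw [Real.dist_eq, Real.dist_eq]
    have := mmBe_lip s t
    simpa using this

/-- the mean of `β(u)` -/
noncomputable def mmgF0 (n : ℕ) (u : Lp ℝ 2 (mmNu n)) : ℝ := ∫ x, mmBe (u x) ∂(mmNu n)

/-- the first moments of `β(u)` -/
noncomputable def mmgF1 (n : ℕ) (u : Lp ℝ 2 (mmNu n)) (i : Fin n) : ℝ := ∫ x, x i * mmBe (u x) ∂(mmNu n)

theorem mmg_aesm (u : Lp ℝ 2 (mmNu n)) : AEStronglyMeasurable (fun x => mmBe (u x)) (mmNu n) :=
  mmBe_continuous.comp_aestronglyMeasurable (Lp.aestronglyMeasurable u)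

theorem mmg_int0 (u : Lp ℝ 2 (mmNu n)) : Integrable (fun x => mmBe (u x)) (mmNu n) :=
  Integrable.of_bound (mmg_aesm u) 1 (Eventually.of_forall fun x => by
    rw [Real.norm_eq_abs]; exact mmBe_abs_le _)

theorem mmg_coord_le : ∀ᵐ x ∂(mmNu n), ∀ i : Fin n, |x i| ≤ 1 := by
  unfold mmNu
  filter_upwards [ae_restrict_mem measurableSet_ball] with x hx i
  have h1 : ‖x i‖ ≤ ‖x‖ := PiLp.norm_apply_le x i
  rw [mem_ball_zero_iff] at hx
  rw [Real.norm_eq_abs] at h1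
  linarith

theorem mmg_int1 (u : Lp ℝ 2 (mmNu n)) (i : Fin n) : Integrable (fun x => x i * mmBe (u x)) (mmNu n) := by
  refine Integrable.of_bound ?_ 1 ?_
  · exact ((EuclideanSpace.proj i).continuous.aestronglyMeasurable).mul (mmg_aesm u)
  · filter_upwards [mmg_coord_le] with x hx
    rw [Real.norm_eq_abs, abs_mul]
    calc |x i| * |mmBe (u x)| ≤ 1 * 1 := mul_le_mul (hx i) (mmBe_abs_le _) (abs_nonneg _) zero_le_one
      _ = 1 := one_mul 1

/-- Cauchy-Schwarz on the finite measure -/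
theorem mmg_l1_le (u u' : Lp ℝ 2 (mmNu n)) :
    ∫ x, |u x - u' x| ∂(mmNu n) ≤ Real.sqrt ((mmNu n) univ).toReal * ‖u - u'‖ := by
  have h := mm_l1_le (n := n) (WithLp.toLp 2 (u, 0)) (WithLp.toLp 2 (u', 0))
  have e : ‖(WithLp.toLp 2 (u, 0) : MmAmb n) - WithLp.toLp 2 (u', 0)‖ = ‖u - u'‖ := by
    have h2 := WithLp.prod_norm_sq_eq_of_L2 ((WithLp.toLp 2 (u, 0) : MmAmb n) - WithLp.toLp 2 (u', 0))
    have h3 : ((WithLp.toLp 2 (u, 0) : MmAmb n) - WithLp.toLp 2 (u', 0)).fst = u - u' := rfl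
    have h4 : ((WithLp.toLp 2 (u, 0) : MmAmb n) - WithLp.toLp 2 (u', 0)).snd = 0 := by
      show (0 : Lp (E n) 2 (mmNu n)) - 0 = 0
      simp
    rw [h3, h4, norm_zero] at h2
    have h5 : ‖(WithLp.toLp 2 (u, 0) : MmAmb n) - WithLp.toLp 2 (u', 0)‖ ^ 2 = ‖u - u'‖ ^ 2 := by
      rw [h2]; ring
    exact (pow_left_inj₀ (norm_nonneg _) (norm_nonneg _) two_ne_zero).1 h5
  rw [e] at h
  exact h

theorem mmg_int_abs (u u' : Lp ℝ 2 (mmNu n)) : Integrable (fun x => |u x - u' x|) (mmNu n) := by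
  have h1 : Integrable (fun x => u x) (mmNu n) := (Lp.memLp u).integrable (by norm_num)
  have h2 : Integrable (fun x => u' x) (mmNu n) := (Lp.memLp u').integrable (by norm_num)
  exact (h1.sub h2).abs

theorem mmgF0_lip (u u' : Lp ℝ 2 (mmNu n)) :
    |mmgF0 n u - mmgF0 n u'| ≤ 3 / 2 * (Real.sqrt ((mmNu n) univ).toReal * ‖u - u'‖) := by
  unfold mmgF0
  rw [← integral_sub (mmg_int0 u) (mmg_int0 u')]
  calc |∫ x, (mmBe (u x) - mmBe (u' x)) ∂(mmNu n)| ≤ ∫ x, |mmBe (u x) - mmBe (u' x)| ∂(mmNu n) := abs_integral_le_integral_abs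
    _ ≤ ∫ x, 3 / 2 * |u x - u' x| ∂(mmNu n) :=
        integral_mono ((mmg_int0 u).sub (mmg_int0 u')).abs ((mmg_int_abs u u').const_mul _) fun x => mmBe_lip _ _
    _ = 3 / 2 * ∫ x, |u x - u' x| ∂(mmNu n) := integral_const_mul _ _
    _ ≤ _ := mul_le_mul_of_nonneg_left (mmg_l1_le u u') (by norm_num)

theorem mmgF1_lip (u u' : Lp ℝ 2 (mmNu n)) (i : Fin n) :
    |mmgF1 n u i - mmgF1 n u' i| ≤ 3 / 2 * (Real.sqrt ((mmNu n) univ).toReal * ‖u - u'‖) := by
  unfold mmgF1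
  rw [← integral_sub (mmg_int1 u i) (mmg_int1 u' i)]
  calc |∫ x, (x i * mmBe (u x) - x i * mmBe (u' x)) ∂(mmNu n)|
      ≤ ∫ x, |x i * mmBe (u x) - x i * mmBe (u' x)| ∂(mmNu n) := abs_integral_le_integral_abs
    _ ≤ ∫ x, 3 / 2 * |u x - u' x| ∂(mmNu n) := by
        refine integral_mono_ae ((mmg_int1 u i).sub (mmg_int1 u' i)).abs ((mmg_int_abs u u').const_mul _) ?_
        filter_upwards [mmg_coord_le] with x hx
        show |x i * mmBe (u x) - x i * mmBe (u' x)| ≤ 3 / 2 * |u x - u' x|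
        rw [← mul_sub, abs_mul]
        calc |x i| * |mmBe (u x) - mmBe (u' x)| ≤ 1 * |mmBe (u x) - mmBe (u' x)| :=
              mul_le_mul_of_nonneg_right (hx i) (abs_nonneg _)
          _ = |mmBe (u x) - mmBe (u' x)| := one_mul _
          _ ≤ _ := mmBe_lip _ _
    _ = 3 / 2 * ∫ x, |u x - u' x| ∂(mmNu n) := integral_const_mul _ _
    _ ≤ _ := mul_le_mul_of_nonneg_left (mmg_l1_le u u') (by norm_num)

theorem mmgF0_continuous : Continuous (mmgF0 n) := by
  refine (LipschitzWith.of_dist_le_mul (K := (3 / 2 * Real.sqrt ((mmNu n) univ).toReal).toNNReal) fun u u' => ?_).continuous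
  rw [Real.dist_eq, dist_eq_norm, Real.coe_toNNReal _ (by positivity)]
  have := mmgF0_lip u u'
  linarith

theorem mmgF1_continuous (i : Fin n) : Continuous fun u => mmgF1 n u i := by
  refine (LipschitzWith.of_dist_le_mul (K := (3 / 2 * Real.sqrt ((mmNu n) univ).toReal).toNNReal) fun u u' => ?_).continuous
  rw [Real.dist_eq, dist_eq_norm, Real.coe_toNNReal _ (by positivity)]
  have := mmgF1_lip u u' i
  linarith

theorem mmgF0_neg (u : Lp ℝ 2 (mmNu n)) : mmgF0 n (-u) = - mmgF0 n u := by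
  unfold mmgF0
  rw [← integral_neg]
  refine integral_congr_ae ?_
  filter_upwards [Lp.coeFn_neg u] with x hx
  rw [hx, Pi.neg_apply, mmBe_neg]

theorem mmgF1_neg (u : Lp ℝ 2 (mmNu n)) (i : Fin n) : mmgF1 n (-u) i = - mmgF1 n u i := by
  unfold mmgF1
  rw [← integral_neg]
  refine integral_congr_ae ?_
  filter_upwards [Lp.coeFn_neg u] with x hx
  rw [hx, Pi.neg_apply, mmBe_neg]
  ring

end Claimed.Agent.R323
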