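import Claimed.Agent.R323.Mm.GapA
import Claimed.Agent.R323.Mm.En
import Claimed.Agent.R323.Gap.Exit

set_option autoImplicit false
open scoped ContDiff ENNReal NNReal RealInnerProductSpace Topology
open MeasureTheory Metric Set Filter

namespace Claimed.Agent.R323

open Claimed.Agent.Gmt

variable {n : ℕ} {ε : ℝ} {U : E n → ℝ}

theorem mmg_gpFun (hU : MmLip n U) : GpFun n fun x => mmBe (U x) where
  hom := fun t ht x => by rw [hU.hom t ht x]
  bdd := fun x => mmBe_abs_le _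
  lip := (MmLip.comp mmBe_lipschitzWith hU).lip

theorem mmg_mass (n : ℕ) : ((mmNu n) univ).toReal = gmtOm n := by
  unfold mmNu gmtOm
  rw [Measure.restrict_apply_univ]

theorem mmg_om_pos (n : ℕ) : 0 < gmtOm n := by
  unfold gmtOm
  exact ENNReal.toReal_pos (measure_ball_pos _ _ one_pos).ne' measure_ball_lt_top.ne

/-- `ε E ≥ ∫ W̃(u)` -/
theorem mmg_Wt_le (hε : 0 < ε) (z : MmAmb n) : ∫ x, mmWt (z.fst x) ∂(mmNu n) ≤ ε * mmEn n ε z := by
  rw [mmEn_eq, mul_div_cancel₀ _ hε.ne']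
  have : 0 ≤ ∫ x, ‖z.snd x‖ ^ 2 ∂(mmNu n) := integral_nonneg fun _ => by positivity
  linarith

/-- `∫ β(u)² ≥ ω_n - 4 ε E` -/
theorem mmg_sq_ge (hε : 0 < ε) (z : MmAmb n) :
    gmtOm n - 4 * (ε * mmEn n ε z) ≤ ∫ x, mmBe (z.fst x) ^ 2 ∂(mmNu n) := by
  have h1 : Integrable (fun x => mmBe (z.fst x) ^ 2) (mmNu n) :=
    Integrable.of_bound ((mmg_aesm z.fst).pow 2) 1 (Eventually.of_forall fun x => by
      rw [Real.norm_eq_abs, abs_pow]
      exact pow_le_one₀ (abs_nonneg _) (mmBe_abs_le _))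
  have h2 : ∫ x, (1 - mmBe (z.fst x) ^ 2) ∂(mmNu n) ≤ ∫ x, 4 * mmWt (z.fst x) ∂(mmNu n) :=
    integral_mono ((integrable_const _).sub h1) ((mm_integrable_Wt z).const_mul _) fun x => mmBe_one_sub_sq _
  rw [integral_sub (integrable_const _) h1, integral_const_mul, integral_const, smul_eq_mul, mul_one] at h2
  have h3 : (mmNu n).real univ = gmtOm n := mmg_mass n
  rw [h3] at h2
  have := mmg_Wt_le hε z
  linarith

/-- `∫ |x| |∇β(U)| ≤ (3/√2) E` -/
theorem mmg_grad_le (hε : 0 < ε) (hU : MmLip n U) :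
    ∫ x in ball (0 : E n) 1, ‖x‖ * ‖fderiv ℝ (fun x => mmBe (U x)) x‖ ≤ 3 / Real.sqrt 2 * mmEn n ε (mmEmb n ε U) := by
  set z := mmEmb n ε U with hz
  have hI : Integrable (fun x => 3 / Real.sqrt 2 * ((‖z.snd x‖ ^ 2 + mmWt (z.fst x)) / ε)) (mmNu n) :=
    (((mm_integrable_snd_sq z).add (mm_integrable_Wt z)).div_const ε).const_mul _
  have e : 3 / Real.sqrt 2 * mmEn n ε z = ∫ x, 3 / Real.sqrt 2 * ((‖z.snd x‖ ^ 2 + mmWt (z.fst x)) / ε) ∂(mmNu n) := by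
    rw [integral_const_mul, integral_div, integral_add (mm_integrable_snd_sq z) (mm_integrable_Wt z), mmEn_eq]
  rw [e]
  show ∫ x, ‖x‖ * ‖fderiv ℝ (fun x => mmBe (U x)) x‖ ∂(mmNu n) ≤ _
  refine integral_mono_of_nonneg (Eventually.of_forall fun x => by positivity) hI ?_
  filter_upwards [hU.ae_differentiableAt', mmEmb_fst ε hU, mmEmb_snd ε hU] with x hx h1 h2
  show ‖x‖ * ‖fderiv ℝ (fun x => mmBe (U x)) x‖ ≤ 3 / Real.sqrt 2 * ((‖z.snd x‖ ^ 2 + mmWt (z.fst x)) / ε)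
  have hd : HasFDerivAt (fun x => mmBe (U x)) ((3 / 2 * (1 - mmT (U x) ^ 2)) • fderiv ℝ U x) x :=
    (mmBe_hasDerivAt (U x)).comp_hasFDerivAt x hx.hasFDerivAt
  have hT : 0 ≤ 3 / 2 * (1 - mmT (U x) ^ 2) := by
    have := mmT_abs_le (U x)
    have h3 : mmT (U x) ^ 2 ≤ 1 := by
      rw [← sq_abs]
      exact pow_le_one₀ (abs_nonneg _) this
    linarith
  rw [hd.fderiv, norm_smul, Real.norm_of_nonneg hT, hz, h1, h2, mmGr_norm_sq]
  have h4 := mmBe_amgm hε (show 0 ≤ ‖x‖ * ‖fderiv ℝ U x‖ by positivity) (U x)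
  have e2 : (ε ^ 2 / 2 * ‖x‖ ^ 2 * ‖fderiv ℝ U x‖ ^ 2 + mmWt (U x)) / ε
      = ε * (‖x‖ * ‖fderiv ℝ U x‖) ^ 2 / 2 + mmWt (U x) / ε := by
    field_simp
  rw [e2]
  calc ‖x‖ * (3 / 2 * (1 - mmT (U x) ^ 2) * ‖fderiv ℝ U x‖) = 3 / 2 * (1 - mmT (U x) ^ 2) * (‖x‖ * ‖fderiv ℝ U x‖) := by ring
    _ ≤ _ := h4

/-- the unconstrained inequality -/
def MmgKey (n : ℕ) (ε : ℝ) (z : MmAmb n) : Prop :=
  n * (1 - 4 * (ε * mmEn n ε z) / gmtOm n - ((gmtOm n)⁻¹ * mmgF0 n z.fst) ^ 2) - gpKap n ^ 2 * ∑ i, (mmgF1 n z.fst i) ^ 2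
    ≤ ((n : ℝ) / 2 - 1 / Real.pi) * (n / (((n : ℝ) - 1) * gmtOm (n - 1))) * (3 / Real.sqrt 2 * mmEn n ε z)

theorem mmg_A_nonneg (hn : 2 ≤ n) : 0 ≤ ((n : ℝ) / 2 - 1 / Real.pi) * (n / (((n : ℝ) - 1) * gmtOm (n - 1))) := by
  have h2 : (2 : ℝ) ≤ n := by exact_mod_cast hn
  have h3 : 1 / Real.pi ≤ 1 := by
    rw [div_le_one Real.pi_pos]
    linarith [Real.pi_gt_three]
  have h4 := gmtOm_nonneg (n - 1)
  apply mul_nonneg (by linarith)
  apply div_nonneg (by linarith)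
  apply mul_nonneg (by linarith) h4

theorem mmg_key_emb (hn : 2 ≤ n) (hε : 0 < ε) (hU : MmLip n U) : MmgKey n ε (mmEmb n ε U) := by
  unfold MmgKey
  set z := mmEmb n ε U with hz
  have hg := gp_ball hn (mmg_gpFun hU)
  have e0 : ∫ x in ball (0 : E n) 1, mmBe (U x) = mmgF0 n z.fst := by
    unfold mmgF0
    refine integral_congr_ae ?_
    filter_upwards [mmEmb_fst ε hU] with x hx
    rw [hz, hx]
  have e1 : ∀ i, ∫ x in ball (0 : E n) 1, x i * mmBe (U x) = mmgF1 n z.fst i := by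
    intro i
    unfold mmgF1
    refine integral_congr_ae ?_
    filter_upwards [mmEmb_fst ε hU] with x hx
    rw [hz, hx]
  have e2 : ∫ x in ball (0 : E n) 1, mmBe (U x) ^ 2 = ∫ x, mmBe (z.fst x) ^ 2 ∂(mmNu n) := by
    refine integral_congr_ae ?_
    filter_upwards [mmEmb_fst ε hU] with x hx
    rw [hz, hx]
  simp only [e0, e1] at hg
  rw [e2] at hg
  have h1 := mmg_sq_ge hε z
  have h2 := mmg_grad_le hε hU
  rw [← hz] at h2
  have h3 := mul_le_mul_of_nonneg_left h2 (mmg_A_nonneg hn)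
  have hω := mmg_om_pos n
  have h4 : 1 - 4 * (ε * mmEn n ε z) / gmtOm n ≤ (gmtOm n)⁻¹ * ∫ x, mmBe (z.fst x) ^ 2 ∂(mmNu n) := by
    have : 1 - 4 * (ε * mmEn n ε z) / gmtOm n = (gmtOm n)⁻¹ * (gmtOm n - 4 * (ε * mmEn n ε z)) := by
      field_simp
    rw [this]
    exact mul_le_mul_of_nonneg_left h1 (inv_pos.2 hω).le
  have hn0 : (0 : ℝ) ≤ n := Nat.cast_nonneg n
  have h5 := mul_le_mul_of_nonneg_left h4 hn0
  rw [mul_sub] at hg ⊢
  linarith [hg, h3, h5]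

theorem mmg_key (hn : 2 ≤ n) (hε : 0 < ε) {z : MmAmb n} (hz : z ∈ mmHil n ε) : MmgKey n ε z := by
  refine mm_induction (p := MmgKey n ε) ?_ (fun U hU => mmg_key_emb hn hε hU) hz
  unfold MmgKey
  have c1 : Continuous fun z : MmAmb n => z.fst := WithLp.continuous_fst 2 _ _
  have c2 := mmEn_continuous n ε
  have c3 : Continuous fun z : MmAmb n => mmgF0 n z.fst := mmgF0_continuous.comp c1
  have c4 : ∀ i, Continuous fun z : MmAmb n => mmgF1 n z.fst i := fun i => (mmgF1_continuous i).comp c1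
  refine isClosed_le ?_ ?_
  · refine Continuous.sub ?_ ?_
    · refine continuous_const.mul ?_
      refine Continuous.sub (continuous_const.sub ?_) ?_
      · exact (continuous_const.mul (continuous_const.mul c2)).div_const _
      · exact (continuous_const.mul c3).pow 2
    · exact continuous_const.mul (continuous_finsetSum _ fun i _ => (c4 i).pow 2)
  · exact continuous_const.mul (continuous_const.mul c2)

end Claimed.Agent.R323
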