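import Mathlib

/-!
# Row 323, block B0: THE MODIFIED DOUBLE WELL (real variable calculus, Mathlib only).   Architect helper120.  Prefix `mm`.  LEAVES L-B-WELL-A/B/C/D.

`W(s) = (1-s²)²/4`.  `mmWt = W` on `[-1,1]`, `= (|s|-1)²` outside (`C²`).   `mmWt s = s² + mmB s` with `mmB` CONCAVE, `mmB' = mmb = T³ - 3T` (`T = mmT` = clamp to `[-1,1]`), `|mmb| ≤ 2`, `mmb` is `3`-Lipschitz.
`mmBe = Φ∘T / Φ(1) = (3T - T³)/2 = - mmb / 2`, `Φ(s) = ∫₀ˢ √(2W)`.   `mmG` = a `C¹` substitute of `(s-1)₊` with `0 ≤ mmG' < 1`.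
All proofs: case distinction `s ≤ -1`, `-1 ≤ s ≤ 1`, `1 ≤ s` (`mmT_of_le`, `mmT_of_abs_le`, `mmT_of_ge`), then `nlinarith`/`polyrith`-style algebra.
-/

set_option autoImplicit false

namespace Claimed.Agent.R323

/-- the clamp to `[-1,1]` -/
noncomputable def mmT (s : ℝ) : ℝ := max (-1) (min 1 s)

/-- `b = B'` -/
noncomputable def mmb (s : ℝ) : ℝ := mmT s ^ 3 - 3 * mmT s

/-- the modified double well -/
noncomputable def mmWt (s : ℝ) : ℝ := if |s| ≤ 1 then (1 - s ^ 2) ^ 2 / 4 else (|s| - 1) ^ 2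

/-- `B = Wt - s²` -/
noncomputable def mmB (s : ℝ) : ℝ := mmWt s - s ^ 2

/-- `β = Φ∘T / Φ(1)` -/
noncomputable def mmBe (s : ℝ) : ℝ := (3 * mmT s - mmT s ^ 3) / 2

/-- a `C¹` substitute of `(s-1)₊` -/
noncomputable def mmG (s : ℝ) : ℝ := max 0 (s - 1) ^ 2 / (1 + max 0 (s - 1))

/-- its derivative -/
noncomputable def mmG' (s : ℝ) : ℝ := 1 - 1 / (1 + max 0 (s - 1)) ^ 2

/-! ### LEAF L-B-WELL-A: the clamp and `b` -/

theorem mmT_of_abs_le {s : ℝ} (h : |s| ≤ 1) : mmT s = s := by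
  unfold mmT
  obtain ⟨h1, h2⟩ := abs_le.1 h
  rw [min_eq_right h2, max_eq_right h1]

theorem mmT_of_ge {s : ℝ} (h : 1 ≤ s) : mmT s = 1 := by
  unfold mmT
  rw [min_eq_left h, max_eq_right (by norm_num)]

theorem mmT_of_le {s : ℝ} (h : s ≤ -1) : mmT s = -1 := by
  unfold mmT
  rw [min_eq_right (by linarith), max_eq_left h]

theorem mmT_abs_le (s : ℝ) : |mmT s| ≤ 1 := by
  unfold mmT
  rw [abs_le]
  exact ⟨le_max_left _ _, max_le (by norm_num) (min_le_left _ _)⟩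

theorem mmT_neg (s : ℝ) : mmT (-s) = - mmT s := by
  rcases le_total s (-1) with h | h
  · rw [mmT_of_le h, mmT_of_ge (by linarith)]
    norm_num
  · rcases le_total s 1 with h' | h'
    · rw [mmT_of_abs_le (abs_le.2 ⟨h, h'⟩), mmT_of_abs_le (abs_le.2 ⟨by linarith, by linarith⟩)]
    · rw [mmT_of_ge h', mmT_of_le (by linarith)]

theorem mmT_lip (s t : ℝ) : |mmT s - mmT t| ≤ |s - t| := by
  unfold mmT
  rw [max_comm (-1 : ℝ), max_comm (-1 : ℝ), min_comm 1 s, min_comm 1 t]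
  exact (abs_max_sub_max_le_abs (min s 1) (min t 1) (-1)).trans (abs_inf_sub_inf_le_abs s t 1)

theorem mmT_continuous : Continuous mmT := by
  unfold mmT
  exact continuous_const.max (continuous_const.min continuous_id)

theorem mmb_abs_le (s : ℝ) : |mmb s| ≤ 2 := by
  unfold mmb
  obtain ⟨h1, h2⟩ := abs_le.1 (mmT_abs_le s)
  obtain ⟨a, ha⟩ : ∃ a, a = mmT s := ⟨_, rfl⟩
  rw [← ha] at h1 h2 ⊢
  rw [abs_le]
  constructor
  · nlinarith [mul_nonneg (by linarith : (0 : ℝ) ≤ a + 2) (sq_nonneg (a - 1))]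
  · nlinarith [mul_nonneg (by linarith : (0 : ℝ) ≤ 2 - a) (sq_nonneg (a + 1))]

theorem mmb_neg (s : ℝ) : mmb (-s) = - mmb s := by
  unfold mmb
  rw [mmT_neg]
  ring

/-- PLAN: `a³ - 3a - (c³ - 3c) = (a - c)(a² + ac + c² - 3)`, `|a|, |c| ≤ 1`; `mmT_lip`. -/
theorem mmb_lip (s t : ℝ) : |mmb s - mmb t| ≤ 3 * |s - t| := by
  unfold mmb
  obtain ⟨h1, h2⟩ := abs_le.1 (mmT_abs_le s)
  obtain ⟨h3, h4⟩ := abs_le.1 (mmT_abs_le t)
  have hl := mmT_lip s t
  obtain ⟨a, ha⟩ : ∃ a, a = mmT s := ⟨_, rfl⟩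
  obtain ⟨c, hc⟩ : ∃ c, c = mmT t := ⟨_, rfl⟩
  rw [← ha] at h1 h2 hl ⊢
  rw [← hc] at h3 h4 hl ⊢
  have e : a ^ 3 - 3 * a - (c ^ 3 - 3 * c) = (a - c) * (a ^ 2 + a * c + c ^ 2 - 3) := by ring
  rw [e, abs_mul]
  have hq : |a ^ 2 + a * c + c ^ 2 - 3| ≤ 3 := by
    rw [abs_le]
    constructor
    · nlinarith [sq_nonneg (a + c), sq_nonneg a, sq_nonneg c]
    · nlinarith [mul_nonneg (by linarith : (0 : ℝ) ≤ 1 - a) (by linarith : (0 : ℝ) ≤ 1 + a),
        mul_nonneg (by linarith : (0 : ℝ) ≤ 1 - c) (by linarith : (0 : ℝ) ≤ 1 + c), sq_nonneg (a - c)]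
  calc |a - c| * |a ^ 2 + a * c + c ^ 2 - 3| ≤ |s - t| * 3 :=
        mul_le_mul hl hq (abs_nonneg _) (abs_nonneg _)
    _ = 3 * |s - t| := by ring

theorem mmb_continuous : Continuous mmb := by
  unfold mmb
  exact (mmT_continuous.pow 3).sub (continuous_const.mul mmT_continuous)

/-- used for the `L¹` route: `|b(s) - b(t)|² ≤ 12 |s - t|` -/
theorem mmb_sq_le (s t : ℝ) : (mmb s - mmb t) ^ 2 ≤ 12 * |s - t| := by
  have h1 := mmb_lip s t
  have h2 : |mmb s - mmb t| ≤ 4 := by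
    have := abs_sub (mmb s) (mmb t)
    have := mmb_abs_le s
    have := mmb_abs_le t
    linarith
  rw [← sq_abs]
  nlinarith [abs_nonneg (mmb s - mmb t), abs_nonneg (s - t)]

/-! ### LEAF L-B-WELL-B: the well -/

theorem mmWt_of_abs_le {s : ℝ} (h : |s| ≤ 1) : mmWt s = (1 - s ^ 2) ^ 2 / 4 := if_pos h

theorem mmWt_nonneg (s : ℝ) : 0 ≤ mmWt s := by
  unfold mmWt
  split_ifs <;> positivity

theorem mmWt_neg (s : ℝ) : mmWt (-s) = mmWt s := by
  unfold mmWt
  rw [abs_neg, neg_sq]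

theorem mmWt_coercive (s : ℝ) : s ^ 2 / 2 - 1 ≤ mmWt s := by
  unfold mmWt
  split_ifs with h
  · have h1 : s ^ 2 ≤ 1 := by
      rw [← sq_abs]
      nlinarith [abs_nonneg s]
    have : 0 ≤ (1 - s ^ 2) ^ 2 / 4 := by positivity
    linarith
  · have e : s ^ 2 = |s| ^ 2 := (sq_abs s).symm
    rw [e]
    nlinarith [sq_nonneg (|s| - 2)]

/-- aux (all leaves L-B-WELL): gluing of two one-sided formulas with the same value of the derivative -/
theorem mm_glue {f p q : ℝ → ℝ} {c d : ℝ} (hp : HasDerivAt p d c) (hq : HasDerivAt q d c)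
    (h1 : ∀ x, c - 1 ≤ x → x ≤ c → f x = p x) (h2 : ∀ x, c ≤ x → x ≤ c + 1 → f x = q x) : HasDerivAt f d c := by
  have a1 : HasDerivWithinAt f d (Set.Icc (c - 1) c) c :=
    hp.hasDerivWithinAt.congr (fun x hx => h1 x hx.1 hx.2) (h1 c (by linarith) le_rfl)
  have a2 : HasDerivWithinAt f d (Set.Icc c (c + 1)) c :=
    hq.hasDerivWithinAt.congr (fun x hx => h2 x hx.1 hx.2) (h2 c le_rfl (by linarith))
  have a3 := a1.union a2
  rw [Set.Icc_union_Icc_eq_Icc (by linarith) (by linarith)] at a3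
  exact a3.hasDerivAt (Icc_mem_nhds (by linarith) (by linarith))

/-- aux: the well right of `1` -/
theorem mmWt_of_ge {s : ℝ} (h : 1 ≤ s) : mmWt s = (s - 1) ^ 2 := by
  unfold mmWt
  rw [abs_of_nonneg (by linarith)]
  split_ifs with h'
  · have : s = 1 := le_antisymm h' h
    rw [this]
    norm_num
  · rfl

/-- aux: the well left of `-1` -/
theorem mmWt_of_le {s : ℝ} (h : s ≤ -1) : mmWt s = (s + 1) ^ 2 := by
  rw [← mmWt_neg, mmWt_of_ge (by linarith)]
  ring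

/-- aux: the three polynomials -/
theorem mmWt_poly_deriv (s : ℝ) : HasDerivAt (fun x : ℝ => (1 - x ^ 2) ^ 2 / 4) (s ^ 3 - s) s ∧
    HasDerivAt (fun x : ℝ => (x - 1) ^ 2) (2 * s - 2) s ∧ HasDerivAt (fun x : ℝ => (x + 1) ^ 2) (2 * s + 2) s := by
  refine ⟨?_, ?_, ?_⟩
  · have h := ((((hasDerivAt_pow 2 s).const_sub 1).pow 2).div_const 4)
    have e : ((2 : ℕ) : ℝ) * (1 - s ^ 2) ^ (2 - 1) * -(((2 : ℕ) : ℝ) * s ^ (2 - 1)) / 4 = s ^ 3 - s := by
      norm_num
      ring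
    rw [e] at h
    exact h
  · have h := ((hasDerivAt_id s).sub_const 1).pow 2
    have e : ((2 : ℕ) : ℝ) * (id s - 1) ^ (2 - 1) * 1 = 2 * s - 2 := by
      norm_num
      ring
    rw [e] at h
    exact h
  · have h := ((hasDerivAt_id s).add_const 1).pow 2
    have e : ((2 : ℕ) : ℝ) * (id s + 1) ^ (2 - 1) * 1 = 2 * s + 2 := by
      norm_num
      ring
    rw [e] at h
    exact h

/-- PLAN: on the open intervals `s < -1`, `-1 < s < 1`, `1 < s` the function coincides near `s` with a polynomial (`HasDerivAt.congr_of_eventuallyEq`); at `s = ±1`: both one-sided formulas have value `0` and derivative `0`: use `hasDerivAt_iff_isLittleO`/a direct bound `|mmWt (±1 + t)| ≤ 4 t²` for `|t| ≤ 1`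
(`HasDerivAt` from `|f (x+t) - f x - 0| ≤ C t²`: `hasDerivAt_of_...`; or glue with `HasDerivWithinAt` on `Iic`/`Ici` and `HasDerivWithinAt.union`). -/
theorem mmWt_hasDerivAt (s : ℝ) : HasDerivAt mmWt (2 * s + mmb s) s := by
  obtain ⟨p1, p2, p3⟩ := mmWt_poly_deriv s
  rcases lt_trichotomy s (-1) with h | h | h
  · have e : 2 * s + mmb s = 2 * s + 2 := by
      unfold mmb
      rw [mmT_of_le h.le]
      ring
    rw [e]
    refine p3.congr_of_eventuallyEq ?_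
    filter_upwards [Iio_mem_nhds h] with x hx
    exact mmWt_of_le (le_of_lt hx)
  · have e : 2 * s + mmb s = 0 := by
      unfold mmb
      rw [mmT_of_le h.le, h]
      ring
    rw [e]
    have e1 : s ^ 3 - s = 0 := by rw [h]; ring
    have e3 : 2 * s + 2 = 0 := by rw [h]; ring
    rw [e1] at p1
    rw [e3] at p3
    refine mm_glue p3 p1 (fun x _ hx => mmWt_of_le (by linarith)) fun x hx hx' => mmWt_of_abs_le (abs_le.2 ⟨by linarith, by linarith⟩)
  · rcases lt_trichotomy s 1 with h' | h' | h'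
    · have e : 2 * s + mmb s = s ^ 3 - s := by
        unfold mmb
        rw [mmT_of_abs_le (abs_le.2 ⟨h.le, h'.le⟩)]
        ring
      rw [e]
      refine p1.congr_of_eventuallyEq ?_
      filter_upwards [Ioo_mem_nhds h h'] with x hx
      exact mmWt_of_abs_le (abs_le.2 ⟨hx.1.le, hx.2.le⟩)
    · have e : 2 * s + mmb s = 0 := by
        unfold mmb
        rw [mmT_of_ge h'.ge, h']
        ring
      rw [e]
      have e1 : s ^ 3 - s = 0 := by rw [h']; ring
      have e2 : 2 * s - 2 = 0 := by rw [h']; ring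
      rw [e1] at p1
      rw [e2] at p2
      refine mm_glue p1 p2 (fun x hx hx' => mmWt_of_abs_le (abs_le.2 ⟨by linarith, by linarith⟩)) fun x hx _ => mmWt_of_ge (by linarith)
    · have e : 2 * s + mmb s = 2 * s - 2 := by
        unfold mmb
        rw [mmT_of_ge h'.le]
        ring
      rw [e]
      refine p2.congr_of_eventuallyEq ?_
      filter_upwards [Ioi_mem_nhds h'] with x hx
      exact mmWt_of_ge (le_of_lt hx)

theorem mmB_hasDerivAt (s : ℝ) : HasDerivAt mmB (mmb s) s := by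
  have h := (mmWt_hasDerivAt s).sub (hasDerivAt_pow 2 s)
  have e : 2 * s + mmb s - ((2 : ℕ) : ℝ) * s ^ (2 - 1) = mmb s := by norm_num
  rw [e] at h
  exact h

theorem mmWt_continuous : Continuous mmWt :=
  continuous_iff_continuousAt.2 fun s => (mmWt_hasDerivAt s).continuousAt

theorem mmB_continuous : Continuous mmB :=
  continuous_iff_continuousAt.2 fun s => (mmB_hasDerivAt s).continuousAt

/-- `mmb` is nonincreasing.  PLAN: `mmT` is monotone, `a ↦ a³ - 3a` is antitone on `[-1,1]`. -/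
theorem mmb_antitone : Antitone mmb := by
  intro s t hst
  have hm : mmT s ≤ mmT t := by
    unfold mmT
    exact max_le_max le_rfl (min_le_min le_rfl hst)
  unfold mmb
  obtain ⟨h1, h2⟩ := abs_le.1 (mmT_abs_le s)
  obtain ⟨h3, h4⟩ := abs_le.1 (mmT_abs_le t)
  obtain ⟨a, ha⟩ : ∃ a, a = mmT s := ⟨_, rfl⟩
  obtain ⟨c, hc⟩ : ∃ c, c = mmT t := ⟨_, rfl⟩
  rw [← ha] at h1 h2 hm ⊢
  rw [← hc] at h3 h4 hm ⊢
  have hq : a ^ 2 + a * c + c ^ 2 - 3 ≤ 0 := by
    nlinarith [mul_nonneg (by linarith : (0 : ℝ) ≤ 1 - a) (by linarith : (0 : ℝ) ≤ 1 + a),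
        mul_nonneg (by linarith : (0 : ℝ) ≤ 1 - c) (by linarith : (0 : ℝ) ≤ 1 + c), sq_nonneg (a - c)]
  have e : a ^ 3 - 3 * a - (c ^ 3 - 3 * c) = (c - a) * -(a ^ 2 + a * c + c ^ 2 - 3) := by ring
  have : 0 ≤ (c - a) * -(a ^ 2 + a * c + c ^ 2 - 3) := mul_nonneg (by linarith) (by linarith)
  linarith

/-- **concavity of `B`**.  PLAN: `g t = mmB s + mmb s * t - mmB (s + t)` has `g 0 = 0`, `g' t = mmb s - mmb (s + t)`, `≥ 0` for `t ≥ 0`, `≤ 0` for `t ≤ 0` (`mmb_antitone`): `monotoneOn_of_deriv_nonneg` / `antitoneOn_of_deriv_nonpos` on `Ici 0`, `Iic 0`.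
(Or: `AntitoneOn.concaveOn_of_deriv` and the tangent line inequality.) -/
theorem mmB_concave (s t : ℝ) : mmB (s + t) ≤ mmB s + mmb s * t := by
  rcases lt_trichotomy t 0 with h | h | h
  · obtain ⟨c, hc, hc'⟩ := exists_hasDerivAt_eq_slope mmB mmb (by linarith : s + t < s) mmB_continuous.continuousOn
      fun x _ => mmB_hasDerivAt x
    have h1 : mmb s ≤ mmb c := mmb_antitone hc.2.le
    have h2 : s - (s + t) = -t := by ring
    rw [h2, eq_div_iff (by linarith)] at hc'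
    nlinarith
  · rw [h]
    simp
  · obtain ⟨c, hc, hc'⟩ := exists_hasDerivAt_eq_slope mmB mmb (by linarith : s < s + t) mmB_continuous.continuousOn
      fun x _ => mmB_hasDerivAt x
    have h1 : mmb c ≤ mmb s := mmb_antitone hc.1.le
    have h2 : s + t - s = t := by ring
    rw [h2, eq_div_iff (by linarith)] at hc'
    nlinarith

/-- PLAN: mean value inequality (`Convex.norm_image_sub_le_of_norm_hasDerivWithin_le` on `univ`) with `mmb_abs_le`. -/
theorem mmB_lip (s t : ℝ) : |mmB s - mmB t| ≤ 2 * |s - t| := by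
  have h := Convex.norm_image_sub_le_of_norm_hasDerivWithin_le (f := mmB) (f' := mmb) (C := 2) (s := Set.univ) (x := t) (y := s)
    (fun x _ => (mmB_hasDerivAt x).hasDerivWithinAt) (fun x _ => by rw [Real.norm_eq_abs]; exact mmb_abs_le x) convex_univ
    (Set.mem_univ _) (Set.mem_univ _)
  rwa [Real.norm_eq_abs, Real.norm_eq_abs] at h

theorem mmB_abs_le (s : ℝ) : |mmB s| ≤ 1 + 2 * |s| := by
  have h := mmB_lip s 0
  have h0 : mmB 0 = 1 / 4 := by
    unfold mmB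
    rw [mmWt_of_abs_le (by norm_num)]
    norm_num
  rw [h0, sub_zero] at h
  have h1 : |mmB s| ≤ |mmB s - 1 / 4| + |(1 / 4 : ℝ)| := by
    have := abs_add_le (mmB s - 1 / 4) (1 / 4)
    simpa using this
  have h2 : |(1 / 4 : ℝ)| = 1 / 4 := abs_of_pos (by norm_num)
  linarith

theorem mmWt_deriv_pos {s : ℝ} (h : 1 < s) : 0 < 2 * s + mmb s := by
  unfold mmb
  rw [mmT_of_ge h.le]
  linarith

theorem mmWt_deriv_neg {s : ℝ} (h : s < -1) : 2 * s + mmb s < 0 := by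
  unfold mmb
  rw [mmT_of_le h.le]
  linarith

/-- on `[-1,1]` the derivative is `W'(s) = s³ - s` -/
theorem mmWt_deriv_of_abs_le {s : ℝ} (h : |s| ≤ 1) : 2 * s + mmb s = s ^ 3 - s := by
  unfold mmb
  rw [mmT_of_abs_le h]
  ring

/-! ### LEAF L-B-WELL-C: `β` -/

theorem mmBe_eq (s : ℝ) : mmBe s = - mmb s / 2 := by
  unfold mmBe mmb
  ring

theorem mmBe_abs_le (s : ℝ) : |mmBe s| ≤ 1 := by
  rw [mmBe_eq, abs_div, abs_neg, abs_two]
  have := mmb_abs_le s
  linarith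

theorem mmBe_neg (s : ℝ) : mmBe (-s) = - mmBe s := by
  rw [mmBe_eq, mmBe_eq, mmb_neg]
  ring

/-- gluing of two one-sided derivatives -/
theorem mmC_glue {f g h : ℝ → ℝ} {a d : ℝ} (hg : HasDerivAt g d a) (hh : HasDerivAt h d a)
    (h1 : ∀ᶠ x in nhdsWithin a (Set.Iic a), f x = g x) (h2 : ∀ᶠ x in nhdsWithin a (Set.Ici a), f x = h x)
    (e1 : f a = g a) (e2 : f a = h a) : HasDerivAt f d a := by
  have A : HasDerivWithinAt f d (Set.Iic a) a := hg.hasDerivWithinAt.congr_of_eventuallyEq h1 e1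
  have B : HasDerivWithinAt f d (Set.Ici a) a := hh.hasDerivWithinAt.congr_of_eventuallyEq h2 e2
  have := A.union B
  rwa [Set.Iic_union_Ici, hasDerivWithinAt_univ] at this

theorem mmC_poly_hasDerivAt (s : ℝ) : HasDerivAt (fun x : ℝ => (3 * x - x ^ 3) / 2) (3 / 2 * (1 - s ^ 2)) s := by
  have h := (((hasDerivAt_id s).const_mul 3).sub (hasDerivAt_pow 3 s)).div_const 2
  have e : (3 * 1 - ((3 : ℕ) : ℝ) * s ^ (3 - 1)) / 2 = 3 / 2 * (1 - s ^ 2) := by
    norm_num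
    ring
  rw [e] at h
  exact h

/-- PLAN: as `mmWt_hasDerivAt` (three open intervals; at `±1` the polynomial `(3a - a³)/2` has derivative `0`, and `|mmBe (±1 + t) - mmBe (±1)| ≤ 3 t²`). -/
theorem mmBe_hasDerivAt (s : ℝ) : HasDerivAt mmBe (3 / 2 * (1 - mmT s ^ 2)) s := by
  have hmid : ∀ x : ℝ, -1 ≤ x → x ≤ 1 → mmBe x = (3 * x - x ^ 3) / 2 := by
    intro x h1 h2
    unfold mmBe
    rw [mmT_of_abs_le (abs_le.2 ⟨h1, h2⟩)]
  have hhi : ∀ x : ℝ, 1 ≤ x → mmBe x = 1 := by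
    intro x h1
    unfold mmBe
    rw [mmT_of_ge h1]
    norm_num
  have hlo : ∀ x : ℝ, x ≤ -1 → mmBe x = -1 := by
    intro x h1
    unfold mmBe
    rw [mmT_of_le h1]
    norm_num
  rcases lt_trichotomy s (-1) with h | h | h
  · rw [mmT_of_le h.le]
    have e : (3 / 2 * (1 - (-1 : ℝ) ^ 2)) = 0 := by norm_num
    rw [e]
    refine (hasDerivAt_const s (-1 : ℝ)).congr_of_eventuallyEq ?_
    filter_upwards [Iio_mem_nhds h] with x hx
    exact hlo x (le_of_lt hx)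
  · subst h
    rw [mmT_of_le le_rfl]
    have h0 := mmC_poly_hasDerivAt (-1)
    have e : (3 / 2 * (1 - (-1 : ℝ) ^ 2)) = 0 := by norm_num
    rw [e] at h0 ⊢
    refine mmC_glue (hasDerivAt_const (-1 : ℝ) (-1 : ℝ)) h0 ?_ ?_ (hlo _ le_rfl) (hmid _ le_rfl (by norm_num))
    · filter_upwards [self_mem_nhdsWithin] with x hx
      exact hlo x hx
    · filter_upwards [Ico_mem_nhdsGE (show (-1 : ℝ) < 1 by norm_num)] with x hx
      exact hmid x hx.1 hx.2.le
  · rcases lt_trichotomy s 1 with h' | h' | h'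
    · rw [mmT_of_abs_le (abs_le.2 ⟨h.le, h'.le⟩)]
      refine (mmC_poly_hasDerivAt s).congr_of_eventuallyEq ?_
      filter_upwards [Ioo_mem_nhds h h'] with x hx
      exact hmid x hx.1.le hx.2.le
    · subst h'
      rw [mmT_of_ge le_rfl]
      have h0 := mmC_poly_hasDerivAt 1
      have e : (3 / 2 * (1 - (1 : ℝ) ^ 2)) = 0 := by norm_num
      rw [e] at h0 ⊢
      refine mmC_glue h0 (hasDerivAt_const (1 : ℝ) (1 : ℝ)) ?_ ?_ (hmid _ (by norm_num) le_rfl) (hhi _ le_rfl)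
      · filter_upwards [Ioc_mem_nhdsLE (show (-1 : ℝ) < 1 by norm_num)] with x hx
        exact hmid x hx.1.le hx.2
      · filter_upwards [self_mem_nhdsWithin] with x hx
        exact hhi x hx
    · rw [mmT_of_ge h'.le]
      have e : (3 / 2 * (1 - (1 : ℝ) ^ 2)) = 0 := by norm_num
      rw [e]
      refine (hasDerivAt_const s (1 : ℝ)).congr_of_eventuallyEq ?_
      filter_upwards [Ioi_mem_nhds h'] with x hx
      exact hhi x (le_of_lt hx)

theorem mmBe_lip (s t : ℝ) : |mmBe s - mmBe t| ≤ 3 / 2 * |s - t| := by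
  rw [mmBe_eq, mmBe_eq]
  have h := mmb_lip s t
  have e : -mmb s / 2 - -mmb t / 2 = -(mmb s - mmb t) / 2 := by ring
  rw [e, abs_div, abs_neg, abs_two]
  linarith

/-- PLAN: `|s| ≤ 1`: `1 - ((3s - s³)/2)² = (1 - s²)² (4 - s²)/4`; `|s| ≥ 1`: the left side is `0`. -/
theorem mmBe_one_sub_sq (s : ℝ) : 1 - mmBe s ^ 2 ≤ 4 * mmWt s := by
  by_cases h : |s| ≤ 1
  · unfold mmBe
    rw [mmT_of_abs_le h, mmWt_of_abs_le h]
    have e : 1 - ((3 * s - s ^ 3) / 2) ^ 2 = (1 - s ^ 2) ^ 2 * (4 - s ^ 2) / 4 := by ring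
    rw [e]
    nlinarith [sq_nonneg (1 - s ^ 2), sq_nonneg s, mul_nonneg (sq_nonneg (1 - s ^ 2)) (sq_nonneg s)]
  · have h0 := mmWt_nonneg s
    rw [not_le] at h
    rcases lt_abs.1 h with h1 | h1
    · unfold mmBe
      rw [mmT_of_ge h1.le]
      norm_num
      exact h0
    · unfold mmBe
      rw [mmT_of_le (by linarith)]
      norm_num
      exact h0

/-- **AM-GM** (`3/√2 = 2 / acC`).  PLAN: `|s| ≥ 1`: left side `0`.  `|s| ≤ 1`: with `a = 1 - s² ≥ 0`: `(3/2) a p = (3/√2) (a/√2) p` and `(a/√2) p ≤ ε p²/2 + a²/(4ε)` (`(√ε p/√2... )`: multiply out: `ε p²/2 + a²/(4 ε) - a p/√2 = (ε p - a/√2)²/(2 ε)`). -/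
theorem mmBe_amgm {ε p : ℝ} (hε : 0 < ε) (hp : 0 ≤ p) (s : ℝ) :
    3 / 2 * (1 - mmT s ^ 2) * p ≤ 3 / Real.sqrt 2 * (ε * p ^ 2 / 2 + mmWt s / ε) := by
  have hq : 0 < Real.sqrt 2 := Real.sqrt_pos.2 (by norm_num)
  have hq2 : Real.sqrt 2 ^ 2 = 2 := Real.sq_sqrt (by norm_num)
  have hR : 0 ≤ 3 / Real.sqrt 2 * (ε * p ^ 2 / 2 + mmWt s / ε) := by
    have := mmWt_nonneg s
    positivity
  by_cases h : |s| ≤ 1
  · rw [mmT_of_abs_le h, mmWt_of_abs_le h]
    obtain ⟨a, ha⟩ : ∃ a : ℝ, a = 1 - s ^ 2 := ⟨_, rfl⟩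
    rw [← ha]
    obtain ⟨q, hqe⟩ : ∃ q : ℝ, q = Real.sqrt 2 := ⟨_, rfl⟩
    rw [← hqe] at hq hq2 ⊢
    have key : q * a * p / 2 ≤ ε * p ^ 2 / 2 + a ^ 2 / 4 / ε := by
      have h1 : ε * p ^ 2 / 2 + a ^ 2 / 4 / ε - q * a * p / 2 = (ε * p - a * q / 2) ^ 2 / (2 * ε) := by
        field_simp
        ring_nf
        rw [hq2]
        ring
      have h2 : 0 ≤ (ε * p - a * q / 2) ^ 2 / (2 * ε) := by positivity
      linarith
    have e : 3 / 2 * a * p = 3 / q * (q * a * p / 2) := by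
      field_simp
    rw [e]
    exact mul_le_mul_of_nonneg_left key (by positivity)
  · rw [not_le] at h
    rcases lt_abs.1 h with h1 | h1
    · rw [mmT_of_ge h1.le]
      norm_num
      simpa using hR
    · rw [mmT_of_le (by linarith)]
      norm_num
      simpa using hR

/-! ### LEAF L-B-WELL-D: the substitute of `(s-1)₊` -/

theorem mmG_of_le {s : ℝ} (h : s ≤ 1) : mmG s = 0 := by
  unfold mmG
  rw [max_eq_left (by linarith)]
  norm_num

theorem mmG_of_ge {s : ℝ} (h : 1 ≤ s) : mmG s = (s - 1) ^ 2 / s := by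
  unfold mmG
  rw [max_eq_right (by linarith)]
  congr 1
  ring

theorem mmG_pos {s : ℝ} (h : 1 < s) : 0 < mmG s := by
  rw [mmG_of_ge h.le]
  have : 0 < s - 1 := by linarith
  have : 0 < s := by linarith
  positivity

theorem mmG_nonneg (s : ℝ) : 0 ≤ mmG s := by
  unfold mmG
  have : 0 ≤ max 0 (s - 1) := le_max_left _ _
  positivity

theorem mmG'_nonneg (s : ℝ) : 0 ≤ mmG' s := by
  unfold mmG'
  have h : 0 ≤ max 0 (s - 1) := le_max_left _ _
  have h1 : (1 : ℝ) ≤ (1 + max 0 (s - 1)) ^ 2 := by nlinarith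
  have h2 : 1 / (1 + max 0 (s - 1)) ^ 2 ≤ 1 := by
    rw [div_le_one (by positivity)]
    exact h1
  linarith

theorem mmG'_le (s : ℝ) : mmG' s ≤ 1 := by
  unfold mmG'
  have h : 0 ≤ max 0 (s - 1) := le_max_left _ _
  have h2 : 0 ≤ 1 / (1 + max 0 (s - 1)) ^ 2 := by positivity
  linarith

theorem mmG'_continuous : Continuous mmG' := by
  unfold mmG'
  refine continuous_const.sub (continuous_const.div (by fun_prop) fun s => ?_)
  have h : 0 ≤ max 0 (s - 1) := le_max_left _ _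
  positivity

/-- PLAN: `s < 1`: locally `0`; `s > 1`: `r = s - 1`, quotient rule, `(2r(1+r) - r²)/(1+r)² = 1 - 1/(1+r)²`; `s = 1`: `0 ≤ mmG (1 + t) ≤ t²`. -/
theorem mmG_hasDerivAt (s : ℝ) : HasDerivAt mmG (mmG' s) s := by
  have hq : ∀ x : ℝ, 0 < x → HasDerivAt (fun y : ℝ => (y - 1) ^ 2 / y) (1 - 1 / x ^ 2) x := by
    intro x hx
    have h1 : HasDerivAt (fun y : ℝ => (y - 1) ^ 2) (2 * (x - 1)) x := by
      have h0 : HasDerivAt (fun y : ℝ => (y - 1) * (y - 1)) (1 * (x - 1) + (x - 1) * 1) x :=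
        ((hasDerivAt_id x).sub_const 1).mul ((hasDerivAt_id x).sub_const 1)
      have e0 : (fun y : ℝ => (y - 1) ^ 2) = fun y : ℝ => (y - 1) * (y - 1) := by
        funext y
        ring
      rw [e0, show 2 * (x - 1) = 1 * (x - 1) + (x - 1) * 1 by ring]
      exact h0
    have h2 := h1.div (hasDerivAt_id x) hx.ne'
    have e : (2 * (x - 1) * id x - (x - 1) ^ 2 * 1) / id x ^ 2 = 1 - 1 / x ^ 2 := by
      simp only [id]
      field_simp
      ring
    rw [e] at h2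
    exact h2
  rcases lt_trichotomy s 1 with h | h | h
  · have e : mmG' s = 0 := by
      unfold mmG'
      rw [max_eq_left (by linarith)]
      norm_num
    rw [e]
    refine (hasDerivAt_const s (0 : ℝ)).congr_of_eventuallyEq ?_
    filter_upwards [Iio_mem_nhds h] with x hx
    exact mmG_of_le (le_of_lt hx)
  · subst h
    have e : mmG' 1 = 0 := by
      unfold mmG'
      norm_num
    rw [e]
    have h0 := hq 1 one_pos
    have e2 : (1 : ℝ) - 1 / 1 ^ 2 = 0 := by norm_num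
    rw [e2] at h0
    refine mmC_glue (hasDerivAt_const (1 : ℝ) (0 : ℝ)) h0 ?_ ?_ (mmG_of_le le_rfl) (mmG_of_ge le_rfl)
    · filter_upwards [self_mem_nhdsWithin] with x hx
      exact mmG_of_le hx
    · filter_upwards [self_mem_nhdsWithin] with x hx
      exact mmG_of_ge hx
  · have e : mmG' s = 1 - 1 / s ^ 2 := by
      unfold mmG'
      rw [max_eq_right (by linarith)]
      congr 3
      ring
    rw [e]
    refine (hq s (by linarith)).congr_of_eventuallyEq ?_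
    filter_upwards [Ioi_mem_nhds h] with x hx
    exact mmG_of_ge (le_of_lt hx)

end Claimed.Agent.R323
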