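import Claimed.Agent.R323.Defs
import Claimed.Agent.R323.Mm.Well
import Claimed.Agent.R323.Mm.Abs

/-!
# Row 323, block B: THE HILBERT SPACE, THE ENERGY, THE GRADIENT: DEFINITIONS.   Architect helper120.  Prefix `mm`.

`n = m + 2`, `ν = mmNu n` = Lebesgue measure on `ball 0 1 ⊆ E n`.  Functions on the sphere = `0`-homogeneous functions on `E n`.
* `MmLip n U`   : `U` is `0`-homogeneous and Lipschitz on the unit sphere (THE DENSE CLASS; contains the members of `AcFam`).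
* `mmGr n ε U x = (ε/√2) ‖x‖ ∇U(x)` : the weighted gradient (bounded, `0`-homogeneous).
* `MmAmb n = L²(ν) × L²(ν; E n)` (`WithLp 2`, a Hilbert space); `z.fst`, `z.snd`.
* `mmGen n ε` = the graph `{(U, mmGr U)}`, `mmHil n ε` = closure of its span (= closure of the graph, `mm_gen_add/smul`): `H¹` of the sphere with the norm
  `‖z‖² = ∫_{B₁} u² + (ε²/2) ‖x‖² |∇u|²`.
* `mmEn n ε z = (‖z‖² + ∫ B(u) dν)/ε = ∫_{B₁} (ε/2 ‖x‖² |∇u|² + W̃(u)/ε)`  (`W̃ = mmWt = s² + mmB`),   `acE n ε U = (n/acC) mmEn`  if `|U| ≤ 1`.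
* `mmK z = Proj_H (b(u), 0)`, `mmD z = (2 z + mmK z)/ε` = the gradient of `mmEn` on `H`.   Step `τ = ε/2`: `z - τ D z = - mmK z / 2`.
* `mmJ z = z.fst ∈ L²(ν)`: the weak metric of the min-max class.   `mmL1 z z' = ∫ |u - u'| dν`: the metric of the compactness.
* `mmW m ε = (n/acC) * mmaWidth …` : THE WIDTH.
* `MmWeak n ε u G`: interface CRIT (helper240) → REG (helper204): flat weak solution on the punctured ball.
-/

set_option autoImplicit false
open scoped ContDiff ENNReal NNReal RealInnerProductSpace Topology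
open MeasureTheory Metric Set Filter

namespace Claimed.Agent.R323

open Claimed.Agent.Gmt

/-- Lebesgue measure on the unit ball -/
noncomputable def mmNu (n : ℕ) : Measure (E n) := volume.restrict (ball 0 1)

instance mmNu_finite (n : ℕ) : IsFiniteMeasure (mmNu n) := by
  unfold mmNu
  exact ⟨by rw [Measure.restrict_apply_univ]; exact measure_ball_lt_top⟩

/-- the dense class: `0`-homogeneous, Lipschitz on the sphere -/
structure MmLip (n : ℕ) (U : E n → ℝ) : Prop where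
  hom : ∀ t : ℝ, 0 < t → ∀ x, U (t • x) = U x
  lip : ∃ L : ℝ≥0, LipschitzOnWith L U (sphere 0 1)

/-- the weighted gradient `(ε/√2) ‖x‖ ∇U` -/
noncomputable def mmGr (n : ℕ) (ε : ℝ) (U : E n → ℝ) (x : E n) : E n := (ε / Real.sqrt 2 * ‖x‖) • gradient U x

/-- the ambient Hilbert space `L² × L²` -/
abbrev MmAmb (n : ℕ) := WithLp 2 (Lp ℝ 2 (mmNu n) × Lp (E n) 2 (mmNu n))

/-- the graph of the weighted gradient on the dense class -/
def mmGen (n : ℕ) (ε : ℝ) : Set (MmAmb n) :=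
  {z | ∃ U, MmLip n U ∧ (z.fst : E n → ℝ) =ᵐ[mmNu n] U ∧ (z.snd : E n → E n) =ᵐ[mmNu n] mmGr n ε U}

/-- **the Hilbert space** -/
noncomputable def mmHil (n : ℕ) (ε : ℝ) : Submodule ℝ (MmAmb n) := (Submodule.span ℝ (mmGen n ε)).topologicalClosure

theorem mmHil_isClosed (n : ℕ) (ε : ℝ) : IsClosed (mmHil n ε : Set (MmAmb n)) :=
  Submodule.isClosed_topologicalClosure _

instance mmHil_complete (n : ℕ) (ε : ℝ) : CompleteSpace (mmHil n ε) := (mmHil_isClosed n ε).completeSpace_coe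

theorem mmb_lipschitzWith : LipschitzWith 3 mmb :=
  LipschitzWith.of_dist_le_mul fun s t => by
    rw [Real.dist_eq, Real.dist_eq]
    exact mmb_lip s t

theorem mmb_zero : mmb 0 = 0 := by
  have := mmb_neg 0
  rw [neg_zero] at this
  linarith

/-- `b(u)` as an element of `L²` -/
noncomputable def mmbLp {n : ℕ} (u : Lp ℝ 2 (mmNu n)) : Lp ℝ 2 (mmNu n) := mmb_lipschitzWith.compLp mmb_zero u

/-- **the energy** (on the ambient space) -/
noncomputable def mmEn (n : ℕ) (ε : ℝ) (z : MmAmb n) : ℝ := (‖z‖ ^ 2 + ∫ x, mmB (z.fst x) ∂(mmNu n)) / ε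

/-- the compact part of the gradient: `Proj (b(u), 0)` -/
noncomputable def mmK (n : ℕ) (ε : ℝ) (z : mmHil n ε) : mmHil n ε :=
  (mmHil n ε).orthogonalProjectionOnto (WithLp.toLp 2 (mmbLp (z : MmAmb n).fst, 0))

/-- **the gradient of the energy** -/
noncomputable def mmD (n : ℕ) (ε : ℝ) (z : mmHil n ε) : mmHil n ε := (1 / ε) • ((2 : ℝ) • z + mmK n ε z)

/-- the weak metric of the min-max class: the `L²` class of the first component -/
noncomputable def mmJ (n : ℕ) (ε : ℝ) (z : mmHil n ε) : Lp ℝ 2 (mmNu n) := (z : MmAmb n).fst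

/-- the `L¹` distance of the first components -/
noncomputable def mmL1 {n : ℕ} (z z' : MmAmb n) : ℝ := ∫ x, |z.fst x - z'.fst x| ∂(mmNu n)

/-- **the width** -/
noncomputable def mmW (m : ℕ) (ε : ℝ) : ℝ :=
  ((m + 2 : ℕ) : ℝ) / acC * mmaWidth (fun z : mmHil (m + 2) ε => mmEn (m + 2) ε z) (acQ m) (acQb m) (mmJ (m + 2) ε)

/-- the punctured unit ball -/
def mmOm (n : ℕ) : Set (E n) := ball 0 1 \ {0}

/-- **INTERFACE CRIT → REG**: `u` is a bounded weak solution of `ε² Δu = ‖x‖⁻² W'(u)` on the punctured ball, with weak gradient `G`, a.e. `0`-homogeneous. -/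
structure MmWeak (n : ℕ) (ε : ℝ) (u : E n → ℝ) (G : E n → E n) : Prop where
  meas : AEStronglyMeasurable u (mmNu n)
  bdd : ∀ᵐ x ∂(mmNu n), |u x| ≤ 1
  memG : MemLp (fun x => ‖x‖ • G x) 2 (mmNu n)
  grad : ∀ T : E n → E n, GmtTest (mmOm n) T → ∫ x, u x * gmtDiv T x ∂(mmNu n) = - ∫ x, ⟪G x, T x⟫ ∂(mmNu n)
  eq : ∀ φ : E n → ℝ, GmtTestS0 (mmOm n) φ →
    ∫ x, (ε ^ 2 * ⟪G x, gradient φ x⟫ + (‖x‖ ^ 2)⁻¹ * acW' (u x) * φ x) ∂(mmNu n) = 0
  hom : ∀ t : ℝ, 0 < t → t ≤ 1 → ∀ᵐ x ∂(mmNu n), u (t • x) = u x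

end Claimed.Agent.R323
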