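import Claimed.Agent.Lib.Gmt.Defs

/-!
# Row 323, block B: `0`-HOMOGENEOUS FUNCTIONS WHICH ARE LIPSCHITZ ON THE SPHERE (class level facts).   helper235.  Prefix `mmh_`.   No sorry.

`U : E n → ℝ`, `U (t x) = U x` for `t > 0`, `LipschitzOnWith L U (sphere 0 1)`.
* `mmh_lip_out`   : `U` is `2L/a`-Lipschitz on `{a ≤ |x|}`;
* `mmh_cont`      : continuity off the origin;   `mmh_bdd` : boundedness off the origin;
* `mmh_ae_diff`   : differentiability a.e. (Rademacher);   `mmh_fderiv_le` : `|x| |DU(x)| ≤ 4L`;   `mmh_euler` : `DU(x) x = 0`;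
* `mmh_ibp`       : `∫ U div T = - ∫ DU(x) (T x)` for `C¹` fields with compact support off the origin;
* `mmh_comp_*`    : composition with a `C¹` function with bounded derivative;
* `mmh_scale`     : `∫_{B_r} F = r^n ∫_{B_1} F` for `0`-homogeneous `F`.
-/

set_option autoImplicit false
open scoped ContDiff ENNReal NNReal RealInnerProductSpace Topology
open MeasureTheory Metric Set Filter

namespace Claimed.Agent.R323

open Claimed.Agent.Gmt

variable {n : ℕ}

/-- the radial projection is `2/a`-Lipschitz on `{a ≤ |x|}` -/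
theorem mmh_proj_dist {V : Type*} [NormedAddCommGroup V] [NormedSpace ℝ V] {a : ℝ} (ha : 0 < a) {x y : V} (hx : a ≤ ‖x‖) (hy : a ≤ ‖y‖) :
    dist (‖x‖⁻¹ • x) (‖y‖⁻¹ • y) ≤ 2 / a * dist x y := by
  have hx0 : 0 < ‖x‖ := lt_of_lt_of_le ha hx
  have hy0 : 0 < ‖y‖ := lt_of_lt_of_le ha hy
  have e : ‖x‖⁻¹ • x - ‖y‖⁻¹ • y = ‖x‖⁻¹ • (x - y) + (‖x‖⁻¹ - ‖y‖⁻¹) • y := by
    rw [smul_sub, sub_smul]
    abel
  have h1 : ‖(‖x‖⁻¹ - ‖y‖⁻¹) • y‖ ≤ ‖x‖⁻¹ * ‖x - y‖ := by
    rw [norm_smul, Real.norm_eq_abs]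
    have e2 : ‖x‖⁻¹ - ‖y‖⁻¹ = (‖y‖ - ‖x‖) / (‖x‖ * ‖y‖) := by
      field_simp
    rw [e2, abs_div, abs_of_pos (mul_pos hx0 hy0)]
    have h3 : |‖y‖ - ‖x‖| ≤ ‖x - y‖ := by
      rw [abs_sub_comm]
      exact abs_norm_sub_norm_le x y
    calc |‖y‖ - ‖x‖| / (‖x‖ * ‖y‖) * ‖y‖ = ‖x‖⁻¹ * |‖y‖ - ‖x‖| := by
          field_simp
      _ ≤ ‖x‖⁻¹ * ‖x - y‖ := by gcongr
  have h2 : ‖x‖⁻¹ ≤ 1 / a := by
    rw [one_div]
    exact inv_anti₀ ha hx
  rw [dist_eq_norm, dist_eq_norm, e]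
  calc ‖‖x‖⁻¹ • (x - y) + (‖x‖⁻¹ - ‖y‖⁻¹) • y‖ ≤ ‖‖x‖⁻¹ • (x - y)‖ + ‖(‖x‖⁻¹ - ‖y‖⁻¹) • y‖ := norm_add_le _ _
    _ ≤ ‖x‖⁻¹ * ‖x - y‖ + ‖x‖⁻¹ * ‖x - y‖ := by
        refine add_le_add (le_of_eq ?_) h1
        rw [norm_smul, Real.norm_eq_abs, abs_of_pos (inv_pos.2 hx0)]
    _ = 2 * ‖x‖⁻¹ * ‖x - y‖ := by ring
    _ ≤ 2 * (1 / a) * ‖x - y‖ := by gcongr
    _ = 2 / a * ‖x - y‖ := by ring

theorem mmh_nhds_le {a : ℝ} {x : E n} (h : a < ‖x‖) : {y : E n | a ≤ ‖y‖} ∈ 𝓝 x := by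
  have h1 : ∀ᶠ y : E n in 𝓝 x, a < ‖y‖ := (continuous_norm.tendsto x).eventually (lt_mem_nhds h)
  filter_upwards [h1] with y hy
  exact le_of_lt hy

section cls

variable {U : E n → ℝ} (hom : ∀ t : ℝ, 0 < t → ∀ x, U (t • x) = U x) {L : ℝ≥0} (lip : LipschitzOnWith L U (sphere 0 1))

include hom in
theorem mmh_proj_eq {x : E n} (hx : x ≠ 0) : U (‖x‖⁻¹ • x) = U x := hom _ (inv_pos.2 (norm_pos_iff.2 hx)) x

theorem mmh_proj_mem {x : E n} (hx : x ≠ 0) : ‖x‖⁻¹ • x ∈ sphere (0 : E n) 1 := by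
  rw [mem_sphere_zero_iff_norm, norm_smul, norm_inv, norm_norm, inv_mul_cancel₀ (norm_ne_zero_iff.2 hx)]

include hom lip in
/-- `U` is Lipschitz away from the origin -/
theorem mmh_lip_out {a : ℝ} (ha : 0 < a) : LipschitzOnWith (L * (2 / a).toNNReal) U {x | a ≤ ‖x‖} := by
  refine LipschitzOnWith.of_dist_le_mul fun x hx y hy => ?_
  have hx0 : x ≠ 0 := norm_pos_iff.1 (lt_of_lt_of_le ha hx)
  have hy0 : y ≠ 0 := norm_pos_iff.1 (lt_of_lt_of_le ha hy)
  rw [← mmh_proj_eq hom hx0, ← mmh_proj_eq hom hy0]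
  refine (lip.dist_le_mul _ (mmh_proj_mem hx0) _ (mmh_proj_mem hy0)).trans ?_
  rw [NNReal.coe_mul, Real.coe_toNNReal _ (by positivity), mul_assoc]
  exact mul_le_mul_of_nonneg_left (mmh_proj_dist ha hx hy) L.coe_nonneg

include hom lip in
theorem mmh_cont : ContinuousOn U {0}ᶜ := by
  intro x hx
  have hx0 : 0 < ‖x‖ := norm_pos_iff.2 hx
  have h1 := (mmh_lip_out hom lip (half_pos hx0)).continuousOn x (by show ‖x‖ / 2 ≤ ‖x‖; linarith)
  have h2 : {y : E n | ‖x‖ / 2 ≤ ‖y‖} ∈ 𝓝 x := mmh_nhds_le (by linarith)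
  exact (h1.continuousAt h2).continuousWithinAt

include hom lip in
/-- boundedness off the origin -/
theorem mmh_bdd : ∃ C : ℝ, 0 ≤ C ∧ ∀ x, x ≠ 0 → |U x| ≤ C := by
  rcases (sphere (0 : E n) 1).eq_empty_or_nonempty with he | ⟨e, he⟩
  · refine ⟨0, le_rfl, fun x hx => ?_⟩
    have := mmh_proj_mem hx
    rw [he] at this
    exact this.elim
  · refine ⟨|U e| + L * 2, by positivity, fun x hx => ?_⟩
    rw [← mmh_proj_eq hom hx]
    have h1 := lip.dist_le_mul _ (mmh_proj_mem hx) _ he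
    have h2 : dist (‖x‖⁻¹ • x) e ≤ 2 := by
      have a1 := mmh_proj_mem hx
      rw [mem_sphere_zero_iff_norm] at a1 he
      calc dist (‖x‖⁻¹ • x) e ≤ ‖‖x‖⁻¹ • x‖ + ‖e‖ := dist_le_norm_add_norm _ _
        _ = 2 := by rw [a1, he]; norm_num
    rw [Real.dist_eq] at h1
    have h3 : |U (‖x‖⁻¹ • x)| ≤ |U e| + |U (‖x‖⁻¹ • x) - U e| := by
      have := abs_add_le (U e) (U (‖x‖⁻¹ • x) - U e)
      simpa using this
    have h4 : (L : ℝ) * dist (‖x‖⁻¹ • x) e ≤ L * 2 := mul_le_mul_of_nonneg_left h2 L.coe_nonneg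
    linarith

theorem mmh_nhds {x : E n} (hx : x ≠ 0) : {y : E n | ‖x‖ / 2 ≤ ‖y‖} ∈ 𝓝 x := by
  have hx0 : 0 < ‖x‖ := norm_pos_iff.2 hx
  exact mmh_nhds_le (by linarith)

include hom lip in
/-- Rademacher -/
theorem mmh_ae_diff (hn : 1 ≤ n) : ∀ᵐ x : E n, DifferentiableAt ℝ U x := by
  have h1 : ∀ k : ℕ, ∀ᵐ x : E n, x ∈ {x : E n | 1 / ((k : ℝ) + 1) ≤ ‖x‖} → DifferentiableWithinAt ℝ U {x : E n | 1 / ((k : ℝ) + 1) ≤ ‖x‖} x :=
    fun k => (mmh_lip_out hom lip (a := 1 / ((k : ℝ) + 1)) (by positivity)).ae_differentiableWithinAt_of_mem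
  have : Nonempty (Fin n) := ⟨⟨0, hn⟩⟩
  have : Nontrivial (E n) := inferInstance
  have h0 : ∀ᵐ x : E n, x ≠ 0 := by
    have h00 : (volume : Measure (E n)) {0} = 0 := measure_singleton 0
    exact (measure_eq_zero_iff_ae_notMem.1 h00).mono fun x hx h => hx (by simpa using h)
  filter_upwards [ae_all_iff.2 h1, h0] with x hx hx0
  have hpos : 0 < ‖x‖ := norm_pos_iff.2 hx0
  obtain ⟨k, hk⟩ := exists_nat_one_div_lt hpos
  have hmem : {y : E n | 1 / ((k : ℝ) + 1) ≤ ‖y‖} ∈ 𝓝 x := mmh_nhds_le hk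
  exact (hx k hk.le).differentiableAt hmem

include hom lip in
theorem mmh_fderiv_le {x : E n} (hx : x ≠ 0) : ‖x‖ * ‖fderiv ℝ U x‖ ≤ 4 * L := by
  have hx0 : 0 < ‖x‖ := norm_pos_iff.2 hx
  have h := norm_fderiv_le_of_lipschitzOn ℝ (mmh_nhds hx) (mmh_lip_out hom lip (half_pos hx0))
  rw [NNReal.coe_mul, Real.coe_toNNReal _ (by positivity)] at h
  calc ‖x‖ * ‖fderiv ℝ U x‖ ≤ ‖x‖ * (L * (2 / (‖x‖ / 2))) := by gcongr
    _ = 4 * L := by field_simp; ring

include hom in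
/-- Euler's identity -/
theorem mmh_euler {x : E n} (hd : DifferentiableAt ℝ U x) : fderiv ℝ U x x = 0 := by
  have h1 : HasDerivAt (fun t : ℝ => U (x + t • x)) (fderiv ℝ U x x) 0 := by
    have hl : HasDerivAt (fun t : ℝ => x + t • x) x 0 := by
      have := ((hasDerivAt_id (0 : ℝ)).smul_const x).const_add x
      simpa using this
    have hd' : HasFDerivAt U (fderiv ℝ U x) (x + (0 : ℝ) • x) := by
      rw [zero_smul, add_zero]
      exact hd.hasFDerivAt
    exact hd'.comp_hasDerivAt (0 : ℝ) hl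
  have h2 : (fun t : ℝ => U (x + t • x)) =ᶠ[𝓝 0] fun _ => U x := by
    have : ∀ᶠ t : ℝ in 𝓝 0, -1 < t := (isOpen_Ioi (a := (-1 : ℝ))).mem_nhds (by norm_num)
    filter_upwards [this] with t ht
    have e : x + t • x = (1 + t) • x := by rw [add_smul, one_smul]
    rw [e]
    exact hom _ (by linarith) x
  exact (h1.congr_of_eventuallyEq h2.symm).unique (hasDerivAt_const _ _) |>.symm ▸ rfl

end cls

theorem mmh_fderiv_zero_of_notMem {F : Type*} [NormedAddCommGroup F] [NormedSpace ℝ F] {T : E n → F} {x : E n} (hx : x ∉ tsupport T) : fderiv ℝ T x = 0 := by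
  have h : T =ᶠ[𝓝 x] fun _ => 0 := notMem_tsupport_iff_eventuallyEq.1 hx
  rw [h.fderiv_eq]
  exact fderiv_const_apply 0

theorem mmh_sum_coord (A : E n →L[ℝ] ℝ) (v : E n) : ∑ i : Fin n, A (eb i) * v i = A v := by
  conv_rhs => rw [← (EuclideanSpace.basisFun (Fin n) ℝ).sum_repr v]
  rw [map_sum]
  refine Finset.sum_congr rfl fun i _ => ?_
  rw [map_smul, smul_eq_mul, mul_comm]
  simp

section cls2
variable {U : E n → ℝ} (hom : ∀ t : ℝ, 0 < t → ∀ x, U (t • x) = U x) {L : ℝ≥0} (lip : LipschitzOnWith L U (sphere 0 1))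

include hom lip in
/-- **integration by parts** for the class -/
theorem mmh_ibp (hn : 1 ≤ n) (T : E n → E n) (hT1 : ContDiff ℝ 1 T) (hTc : HasCompactSupport T) (hT0 : (0 : E n) ∉ tsupport T) :
    ∫ x, U x * gmtDiv T x = - ∫ x, fderiv ℝ U x (T x) := by
  obtain ⟨r, hr, hball⟩ := Metric.isOpen_iff.1 (isClosed_tsupport T).isOpen_compl 0 hT0
  have hfar : ∀ x ∈ tsupport T, r / 2 < ‖x‖ := by
    intro x hx
    by_contra hlt
    have : x ∈ ball (0 : E n) r := by
      rw [mem_ball_zero_iff]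
      push Not at hlt
      linarith
    exact hball this hx
  obtain ⟨V, hV, hUV⟩ := (mmh_lip_out hom lip (half_pos hr)).extend_real
  have hUVx : ∀ x ∈ tsupport T, V x = U x := fun x hx => (hUV (show r / 2 ≤ ‖x‖ from (hfar x hx).le)).symm
  have hUVn : ∀ x ∈ tsupport T, V =ᶠ[𝓝 x] U := fun x hx => by
    filter_upwards [mmh_nhds_le (hfar x hx)] with y hy
    exact (hUV hy).symm
  -- the coordinates of `T`
  have hg1 : ∀ i : Fin n, ContDiff ℝ 1 fun x => T x i := fun i => by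
    have : (fun x => T x i) = (EuclideanSpace.proj i : E n →L[ℝ] ℝ) ∘ T := rfl
    rw [this]
    exact (EuclideanSpace.proj i : E n →L[ℝ] ℝ).contDiff.comp hT1
  have hgc : ∀ i : Fin n, HasCompactSupport fun x => T x i := fun i => by
    have : (fun x => T x i) = (EuclideanSpace.proj i : E n →L[ℝ] ℝ) ∘ T := rfl
    rw [this]
    exact hTc.comp_left (map_zero _)
  have hgd : ∀ (i : Fin n) (x v : E n), fderiv ℝ (fun x => T x i) x v = fderiv ℝ T x v i := fun i x v => by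
    have h1 : HasFDerivAt (fun x => T x i) ((EuclideanSpace.proj i : E n →L[ℝ] ℝ).comp (fderiv ℝ T x)) x :=
      (EuclideanSpace.proj i : E n →L[ℝ] ℝ).hasFDerivAt.comp x ((hT1.differentiable (by norm_num)) x).hasFDerivAt
    rw [h1.fderiv]
    rfl
  have key : ∀ i : Fin n, ∫ x, fderiv ℝ U x (eb i) * T x i = - ∫ x, U x * fderiv ℝ T x (eb i) i := by
    intro i
    obtain ⟨D, hD⟩ := (hg1 i).lipschitzWith_of_hasCompactSupport (hgc i) (by norm_num)
    have h := hV.integral_lineDeriv_mul_eq (μ := (volume : Measure (E n))) hD (hgc i) (eb i)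
    have e1 : ∫ x, lineDeriv ℝ V x (eb i) * T x i = ∫ x, fderiv ℝ U x (eb i) * T x i := by
      refine integral_congr_ae ?_
      filter_upwards [mmh_ae_diff hom lip hn] with x hx
      by_cases hxT : x ∈ tsupport T
      · rw [(hUVn x hxT).lineDeriv_eq, hx.lineDeriv_eq_fderiv]
      · have : T x = 0 := image_eq_zero_of_notMem_tsupport hxT
        simp [this]
    have e2 : ∫ x, lineDeriv ℝ (fun x => T x i) x (-eb i) * V x = - ∫ x, U x * fderiv ℝ T x (eb i) i := by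
      rw [← integral_neg]
      refine integral_congr_ae (Eventually.of_forall fun x => ?_)
      simp only
      rw [(((hg1 i).differentiable (by norm_num)) x).lineDeriv_eq_fderiv, map_neg, hgd]
      by_cases hxT : x ∈ tsupport T
      · rw [hUVx x hxT]
        ring
      · rw [mmh_fderiv_zero_of_notMem hxT]
        simp
    rw [← e1, h, e2]
  -- integrability
  have hi1 : ∀ i : Fin n, Integrable fun x => fderiv ℝ U x (eb i) * T x i := by
    intro i
    have h1 : Integrable fun x => lineDeriv ℝ V x (eb i) * T x i := by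
      have hb := hV.memLp_lineDeriv (μ := (volume : Measure (E n))) (eb i)
      have hgi : Integrable fun x => T x i := (hg1 i).continuous.integrable_of_hasCompactSupport (hgc i)
      exact hgi.bdd_mul hb.1 (Eventually.of_forall fun x => norm_lineDeriv_le_of_lipschitz ℝ hV)
    refine h1.congr ?_
    filter_upwards [mmh_ae_diff hom lip hn] with x hx
    by_cases hxT : x ∈ tsupport T
    · rw [(hUVn x hxT).lineDeriv_eq, hx.lineDeriv_eq_fderiv]
    · have : T x = 0 := image_eq_zero_of_notMem_tsupport hxT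
      simp [this]
  have hi2 : ∀ i : Fin n, Integrable fun x => U x * fderiv ℝ T x (eb i) i := by
    intro i
    have h1 : Integrable fun x => V x * fderiv ℝ T x (eb i) i := by
      refine Continuous.integrable_of_hasCompactSupport ?_ ?_
      · refine hV.continuous.mul ?_
        have : Continuous fun x => fderiv ℝ (fun x => T x i) x (eb i) :=
          ((hg1 i).continuous_fderiv (by norm_num)).clm_apply continuous_const
        simpa only [hgd] using this
      · refine HasCompactSupport.mul_left ?_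
        refine hTc.mono' fun x hx => ?_
        by_contra hxT
        exact hx (by simp [mmh_fderiv_zero_of_notMem hxT])
    refine h1.congr (Eventually.of_forall fun x => ?_)
    by_cases hxT : x ∈ tsupport T
    · simp only [hUVx x hxT]
    · simp [mmh_fderiv_zero_of_notMem hxT]
  have s1 : ∫ x, fderiv ℝ U x (T x) = ∑ i : Fin n, ∫ x, fderiv ℝ U x (eb i) * T x i := by
    rw [← integral_finsetSum _ fun i _ => hi1 i]
    refine integral_congr_ae (Eventually.of_forall fun x => ?_)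
    exact (mmh_sum_coord _ _).symm
  have s2 : ∫ x, U x * gmtDiv T x = ∑ i : Fin n, ∫ x, U x * fderiv ℝ T x (eb i) i := by
    rw [← integral_finsetSum _ fun i _ => hi2 i]
    refine integral_congr_ae (Eventually.of_forall fun x => ?_)
    simp only [gmtDiv, Finset.mul_sum]
  rw [s1, s2, ← Finset.sum_neg_distrib]
  refine Finset.sum_congr rfl fun i _ => ?_
  rw [key i, neg_neg]

end cls2
end Claimed.Agent.R323
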