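import Claimed.Agent.R323.Mm.Hil
import Claimed.Agent.R323.Mm.HomLip

/-!
# Row 323, block B: BASIC FACTS ON `MmLip`, `mmGen`, `mmHil`.   Architect helper120.   LEAVES L-B-HB-A/B/C/D.

(H1) every `MmLip` function defines an element `mmEmb n ε U` of `mmHil n ε`;  (H2) these elements are dense.
-/

set_option autoImplicit false
open scoped ContDiff ENNReal NNReal RealInnerProductSpace Topology
open MeasureTheory Metric Set Filter

namespace Claimed.Agent.R323

open Claimed.Agent.Gmt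

variable {n : ℕ} {ε : ℝ} {U V : E n → ℝ}

/-! ### LEAF L-B-HB-A: algebra and Lipschitz estimates of the class `MmLip` -/

theorem MmLip.zero : MmLip n fun _ => 0 := ⟨fun _ _ _ => rfl, 0, (LipschitzWith.const (0 : ℝ)).lipschitzOnWith⟩

theorem MmLip.const (c : ℝ) : MmLip n fun _ => c := ⟨fun _ _ _ => rfl, 0, (LipschitzWith.const c).lipschitzOnWith⟩

theorem MmLip.add (hU : MmLip n U) (hV : MmLip n V) : MmLip n fun x => U x + V x := by
  obtain ⟨L1, h1⟩ := hU.lip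
  obtain ⟨L2, h2⟩ := hV.lip
  exact ⟨fun t ht x => by rw [hU.hom t ht, hV.hom t ht], L1 + L2, h1.add h2⟩

theorem MmLip.comp {β : ℝ → ℝ} {K : ℝ≥0} (hβ : LipschitzWith K β) (hU : MmLip n U) : MmLip n fun x => β (U x) := by
  obtain ⟨L1, h1⟩ := hU.lip
  exact ⟨fun t ht x => by rw [hU.hom t ht], K * L1, hβ.comp_lipschitzOnWith h1⟩

theorem MmLip.smul (c : ℝ) (hU : MmLip n U) : MmLip n fun x => c * U x := by
  have hβ : LipschitzWith (Real.nnabs c) fun s : ℝ => c * s :=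
    LipschitzWith.of_dist_le_mul fun s t => by
      rw [Real.dist_eq, Real.dist_eq, ← mul_sub, abs_mul]
      rfl
  exact MmLip.comp hβ hU

theorem MmLip.neg (hU : MmLip n U) : MmLip n fun x => - U x := by
  have h := hU.smul (-1)
  simpa using h

/-- `U x = U (x/‖x‖)` -/
theorem MmLip.eq_unit (hU : MmLip n U) {x : E n} (hx : x ≠ 0) : U x = U (‖x‖⁻¹ • x) := (mmh_proj_eq hU.hom hx).symm

theorem MmLip.lipschitzOn (hU : MmLip n U) {r : ℝ} (hr : 0 < r) : ∃ K : ℝ≥0, LipschitzOnWith K U {x | r ≤ ‖x‖} := by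
  obtain ⟨L1, h1⟩ := hU.lip
  exact ⟨_, mmh_lip_out hU.hom h1 hr⟩

theorem MmLip.continuousOn (hU : MmLip n U) : ContinuousOn U {0}ᶜ := by
  obtain ⟨L1, h1⟩ := hU.lip
  exact mmh_cont hU.hom h1

/-- `measurable_of_continuousOn_compl_singleton` -/
theorem MmLip.measurable (hU : MmLip n U) : Measurable U :=
  measurable_of_continuousOn_compl_singleton 0 hU.continuousOn

/-- PLAN: on the sphere `|U x - U x₀| ≤ L * 2`; off the sphere `eq_unit`; the value at `0` separately; the sphere may be empty (`n = 0`). -/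
theorem MmLip.bdd (hU : MmLip n U) : ∃ C : ℝ, ∀ x, |U x| ≤ C := by
  obtain ⟨L1, h1⟩ := hU.lip
  obtain ⟨C, hC0, hC⟩ := mmh_bdd hU.hom h1
  refine ⟨max C |U 0|, fun x => ?_⟩
  by_cases hx : x = 0
  · rw [hx]
    exact le_max_right _ _
  · exact (hC x hx).trans (le_max_left _ _)

/-! ### LEAF L-B-HB-B: differentiability, the weighted gradient -/

/-- PLAN: `n = 0`: subsingleton (`hasFDerivAt_of_subsingleton`).  `n ≥ 1`: `{0}` is null; for `k : ℕ`, `LipschitzOnWith.ae_differentiableWithinAt_of_mem` on `s_k = {x | 1/(k+1) ≤ ‖x‖}` (`MmLip.lipschitzOn`);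
if `1/(k+1) < ‖x‖` then `s_k ∈ 𝓝 x` and `DifferentiableWithinAt.differentiableAt`. -/
theorem MmLip.ae_differentiableAt (hU : MmLip n U) : ∀ᵐ x, DifferentiableAt ℝ U x := by
  obtain ⟨L1, h1⟩ := hU.lip
  rcases Nat.eq_zero_or_pos n with rfl | hn
  · exact Eventually.of_forall fun x => (hasFDerivAt_of_subsingleton U x).differentiableAt
  · exact mmh_ae_diff hU.hom h1 hn

theorem MmLip.ae_differentiableAt' (hU : MmLip n U) : ∀ᵐ x ∂(mmNu n), DifferentiableAt ℝ U x :=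
  ae_restrict_of_ae hU.ae_differentiableAt

theorem MmLip.norm_fderiv_le (hU : MmLip n U) {L : ℝ≥0} (hL : LipschitzOnWith L U (sphere 0 1)) (x : E n) :
    ‖x‖ * ‖fderiv ℝ U x‖ ≤ 4 * L := by
  by_cases hx : x = 0
  · rw [hx, norm_zero, zero_mul]
    positivity
  · exact mmh_fderiv_le hU.hom hL hx

theorem mm_norm_gradient (U : E n → ℝ) (x : E n) : ‖gradient U x‖ = ‖fderiv ℝ U x‖ := by
  unfold gradient
  exact LinearIsometryEquiv.norm_map _ _

theorem mmGr_norm (ε : ℝ) (U : E n → ℝ) (x : E n) : ‖mmGr n ε U x‖ = |ε| / Real.sqrt 2 * (‖x‖ * ‖fderiv ℝ U x‖) := by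
  unfold mmGr
  rw [norm_smul, mm_norm_gradient, Real.norm_eq_abs, abs_mul, abs_div, abs_of_nonneg (Real.sqrt_nonneg 2), abs_of_nonneg (norm_nonneg x)]
  ring

theorem mmGr_norm_sq (ε : ℝ) (U : E n → ℝ) (x : E n) : ‖mmGr n ε U x‖ ^ 2 = ε ^ 2 / 2 * ‖x‖ ^ 2 * ‖fderiv ℝ U x‖ ^ 2 := by
  rw [mmGr_norm, mul_pow, div_pow, sq_abs, Real.sq_sqrt (by norm_num), mul_pow]
  ring

/-- PLAN: `measurable_fderiv ℝ U`, the continuous map `(InnerProductSpace.toDual ℝ (E n)).symm`, `measurable_norm`, `Measurable.smul`. -/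
theorem mmGr_measurable (ε : ℝ) (U : E n → ℝ) : Measurable (mmGr n ε U) := by
  unfold mmGr gradient
  refine Measurable.smul (measurable_norm.const_mul _) ?_
  exact (InnerProductSpace.toDual ℝ (E n)).symm.continuous.measurable.comp (measurable_fderiv ℝ U)

theorem MmLip.memLp_fst (hU : MmLip n U) : MemLp U 2 (mmNu n) := by
  obtain ⟨C, hC⟩ := hU.bdd
  exact MemLp.of_bound hU.measurable.aestronglyMeasurable C (Eventually.of_forall fun x => hC x)

theorem MmLip.memLp_snd (ε : ℝ) (hU : MmLip n U) : MemLp (mmGr n ε U) 2 (mmNu n) := by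
  obtain ⟨L1, h1⟩ := hU.lip
  refine MemLp.of_bound (mmGr_measurable ε U).aestronglyMeasurable (|ε| / Real.sqrt 2 * (4 * L1)) (Eventually.of_forall fun x => ?_)
  rw [mmGr_norm]
  exact mul_le_mul_of_nonneg_left (hU.norm_fderiv_le h1 x) (by positivity)

theorem mmGr_add (ε : ℝ) {x : E n} (hU : DifferentiableAt ℝ U x) (hV : DifferentiableAt ℝ V x) :
    mmGr n ε (fun x => U x + V x) x = mmGr n ε U x + mmGr n ε V x := by
  unfold mmGr gradient
  have : fderiv ℝ (fun x => U x + V x) x = fderiv ℝ U x + fderiv ℝ V x := fderiv_fun_add hU hV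
  rw [this, map_add, smul_add]

theorem mmGr_smul (ε c : ℝ) (U : E n → ℝ) (x : E n) : mmGr n ε (fun x => c * U x) x = c • mmGr n ε U x := by
  unfold mmGr gradient
  have : fderiv ℝ (fun x => c * U x) x = c • fderiv ℝ U x := by
    by_cases hc : c = 0
    · subst hc
      simp
    · by_cases hd : DifferentiableAt ℝ U x
      · exact fderiv_const_mul hd c
      · have hd' : ¬ DifferentiableAt ℝ (fun x => c * U x) x := by
          intro h
          apply hd
          have := h.const_mul c⁻¹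
          simpa [← mul_assoc, inv_mul_cancel₀ hc] using this
        rw [fderiv_zero_of_not_differentiableAt hd, fderiv_zero_of_not_differentiableAt hd', smul_zero]
  rw [this, map_smul, smul_comm]

theorem mmGr_neg (ε : ℝ) (U : E n → ℝ) (x : E n) : mmGr n ε (fun x => - U x) x = - mmGr n ε U x := by
  have h := mmGr_smul ε (-1) U x
  simpa using h

/-- chain rule.  `HasDerivAt.comp_hasFDerivAt`, `HasFDerivAt.fderiv`. -/
theorem mmGr_comp (ε : ℝ) {β : ℝ → ℝ} {β' : ℝ} {x : E n} (hU : DifferentiableAt ℝ U x) (hβ : HasDerivAt β β' (U x)) :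
    mmGr n ε (fun x => β (U x)) x = β' • mmGr n ε U x := by
  unfold mmGr gradient
  have : fderiv ℝ (fun x => β (U x)) x = β' • fderiv ℝ U x := (hβ.comp_hasFDerivAt x hU.hasFDerivAt).fderiv
  rw [this, map_smul, smul_comm]

/-! ### LEAF L-B-HB-C: the embedding and density -/

/-- two elements of the ambient space with a.e. equal components are equal -/
theorem mm_ext {z z' : MmAmb n} (h1 : (z.fst : E n → ℝ) =ᵐ[mmNu n] z'.fst) (h2 : (z.snd : E n → E n) =ᵐ[mmNu n] z'.snd) : z = z' := by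
  have e1 : z.fst = z'.fst := Lp.ext h1
  have e2 : z.snd = z'.snd := Lp.ext h2
  have : z.ofLp = z'.ofLp := Prod.ext e1 e2
  exact WithLp.ofLp_injective 2 this

open Classical in
/-- **(H1)** the element of a function of the dense class -/
noncomputable def mmEmb (n : ℕ) (ε : ℝ) (U : E n → ℝ) : MmAmb n :=
  if h : MmLip n U then WithLp.toLp 2 (h.memLp_fst.toLp U, (h.memLp_snd ε).toLp (mmGr n ε U)) else 0

theorem mmEmb_fst (ε : ℝ) (hU : MmLip n U) : ((mmEmb n ε U).fst : E n → ℝ) =ᵐ[mmNu n] U := by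
  unfold mmEmb
  rw [dif_pos hU]
  exact MemLp.coeFn_toLp hU.memLp_fst

theorem mmEmb_snd (ε : ℝ) (hU : MmLip n U) : ((mmEmb n ε U).snd : E n → E n) =ᵐ[mmNu n] mmGr n ε U := by
  unfold mmEmb
  rw [dif_pos hU]
  exact MemLp.coeFn_toLp (hU.memLp_snd ε)

theorem mmEmb_mem_gen (ε : ℝ) (hU : MmLip n U) : mmEmb n ε U ∈ mmGen n ε := ⟨U, hU, mmEmb_fst ε hU, mmEmb_snd ε hU⟩

theorem mmGen_subset (n : ℕ) (ε : ℝ) : mmGen n ε ⊆ mmHil n ε :=
  fun _ hz => Submodule.le_topologicalClosure _ (Submodule.subset_span hz)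

theorem mmEmb_mem (ε : ℝ) (U : E n → ℝ) : mmEmb n ε U ∈ mmHil n ε := by
  by_cases hU : MmLip n U
  · exact mmGen_subset n ε (mmEmb_mem_gen ε hU)
  · unfold mmEmb
    rw [dif_neg hU]
    exact Submodule.zero_mem _

theorem mm_gen_eq {z : MmAmb n} (hz : z ∈ mmGen n ε) : ∃ U, MmLip n U ∧ z = mmEmb n ε U := by
  obtain ⟨U, hU, h1, h2⟩ := hz
  exact ⟨U, hU, mm_ext (h1.trans (mmEmb_fst ε hU).symm) (h2.trans (mmEmb_snd ε hU).symm)⟩

/-- a.e. equal functions of the class have the same element (`U = V` a.e. on the ball ⟹ everywhere off `0` by continuity + homogeneity; NOT needed if you only use pointwise equality) -/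
theorem mmEmb_congr (ε : ℝ) (h : ∀ x, U x = V x) : mmEmb n ε U = mmEmb n ε V := by
  have : U = V := funext h
  rw [this]

/-- PLAN: `mm_ext`, `Lp.coeFn_add`, `mmGr_add` a.e. (`MmLip.ae_differentiableAt'`). -/
theorem mmEmb_add (ε : ℝ) (hU : MmLip n U) (hV : MmLip n V) : mmEmb n ε (fun x => U x + V x) = mmEmb n ε U + mmEmb n ε V := by
  refine mm_ext ?_ ?_
  · filter_upwards [mmEmb_fst ε (hU.add hV), mmEmb_fst ε hU, mmEmb_fst ε hV,
      Lp.coeFn_add (mmEmb n ε U).fst (mmEmb n ε V).fst] with x h1 h2 h3 h4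
    rw [h1, WithLp.add_fst, h4, Pi.add_apply, h2, h3]
  · filter_upwards [mmEmb_snd ε (hU.add hV), mmEmb_snd ε hU, mmEmb_snd ε hV,
      Lp.coeFn_add (mmEmb n ε U).snd (mmEmb n ε V).snd, hU.ae_differentiableAt', hV.ae_differentiableAt'] with x h1 h2 h3 h4 h5 h6
    rw [h1, WithLp.add_snd, h4, Pi.add_apply, h2, h3, mmGr_add ε h5 h6]

theorem mmEmb_smul (ε c : ℝ) (hU : MmLip n U) : mmEmb n ε (fun x => c * U x) = c • mmEmb n ε U := by
  refine mm_ext ?_ ?_
  · filter_upwards [mmEmb_fst ε (hU.smul c), mmEmb_fst ε hU, Lp.coeFn_smul c (mmEmb n ε U).fst] with x h1 h2 h4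
    rw [h1, WithLp.smul_fst, h4, Pi.smul_apply, h2, smul_eq_mul]
  · filter_upwards [mmEmb_snd ε (hU.smul c), mmEmb_snd ε hU, Lp.coeFn_smul c (mmEmb n ε U).snd] with x h1 h2 h4
    rw [h1, WithLp.smul_snd, h4, Pi.smul_apply, h2, mmGr_smul]

theorem mmEmb_neg (ε : ℝ) (hU : MmLip n U) : mmEmb n ε (fun x => - U x) = - mmEmb n ε U := by
  have h := mmEmb_smul ε (-1) hU
  rw [neg_one_smul] at h
  rw [← h]
  exact mmEmb_congr ε fun x => by ring

/-- the span of the graph is the graph.  PLAN: `Submodule.span_induction` with `mm_gen_eq`, `mmEmb_add`, `mmEmb_smul`, `MmLip.zero`. -/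
theorem mm_span_eq (n : ℕ) (ε : ℝ) : (Submodule.span ℝ (mmGen n ε) : Set (MmAmb n)) = mmGen n ε := by
  refine Set.Subset.antisymm ?_ Submodule.subset_span
  intro z hz
  refine Submodule.span_induction (p := fun z _ => z ∈ mmGen n ε) (fun z hz => hz) ?_ ?_ ?_ hz
  · have h := mmEmb_smul ε 0 (MmLip.zero (n := n))
    rw [zero_smul] at h
    rw [← h]
    exact mmEmb_mem_gen ε (MmLip.zero.smul 0)
  · intro x y _ _ hx hy
    obtain ⟨U, hU, rfl⟩ := mm_gen_eq hx
    obtain ⟨V, hV, rfl⟩ := mm_gen_eq hy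
    rw [← mmEmb_add ε hU hV]
    exact mmEmb_mem_gen ε (hU.add hV)
  · intro c x _ hx
    obtain ⟨U, hU, rfl⟩ := mm_gen_eq hx
    rw [← mmEmb_smul ε c hU]
    exact mmEmb_mem_gen ε (hU.smul c)

theorem mm_hil_eq_closure (n : ℕ) (ε : ℝ) : (mmHil n ε : Set (MmAmb n)) = closure (mmGen n ε) := by
  unfold mmHil
  rw [Submodule.topologicalClosure_coe, mm_span_eq]

/-- **(H2) density** -/
theorem mm_dense {z : MmAmb n} (hz : z ∈ mmHil n ε) {δ : ℝ} (hδ : 0 < δ) : ∃ U, MmLip n U ∧ ‖z - mmEmb n ε U‖ < δ := by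
  have h1 : z ∈ closure (mmGen n ε) := by
    rw [← mm_hil_eq_closure]
    exact hz
  obtain ⟨y, hy, hd⟩ := Metric.mem_closure_iff.1 h1 δ hδ
  obtain ⟨U, hU, rfl⟩ := mm_gen_eq hy
  exact ⟨U, hU, by rwa [← dist_eq_norm]⟩

/-- **(H2) density**, sequential form -/
theorem mm_seq {z : MmAmb n} (hz : z ∈ mmHil n ε) :
    ∃ U : ℕ → E n → ℝ, (∀ k, MmLip n (U k)) ∧ Tendsto (fun k => mmEmb n ε (U k)) atTop (𝓝 z) := by
  have hpos : ∀ k : ℕ, (0 : ℝ) < 1 / ((k : ℝ) + 1) := fun k => by positivity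
  choose U hU hd using fun k : ℕ => mm_dense hz (hpos k)
  refine ⟨U, hU, ?_⟩
  rw [tendsto_iff_dist_tendsto_zero]
  refine squeeze_zero (fun _ => dist_nonneg) (fun k => ?_) tendsto_one_div_add_atTop_nhds_zero_nat
  rw [dist_comm, dist_eq_norm]
  exact (hd k).le

/-- induction principle: a closed property which holds on the dense class holds on `mmHil` -/
theorem mm_induction {p : MmAmb n → Prop} (hc : IsClosed {z | p z}) (hp : ∀ U, MmLip n U → p (mmEmb n ε U)) {z : MmAmb n}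
    (hz : z ∈ mmHil n ε) : p z := by
  have h1 : z ∈ closure (mmGen n ε) := by
    rw [← mm_hil_eq_closure]
    exact hz
  refine closure_minimal ?_ hc h1
  intro y hy
  obtain ⟨U, hU, rfl⟩ := mm_gen_eq hy
  exact hp U hU

/-! ### LEAF L-B-HB-D: norm and inner product of the ambient space as integrals -/

theorem mm_integrable_fst_sq (z : MmAmb n) : Integrable (fun x => (z.fst x) ^ 2) (mmNu n) := (Lp.memLp z.fst).integrable_sq

theorem mm_integrable_snd_sq (z : MmAmb n) : Integrable (fun x => ‖z.snd x‖ ^ 2) (mmNu n) := (Lp.memLp z.snd).norm.integrable_sq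

theorem mm_integrable_fst (z : MmAmb n) : Integrable (fun x => z.fst x) (mmNu n) := (Lp.memLp z.fst).integrable (by norm_num)

/-- PLAN: `WithLp.prod_norm_sq_eq_of_L2`, `‖f‖² = ⟪f,f⟫ = ∫ ⟪f x, f x⟫` (`L2.inner_def`, `real_inner_self_eq_norm_sq`). -/
theorem mm_norm_sq (z : MmAmb n) : ‖z‖ ^ 2 = ∫ x, (z.fst x) ^ 2 ∂(mmNu n) + ∫ x, ‖z.snd x‖ ^ 2 ∂(mmNu n) := by
  have h1 : ‖z.fst‖ ^ 2 = ∫ x, (z.fst x) ^ 2 ∂(mmNu n) := by
    rw [← real_inner_self_eq_norm_sq, L2.inner_def]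
    refine integral_congr_ae (Eventually.of_forall fun x => ?_)
    simp [pow_two]
  have h2 : ‖z.snd‖ ^ 2 = ∫ x, ‖z.snd x‖ ^ 2 ∂(mmNu n) := by
    rw [← real_inner_self_eq_norm_sq, L2.inner_def]
    refine integral_congr_ae (Eventually.of_forall fun x => ?_)
    simp only [real_inner_self_eq_norm_sq]
  rw [WithLp.prod_norm_sq_eq_of_L2, h1, h2]

theorem mm_norm_fst_sq (z : MmAmb n) : ‖z.fst‖ ^ 2 = ∫ x, (z.fst x) ^ 2 ∂(mmNu n) := by
  rw [← real_inner_self_eq_norm_sq, L2.inner_def]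
  refine integral_congr_ae (Eventually.of_forall fun x => ?_)
  simp [pow_two]

theorem mm_norm_fst_le (z : MmAmb n) : ‖z.fst‖ ≤ ‖z‖ := by
  have h := WithLp.prod_norm_sq_eq_of_L2 z
  have h2 : ‖z.fst‖ ^ 2 ≤ ‖z‖ ^ 2 := by
    rw [h]
    have : 0 ≤ ‖z.snd‖ ^ 2 := by positivity
    linarith
  exact le_of_pow_le_pow_left₀ two_ne_zero (norm_nonneg _) h2

theorem mm_norm_snd_le (z : MmAmb n) : ‖z.snd‖ ≤ ‖z‖ := by
  have h := WithLp.prod_norm_sq_eq_of_L2 z
  have h2 : ‖z.snd‖ ^ 2 ≤ ‖z‖ ^ 2 := by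
    rw [h]
    have : 0 ≤ ‖z.fst‖ ^ 2 := by positivity
    linarith
  exact le_of_pow_le_pow_left₀ two_ne_zero (norm_nonneg _) h2

/-- PLAN: `WithLp.prod_inner_apply`, `L2.inner_def`; mind the order of the arguments of the real inner product (`real_inner_comm`, `mul_comm`). -/
theorem mm_inner (z z' : MmAmb n) :
    ⟪z, z'⟫ = ∫ x, z.fst x * z'.fst x ∂(mmNu n) + ∫ x, ⟪z.snd x, z'.snd x⟫ ∂(mmNu n) := by
  rw [WithLp.prod_inner_apply, L2.inner_def, L2.inner_def]
  congr 1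
  refine integral_congr_ae (Eventually.of_forall fun x => ?_)
  simp [mul_comm]

/-- Cauchy-Schwarz on the finite measure -/
theorem mm_l1_le_aux (f : Lp ℝ 2 (mmNu n)) : ∫ x, |f x| ∂(mmNu n) ≤ Real.sqrt ((mmNu n) univ).toReal * ‖f‖ := by
  have h1 : eLpNorm f 1 (mmNu n) ≤ eLpNorm f 2 (mmNu n) * (mmNu n) univ ^ ((1 : ℝ) / 2) := by
    have := eLpNorm_le_eLpNorm_mul_rpow_measure_univ (μ := mmNu n) (p := 1) (q := 2) (by norm_num) (Lp.aestronglyMeasurable f)
    convert this using 3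
    norm_num
  have h2 : ∫ x, |f x| ∂(mmNu n) = (eLpNorm f 1 (mmNu n)).toReal := by
    rw [eLpNorm_one_eq_lintegral_enorm, ← integral_norm_eq_lintegral_enorm (Lp.aestronglyMeasurable f)]
    rfl
  rw [h2, Lp.norm_def, Real.sqrt_eq_rpow, ENNReal.toReal_rpow, mul_comm, ← ENNReal.toReal_mul]
  refine ENNReal.toReal_mono ?_ h1
  exact ENNReal.mul_ne_top (Lp.eLpNorm_ne_top f) (ENNReal.rpow_ne_top_of_nonneg (by norm_num) (measure_ne_top _ _))

/-- Cauchy-Schwarz on the finite measure `ν`: `∫ |u| ≤ √ν(B₁) ‖u‖₂` -/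
theorem mm_l1_le (z z' : MmAmb n) : mmL1 z z' ≤ Real.sqrt ((mmNu n) univ).toReal * ‖z - z'‖ := by
  have h1 := mm_l1_le_aux (z.fst - z'.fst)
  have h2 : mmL1 z z' = ∫ x, |(z.fst - z'.fst : Lp ℝ 2 (mmNu n)) x| ∂(mmNu n) := by
    unfold mmL1
    refine integral_congr_ae ?_
    filter_upwards [Lp.coeFn_sub z.fst z'.fst] with x hx
    rw [hx]
    rfl
  rw [h2]
  refine h1.trans (mul_le_mul_of_nonneg_left ?_ (Real.sqrt_nonneg _))
  exact mm_norm_fst_le (z - z')

theorem mmL1_nonneg (z z' : MmAmb n) : 0 ≤ mmL1 z z' := integral_nonneg fun _ => abs_nonneg _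

end Claimed.Agent.R323
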