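import Claimed.Agent.R323.Mm.HilBase
import Claimed.Agent.R323.Mm.HomLip

/-!
# Row 323, block B: FIRST ORDER CALCULUS IN `mmHil`: (H4), (H5).   Owner helper235 (statements of the exits by helper120; consumers: Cpt = helper37, Crit = helper235).   NO SORRY IN THIS FILE (rests on the leaves of `Mm/HilBase.lean`).

TOOLS: `mm_pair` (pairing with a fixed element of the ambient space = two integrals), `mm_ae_dil` (an a.e. property on the ball holds a.e. at the dilated points `t x`, `0 < t ≤ 1`),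
**`mm_seq_ae`** (every `z ∈ mmHil` is the limit in `MmAmb n` AND a.e., both components, of a sequence of the class `MmLip`), `mmGr_hom`, `mmGr_tang`, `mm_ibp_cls`, `mm_div_memLp`, `mm_wfield_memLp`.
EXITS: `mm_ibp` (H4), `mm_hom_fst`, `mm_hom_snd`, `mm_tang`, `mm_dil_integral`, `mm_annulus` (H5).
-/

set_option autoImplicit false
open scoped ContDiff ENNReal NNReal RealInnerProductSpace Topology
open MeasureTheory Metric Set Filter

namespace Claimed.Agent.R323

open Claimed.Agent.Gmt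

variable {n : ℕ} {ε : ℝ}

/-- the unweighted gradient of `z`: `∇u = (√2/(ε‖x‖)) g` -/
noncomputable def mmGd (n : ℕ) (ε : ℝ) (z : MmAmb n) (x : E n) : E n := (Real.sqrt 2 / (ε * ‖x‖)) • z.snd x

/-- pairing with a fixed element of the ambient space -/
theorem mm_pair {φ : E n → ℝ} {ψ : E n → E n} (hφ : MemLp φ 2 (mmNu n)) (hψ : MemLp ψ 2 (mmNu n)) (z : MmAmb n) :
    ⟪z, (WithLp.toLp 2 (hφ.toLp φ, hψ.toLp ψ) : MmAmb n)⟫ = ∫ x, z.fst x * φ x ∂(mmNu n) + ∫ x, ⟪z.snd x, ψ x⟫ ∂(mmNu n) := by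
  rw [mm_inner]
  congr 1
  · refine integral_congr_ae ?_
    filter_upwards [hφ.coeFn_toLp] with x hx
    show z.fst x * (hφ.toLp φ) x = _
    rw [hx]
  · refine integral_congr_ae ?_
    filter_upwards [hψ.coeFn_toLp] with x hx
    show ⟪z.snd x, (hψ.toLp ψ) x⟫ = _
    rw [hx]

/-- an a.e. property on the ball is inherited by the dilated points -/
theorem mm_ae_dil {P : E n → Prop} (h : ∀ᵐ x ∂(mmNu n), P x) {t : ℝ} (ht : 0 < t) (ht1 : t ≤ 1) : ∀ᵐ x ∂(mmNu n), P (t • x) := by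
  unfold mmNu at h ⊢
  rw [ae_restrict_iff' measurableSet_ball] at h ⊢
  have h0 : (volume : Measure (E n)) {x | ¬ (x ∈ ball (0 : E n) 1 → P x)} = 0 := h
  have h1 : (volume : Measure (E n)) ((fun x : E n => t • x) ⁻¹' {x | ¬ (x ∈ ball (0 : E n) 1 → P x)}) = 0 := by
    rw [Measure.addHaar_preimage_smul _ ht.ne', h0, mul_zero]
  refine measure_mono_null (fun x hx => ?_) h1
  show ¬ (t • x ∈ ball (0 : E n) 1 → P (t • x))
  intro hc
  apply hx
  intro hxb
  refine hc ?_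
  rw [mem_ball_zero_iff] at hxb ⊢
  rw [norm_smul, Real.norm_of_nonneg ht.le]
  calc t * ‖x‖ ≤ 1 * ‖x‖ := by gcongr
    _ < 1 := by rw [one_mul]; exact hxb

theorem mm_fst_tendsto {z : MmAmb n} {zk : ℕ → MmAmb n} (h : Tendsto zk atTop (𝓝 z)) : Tendsto (fun k => (zk k).fst) atTop (𝓝 z.fst) :=
  ((WithLp.prod_continuous_ofLp 2 _ _).fst.tendsto z).comp h

theorem mm_snd_tendsto {z : MmAmb n} {zk : ℕ → MmAmb n} (h : Tendsto zk atTop (𝓝 z)) : Tendsto (fun k => (zk k).snd) atTop (𝓝 z.snd) :=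
  ((WithLp.prod_continuous_ofLp 2 _ _).snd.tendsto z).comp h

/-- approximation by the class in `L²` and a.e. -/
theorem mm_seq_ae {z : MmAmb n} (hz : z ∈ mmHil n ε) : ∃ U : ℕ → E n → ℝ, (∀ k, MmLip n (U k)) ∧ Tendsto (fun k => mmEmb n ε (U k)) atTop (𝓝 z) ∧
    (∀ᵐ x ∂(mmNu n), Tendsto (fun k => U k x) atTop (𝓝 (z.fst x))) ∧
    ∀ᵐ x ∂(mmNu n), Tendsto (fun k => mmGr n ε (U k) x) atTop (𝓝 (z.snd x)) := by
  obtain ⟨U, hU, hlim⟩ := mm_seq hz
  obtain ⟨a, ha, h1⟩ := (tendstoInMeasure_of_tendsto_Lp (mm_fst_tendsto hlim)).exists_seq_tendsto_ae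
  have hlim2 := hlim.comp ha.tendsto_atTop
  obtain ⟨b, hb, h2⟩ := (tendstoInMeasure_of_tendsto_Lp (mm_snd_tendsto hlim2)).exists_seq_tendsto_ae
  refine ⟨fun k => U (a (b k)), fun k => hU _, hlim2.comp hb.tendsto_atTop, ?_, ?_⟩
  · filter_upwards [h1, ae_all_iff.2 fun k => mmEmb_fst ε (hU k)] with x hx he
    have := hx.comp hb.tendsto_atTop
    refine this.congr fun k => ?_
    exact he _
  · filter_upwards [h2, ae_all_iff.2 fun k => mmEmb_snd ε (hU k)] with x hx he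
    refine hx.congr fun k => ?_
    exact he _


/-- the weighted gradient of a `0`-homogeneous function is `0`-homogeneous -/
theorem mmGr_hom {U : E n → ℝ} (hom : ∀ t : ℝ, 0 < t → ∀ x, U (t • x) = U x) {t : ℝ} (ht : 0 < t) (x : E n) :
    mmGr n ε U (t • x) = mmGr n ε U x := by
  have h1 : fderiv ℝ U x = t • fderiv ℝ U (t • x) := by
    rw [← fderiv_comp_smul]
    congr 1
    funext y
    exact (hom t ht y).symm
  have h2 : gradient U x = t • gradient U (t • x) := by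
    unfold gradient
    rw [h1, map_smul]
  unfold mmGr
  rw [h2, norm_smul, Real.norm_of_nonneg ht.le, smul_smul]
  congr 1
  ring

theorem mm_inner_gradient (U : E n → ℝ) (x v : E n) : ⟪gradient U x, v⟫ = fderiv ℝ U x v := by
  unfold gradient
  exact InnerProductSpace.toDual_symm_apply

/-- Euler -/
theorem mmGr_tang {U : E n → ℝ} (hom : ∀ t : ℝ, 0 < t → ∀ x, U (t • x) = U x) {x : E n} (hd : DifferentiableAt ℝ U x) :
    ⟪x, mmGr n ε U x⟫ = 0 := by
  unfold mmGr
  rw [inner_smul_right, real_inner_comm, mm_inner_gradient, mmh_euler hom hd, mul_zero]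

theorem mm_hom_fst {z : MmAmb n} (hz : z ∈ mmHil n ε) {t : ℝ} (ht : 0 < t) (ht1 : t ≤ 1) :
    ∀ᵐ x ∂(mmNu n), z.fst (t • x) = z.fst x := by
  obtain ⟨U, hU, -, h1, -⟩ := mm_seq_ae hz
  filter_upwards [h1, mm_ae_dil h1 ht ht1] with x hx hxt
  refine tendsto_nhds_unique hxt (hx.congr fun k => ?_)
  exact ((hU k).hom t ht x).symm

theorem mm_hom_snd {z : MmAmb n} (hz : z ∈ mmHil n ε) {t : ℝ} (ht : 0 < t) (ht1 : t ≤ 1) :
    ∀ᵐ x ∂(mmNu n), z.snd (t • x) = z.snd x := by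
  obtain ⟨U, hU, -, -, h1⟩ := mm_seq_ae hz
  filter_upwards [h1, mm_ae_dil h1 ht ht1] with x hx hxt
  refine tendsto_nhds_unique hxt (hx.congr fun k => ?_)
  exact (mmGr_hom (hU k).hom ht x).symm

theorem mm_tang {z : MmAmb n} (hz : z ∈ mmHil n ε) : ∀ᵐ x ∂(mmNu n), ⟪x, z.snd x⟫ = 0 := by
  obtain ⟨U, hU, -, -, h1⟩ := mm_seq_ae hz
  filter_upwards [h1, ae_all_iff.2 fun k => (hU k).ae_differentiableAt'] with x hx hd
  have h2 : Tendsto (fun k => ⟪x, mmGr n ε (U k) x⟫) atTop (𝓝 ⟪x, z.snd x⟫) := (tendsto_const_nhds (x := x)).inner hx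
  refine tendsto_nhds_unique h2 ?_
  refine tendsto_const_nhds.congr fun k => ?_
  exact (mmGr_tang (hU k).hom (hd k)).symm

theorem mm_dil_integral {f : E n → ℝ} {b : ℝ} (hb : 0 < b) (_hb1 : b ≤ 1) (hf : ∀ᵐ x ∂(mmNu n), f (b • x) = f x) :
    ∫ x in ball (0 : E n) b, f x = b ^ n * ∫ x, f x ∂(mmNu n) := by
  have h1 := Measure.setIntegral_comp_smul_of_pos (volume : Measure (E n)) f (ball (0 : E n) 1) hb
  rw [smul_unitBall_of_pos hb, finrank_euclideanSpace, Fintype.card_fin] at h1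
  have h2 : ∫ x in ball (0 : E n) 1, f (b • x) = ∫ x, f x ∂(mmNu n) := integral_congr_ae hf
  rw [← h2, h1, smul_eq_mul, ← mul_assoc, mul_inv_cancel₀ (pow_ne_zero _ hb.ne'), one_mul]

theorem mm_annulus {z z' : MmAmb n} (hz : z ∈ mmHil n ε) (hz' : z' ∈ mmHil n ε) {a b : ℝ} (ha : 0 < a) (hab : a ≤ b) (hb1 : b ≤ 1) :
    ∫ x in ball (0 : E n) b \ ball 0 a, |z.fst x - z'.fst x| = (b ^ n - a ^ n) * mmL1 z z' := by
  have hhom : ∀ t : ℝ, 0 < t → t ≤ 1 → ∀ᵐ x ∂(mmNu n), |z.fst (t • x) - z'.fst (t • x)| = |z.fst x - z'.fst x| := by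
    intro t ht ht1
    filter_upwards [mm_hom_fst hz ht ht1, mm_hom_fst hz' ht ht1] with x h1 h2
    rw [h1, h2]
  have hint : Integrable (fun x => |z.fst x - z'.fst x|) (mmNu n) := ((mm_integrable_fst z).sub (mm_integrable_fst z')).abs
  have hintb : IntegrableOn (fun x => |z.fst x - z'.fst x|) (ball (0 : E n) b) :=
    IntegrableOn.mono_set hint (ball_subset_ball hb1)
  have h1 := mm_dil_integral (f := fun x => |z.fst x - z'.fst x|) (lt_of_lt_of_le ha hab) hb1 (hhom b (lt_of_lt_of_le ha hab) hb1)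
  have h2 := mm_dil_integral (f := fun x => |z.fst x - z'.fst x|) ha (hab.trans hb1) (hhom a ha (hab.trans hb1))
  have h3 := setIntegral_sdiff (μ := (volume : Measure (E n))) measurableSet_ball hintb (ball_subset_ball hab)
  rw [h3, h1, h2]
  unfold mmL1
  ring

/-- integration by parts for the class, all `n` -/
theorem mm_ibp_cls {U : E n → ℝ} (hU : MmLip n U) {T : E n → E n} (hT1 : ContDiff ℝ 1 T) (hTc : HasCompactSupport T) (hT0 : (0 : E n) ∉ tsupport T) :
    ∫ x, U x * gmtDiv T x = - ∫ x, fderiv ℝ U x (T x) := by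
  obtain ⟨L, hL⟩ := hU.lip
  rcases Nat.eq_zero_or_pos n with rfl | hn
  · have hT : ∀ x, T x = 0 := fun x => by
      rw [Subsingleton.elim x 0]
      exact image_eq_zero_of_notMem_tsupport hT0
    simp [gmtDiv, hT]
  · exact mmh_ibp hU.hom hL hn T hT1 hTc hT0

theorem mm_test_far {T : E n → E n} (hT : GmtTest (mmOm n) T) : (0 : E n) ∉ tsupport T := fun h => (hT.sub h).2 rfl

theorem mm_test_far' {T : E n → E n} (hT : GmtTest (mmOm n) T) : ∃ r > 0, ∀ x, ‖x‖ < r → T x = 0 := by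
  obtain ⟨r, hr, hball⟩ := Metric.isOpen_iff.1 (isClosed_tsupport T).isOpen_compl 0 (mm_test_far hT)
  exact ⟨r, hr, fun x hx => image_eq_zero_of_notMem_tsupport (hball (by rwa [mem_ball_zero_iff]))⟩

theorem mm_div_continuous {T : E n → E n} (hT1 : ContDiff ℝ 1 T) : Continuous (gmtDiv T) := by
  unfold gmtDiv
  refine continuous_finsetSum _ fun i _ => ?_
  have h1 : Continuous fun x => fderiv ℝ T x (eb i) := (hT1.continuous_fderiv (by norm_num)).clm_apply continuous_const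
  exact (EuclideanSpace.proj i : E n →L[ℝ] ℝ).continuous.comp h1

theorem mm_div_zero {T : E n → E n} {x : E n} (hx : x ∉ tsupport T) : gmtDiv T x = 0 := by
  unfold gmtDiv
  rw [mmh_fderiv_zero_of_notMem hx]
  simp

theorem mm_div_memLp {T : E n → E n} (hT : GmtTest (mmOm n) T) : MemLp (gmtDiv T) 2 (mmNu n) := by
  have hc := mm_div_continuous hT.c1
  have hcs : HasCompactSupport (gmtDiv T) := hT.cpt.mono' fun x hx => by
    by_contra h
    exact hx (mm_div_zero h)
  obtain ⟨C, hC⟩ := hc.bounded_above_of_compact_support hcs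
  exact MemLp.of_bound hc.aestronglyMeasurable C (Eventually.of_forall hC)

/-- the field `(√2/(ε|x|)) T` -/
theorem mm_wfield_memLp (ε : ℝ) {T : E n → E n} (hT : GmtTest (mmOm n) T) : MemLp (fun x => (Real.sqrt 2 / (ε * ‖x‖)) • T x) 2 (mmNu n) := by
  obtain ⟨r, hr, hfar⟩ := mm_test_far' hT
  obtain ⟨C, hC⟩ := hT.c1.continuous.bounded_above_of_compact_support hT.cpt
  have hm : Measurable fun x : E n => (Real.sqrt 2 / (ε * ‖x‖)) • T x :=
    (measurable_const.div (measurable_const.mul measurable_norm)).smul hT.c1.continuous.measurable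
  refine MemLp.of_bound hm.aestronglyMeasurable (Real.sqrt 2 / (|ε| * r) * C) (Eventually.of_forall fun x => ?_)
  have hC0 : 0 ≤ C := (norm_nonneg _).trans (hC 0)
  rcases lt_or_ge ‖x‖ r with hx | hx
  · rw [hfar x hx, smul_zero, norm_zero]
    positivity
  · rw [norm_smul, Real.norm_eq_abs, abs_div, abs_mul, abs_norm, abs_of_nonneg (Real.sqrt_nonneg 2)]
    rcases eq_or_ne ε 0 with rfl | hε
    · simp
    · have : 0 < |ε| := abs_pos.2 hε
      gcongr
      exact hC x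

theorem mm_ibp (hε : 0 < ε) {z : MmAmb n} (hz : z ∈ mmHil n ε) {T : E n → E n} (hT : GmtTest (mmOm n) T) :
    ∫ x, z.fst x * gmtDiv T x ∂(mmNu n) = - ∫ x, ⟪mmGd n ε z x, T x⟫ ∂(mmNu n) := by
  have hφ := mm_div_memLp hT
  have hψ := mm_wfield_memLp ε hT
  have key : ∀ z : MmAmb n, z ∈ mmHil n ε → ⟪z, (WithLp.toLp 2 (hφ.toLp _, hψ.toLp _) : MmAmb n)⟫ = 0 := by
    intro z hz
    refine mm_induction (ε := ε) (p := fun z => ⟪z, (WithLp.toLp 2 (hφ.toLp _, hψ.toLp _) : MmAmb n)⟫ = 0)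
      (isClosed_eq (continuous_id.inner continuous_const) continuous_const) (fun U hU => ?_) hz
    rw [mm_pair]
    have e1 : ∫ x, (mmEmb n ε U).fst x * gmtDiv T x ∂(mmNu n) = ∫ x, U x * gmtDiv T x := by
      have a1 : ∫ x, (mmEmb n ε U).fst x * gmtDiv T x ∂(mmNu n) = ∫ x, U x * gmtDiv T x ∂(mmNu n) := by
        refine integral_congr_ae ?_
        filter_upwards [mmEmb_fst ε hU] with x hx
        rw [hx]
      rw [a1]
      refine setIntegral_eq_integral_of_forall_compl_eq_zero fun x hx => ?_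
      rw [mm_div_zero fun h => hx (hT.sub h).1, mul_zero]
    have e2 : ∫ x, ⟪(mmEmb n ε U).snd x, (Real.sqrt 2 / (ε * ‖x‖)) • T x⟫ ∂(mmNu n) = ∫ x, fderiv ℝ U x (T x) := by
      have a1 : ∫ x, ⟪(mmEmb n ε U).snd x, (Real.sqrt 2 / (ε * ‖x‖)) • T x⟫ ∂(mmNu n) = ∫ x, fderiv ℝ U x (T x) ∂(mmNu n) := by
        refine integral_congr_ae ?_
        filter_upwards [mmEmb_snd ε hU] with x hx
        rw [hx]
        rcases eq_or_ne x 0 with rfl | hx0
        · rw [image_eq_zero_of_notMem_tsupport (mm_test_far hT)]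
          simp
        · unfold mmGr
          rw [inner_smul_left, inner_smul_right, mm_inner_gradient]
          have h2 : Real.sqrt 2 ≠ 0 := by positivity
          have h3 : ‖x‖ ≠ 0 := norm_ne_zero_iff.2 hx0
          simp only [conj_trivial]
          field_simp
      rw [a1]
      refine setIntegral_eq_integral_of_forall_compl_eq_zero fun x hx => ?_
      rw [image_eq_zero_of_notMem_tsupport fun h => hx (hT.sub h).1, map_zero]
    rw [e1, e2, mm_ibp_cls hU hT.c1 hT.cpt (mm_test_far hT)]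
    ring
  have h := key z hz
  rw [mm_pair] at h
  have e : ∫ x, ⟪mmGd n ε z x, T x⟫ ∂(mmNu n) = ∫ x, ⟪z.snd x, (Real.sqrt 2 / (ε * ‖x‖)) • T x⟫ ∂(mmNu n) := by
    refine integral_congr_ae (Eventually.of_forall fun x => ?_)
    simp only [mmGd]
    rw [inner_smul_left, inner_smul_right]
    simp
  rw [e]
  linarith

end Claimed.Agent.R323
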