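import Claimed.Agent.R323.Mm.LscAbs
import Claimed.Agent.R323.Mm.HilIbp
import Claimed.Agent.R323.Mm.Fam

/-!
# Row 323, block B: LOWER SEMICONTINUITY OF THE ENERGY ALONG `mmJ`-CONVERGENCE.   helper20.

Consequence (`mm_fam_lsc`, `mm_le`): in `WidthSpec.le` the energy bound is only needed for the parameters `q = (v,β)` with `|v| < 1`.
* `mm_inj`: `z ∈ mmHil`, `z.fst = 0` ⟹ `z = 0` (closability of the gradient; from `mm_ibp` and the fundamental lemma of the calculus of variations).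
* `mm_intB_continuous`: `u ↦ ∫ B(u) dν` is continuous on `L²(ν)`.
* `mm_lsc`: `mmJ (z k) → mmJ z₀`, `mmEn (z k) ≤ c` eventually ⟹ `mmEn z₀ ≤ c` (`mma_lsc_norm`).
-/

set_option autoImplicit false
open scoped ContDiff ENNReal NNReal RealInnerProductSpace Topology
open MeasureTheory Metric Set Filter

namespace Claimed.Agent.R323

open Claimed.Agent.Gmt

variable {n : ℕ} {ε : ℝ}

/-- `mmJ` as a continuous linear map. -/
noncomputable def mmJL (n : ℕ) (ε : ℝ) : mmHil n ε →L[ℝ] Lp ℝ 2 (mmNu n) :=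
  (WithLp.fstL 2 ℝ (Lp ℝ 2 (mmNu n)) (Lp (E n) 2 (mmNu n))) ∘L (mmHil n ε).subtypeL

theorem mmJL_apply (z : mmHil n ε) : mmJL n ε z = mmJ n ε z := rfl

theorem mmOm_isOpen (n : ℕ) : IsOpen (mmOm n) := isOpen_ball.sdiff isClosed_singleton

theorem mm_snd_zero (hn : 1 ≤ n) (hε : 0 < ε) {z : MmAmb n} (hz : z ∈ mmHil n ε) (h0 : z.fst = 0) : z.snd = 0 := by
  have hfst : (z.fst : E n → ℝ) =ᵐ[mmNu n] 0 := by rw [h0]; exact Lp.coeFn_zero _ _ _
  -- the coordinates of the second component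
  have hint : IntegrableOn (fun x => (z.snd x : E n)) (ball 0 1) volume :=
    (Lp.memLp z.snd).integrable (by norm_num)
  have key : ∀ i : Fin n, ∀ᵐ x, x ∈ mmOm n → (Real.sqrt 2 / (ε * ‖x‖)) • (z.snd x i) = 0 := by
    intro i
    refine (mmOm_isOpen n).ae_eq_zero_of_integral_contDiff_smul_eq_zero ?_ ?_
    · have h1 : IntegrableOn (fun x => (z.snd x i : ℝ)) (ball 0 1) volume :=
        (EuclideanSpace.proj (𝕜 := ℝ) i).integrable_comp hint
      have h2 : LocallyIntegrableOn (fun x => (z.snd x i : ℝ)) (mmOm n) volume :=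
        (h1.mono_set sdiff_subset).locallyIntegrableOn
      refine h2.continuousOn_smul (mmOm_isOpen n).isLocallyClosed ?_
      intro x hx
      have hx0 : x ≠ 0 := fun h => hx.2 (by simp [h])
      have : ε * ‖x‖ ≠ 0 := mul_ne_zero hε.ne' (norm_ne_zero_iff.2 hx0)
      have hc : ContinuousAt (fun x : E n => Real.sqrt 2 / (ε * ‖x‖)) x :=
        ContinuousAt.div continuousAt_const (by fun_prop) this
      exact hc.continuousWithinAt
    · intro g hg hgc hgs
      have hT : GmtTest (mmOm n) (fun x => g x • (eb i : E n)) := by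
        refine ⟨(hg.of_le (by norm_num)).smul contDiff_const, ?_, ?_⟩
        · exact hgc.smul_right
        · exact (tsupport_smul_subset_left g _).trans hgs
      have h1 := mm_ibp hε hz hT
      have h2 : ∫ x, z.fst x * gmtDiv (fun x => g x • (eb i : E n)) x ∂(mmNu n) = 0 := by
        apply integral_eq_zero_of_ae
        filter_upwards [hfst] with x hx
        simp [hx]
      rw [h2] at h1
      have h3 : ∫ x, ⟪mmGd n ε z x, g x • (eb i : E n)⟫ ∂(mmNu n) = 0 := by linarith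
      have h4 : ∀ x, ⟪mmGd n ε z x, g x • (eb i : E n)⟫ = g x • ((Real.sqrt 2 / (ε * ‖x‖)) • (z.snd x i)) := by
        intro x
        unfold mmGd
        rw [inner_smul_right, inner_smul_left]
        simp [EuclideanSpace.inner_single_right]
      simp only [h4] at h3
      rw [← h3]
      unfold mmNu
      symm
      apply setIntegral_eq_integral_of_forall_compl_eq_zero
      intro x hx
      have : g x = 0 := by
        by_contra hne
        exact hx (hgs (subset_tsupport g hne)).1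
      simp [this]
  have hall : ∀ᵐ x, ∀ i : Fin n, x ∈ mmOm n → (Real.sqrt 2 / (ε * ‖x‖)) • (z.snd x i) = 0 := ae_all_iff.2 key
  have hnull : ∀ᵐ x : E n, x ≠ 0 := by
    have : Nonempty (Fin n) := ⟨⟨0, by omega⟩⟩
    have : Nontrivial (E n) := inferInstance
    have : volume ({0} : Set (E n)) = 0 := measure_singleton 0
    exact compl_mem_ae_iff.2 this
  have hae : (z.snd : E n → E n) =ᵐ[mmNu n] 0 := by
    unfold mmNu
    rw [Filter.EventuallyEq, ae_restrict_iff' measurableSet_ball]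
    filter_upwards [hall, hnull] with x hx hx0 hxb
    show (z.snd x : E n) = 0
    ext i
    have h5 := hx i ⟨hxb, by simpa using hx0⟩
    have h6 : Real.sqrt 2 / (ε * ‖x‖) ≠ 0 :=
      div_ne_zero (Real.sqrt_ne_zero'.2 (by norm_num)) (mul_ne_zero hε.ne' (norm_ne_zero_iff.2 hx0))
    rcases smul_eq_zero.1 h5 with h | h
    · exact absurd h h6
    · exact h
  exact (Lp.eq_zero_iff_ae_eq_zero).2 hae

/-- **closability**: `mmJ` is injective on `mmHil`. -/
theorem mm_inj (hn : 1 ≤ n) (hε : 0 < ε) : Function.Injective (mmJL n ε) := by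
  rw [injective_iff_map_eq_zero]
  intro z hz
  have h0 : (z : MmAmb n).fst = 0 := hz
  have h1 := mm_snd_zero hn hε z.2 h0
  have h2 := WithLp.prod_norm_sq_eq_of_L2 (z : MmAmb n)
  rw [h0, h1] at h2
  have h3 : ‖(z : MmAmb n)‖ = 0 := by simpa using h2
  exact Subtype.ext (norm_eq_zero.1 h3)

/-! ### continuity of the lower order term -/

theorem mmB0_lipschitzWith : LipschitzWith 2 (fun s => mmB s - mmB 0) :=
  LipschitzWith.of_dist_le_mul fun s t => by
    rw [Real.dist_eq, Real.dist_eq]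
    have := mmB_lip s t
    simpa using this

theorem mm_intB_eq (u : Lp ℝ 2 (mmNu n)) :
    ∫ x, mmB (u x) ∂(mmNu n) = mmB 0 * (mmNu n).real univ +
      ⟪indicatorConstLp 2 MeasurableSet.univ (measure_ne_top (mmNu n) univ) (1 : ℝ),
        mmB0_lipschitzWith.compLp (by simp) u⟫ := by
  rw [L2.inner_indicatorConstLp_one, setIntegral_univ]
  have h1 := mmB0_lipschitzWith.coeFn_compLp (by simp) u
  have hi : Integrable (mmB0_lipschitzWith.compLp (by simp) u : E n → ℝ) (mmNu n) :=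
    (Lp.memLp _).integrable (by norm_num)
  have h2 : ∫ x, mmB (u x) ∂(mmNu n) =
      ∫ x, (mmB 0 + (mmB0_lipschitzWith.compLp (by simp) u : E n → ℝ) x) ∂(mmNu n) := by
    apply integral_congr_ae
    filter_upwards [h1] with x hx
    rw [hx]
    simp
  rw [h2, integral_add (integrable_const _) hi, integral_const, smul_eq_mul, mul_comm]

theorem mm_intB_continuous (n : ℕ) : Continuous fun u : Lp ℝ 2 (mmNu n) => ∫ x, mmB (u x) ∂(mmNu n) := by
  simp only [mm_intB_eq]
  exact continuous_const.add (continuous_const.inner (mmB0_lipschitzWith.continuous_compLp (by simp)))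

/-! ### lower semicontinuity -/

/-- **lower semicontinuity of the energy along `mmJ`-convergence.** -/
theorem mm_lsc (hn : 1 ≤ n) (hε : 0 < ε) {ι : Type*} {l : Filter ι} [l.NeBot] {z : ι → mmHil n ε} {z₀ : mmHil n ε}
    {c : ℝ} (hc : ∀ᶠ k in l, mmEn n ε (z k) ≤ c) (hlim : Tendsto (fun k => mmJ n ε (z k)) l (𝓝 (mmJ n ε z₀))) :
    mmEn n ε z₀ ≤ c := by
  refine le_of_forall_pos_le_add fun δ hδ => ?_
  set b : Lp ℝ 2 (mmNu n) → ℝ := fun u => ∫ x, mmB (u x) ∂(mmNu n) with hb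
  have hbl : Tendsto (fun k => b (mmJ n ε (z k))) l (𝓝 (b (mmJ n ε z₀))) :=
    ((mm_intB_continuous n).tendsto _).comp hlim
  have hεδ : 0 < ε * δ := mul_pos hε hδ
  have hev : ∀ᶠ k in l, b (mmJ n ε z₀) - ε * δ < b (mmJ n ε (z k)) :=
    hbl.eventually (lt_mem_nhds (by linarith))
  set M : ℝ := ε * c - b (mmJ n ε z₀) + ε * δ with hM
  have hsq : ∀ᶠ k in l, ‖z k‖ ^ 2 ≤ M := by
    filter_upwards [hc, hev] with k h1 h2
    have h3 : (‖((z k : mmHil n ε) : MmAmb n)‖ ^ 2 + b (mmJ n ε (z k))) / ε ≤ c := h1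
    rw [div_le_iff₀ hε] at h3
    have h4 : ‖((z k : mmHil n ε) : MmAmb n)‖ = ‖z k‖ := rfl
    rw [h4] at h3
    linarith
  have hM0 : 0 ≤ M := by
    obtain ⟨k, hk⟩ := hsq.exists
    exact (sq_nonneg _).trans hk
  have hno : ∀ᶠ k in l, ‖z k‖ ≤ Real.sqrt M := by
    filter_upwards [hsq] with k hk
    exact Real.le_sqrt_of_sq_le hk
  have h0 := mma_lsc_norm (mmJL n ε) (mm_inj hn hε) hno hlim
  have h1 : ‖z₀‖ ^ 2 ≤ M := by
    have := pow_le_pow_left₀ (norm_nonneg _) h0 2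
    rwa [Real.sq_sqrt hM0] at this
  show (‖((z₀ : mmHil n ε) : MmAmb n)‖ ^ 2 + b (mmJ n ε z₀)) / ε ≤ c + δ
  have h4 : ‖((z₀ : mmHil n ε) : MmAmb n)‖ = ‖z₀‖ := rfl
  rw [div_le_iff₀ hε, h4]
  linarith

/-- the bound on `{|v| < 1}` passes to all of `acQ`. -/
theorem mm_fam_lsc (m : ℕ) (hε : 0 < ε) {H : E (m + 2) × ℝ → mmHil (m + 2) ε}
    (hH : MmaFam (acQ m) (acQb m) (mmJ (m + 2) ε) H) {c : ℝ}
    (hc : ∀ q ∈ acQ m, ‖q.1‖ < 1 → mmEn (m + 2) ε (H q) ≤ c) : ∀ q ∈ acQ m, mmEn (m + 2) ε (H q) ≤ c := by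
  intro q hq
  set t : ℕ → ℝ := fun k => 1 - 1 / ((k : ℝ) + 2) with ht
  have ht0 : ∀ k, 0 ≤ t k := fun k => by
    have : 1 / ((k : ℝ) + 2) ≤ 1 := by
      rw [div_le_one (by positivity)]
      have : (0 : ℝ) ≤ k := Nat.cast_nonneg k
      linarith
    simp only [ht]; linarith
  have ht1 : ∀ k, t k < 1 := fun k => by
    have : 0 < 1 / ((k : ℝ) + 2) := by positivity
    simp only [ht]; linarith
  have htl : Tendsto t atTop (𝓝 1) := by
    have h1 : Tendsto (fun k : ℕ => 1 / ((k : ℝ) + 2)) atTop (𝓝 0) := by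
      have := (tendsto_one_div_add_atTop_nhds_zero_nat (𝕜 := ℝ)).comp (tendsto_add_atTop_nat 1)
      refine this.congr fun k => ?_
      simp only [Function.comp]
      push_cast
      ring_nf
    have h2 : Tendsto (fun k : ℕ => (1 : ℝ) - 1 / ((k : ℝ) + 2)) atTop (𝓝 (1 - 0)) := tendsto_const_nhds.sub h1
    rwa [sub_zero] at h2
  set p : ℕ → E (m + 2) × ℝ := fun k => (t k • q.1, q.2) with hp
  have hpn : ∀ k, ‖(p k).1‖ < 1 := fun k => by
    show ‖t k • q.1‖ < 1
    rw [norm_smul, Real.norm_of_nonneg (ht0 k)]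
    have := hq.1
    have h2 := ht1 k
    have h3 := ht0 k
    nlinarith [norm_nonneg q.1]
  have hpQ : ∀ k, p k ∈ acQ m := fun k => ⟨(hpn k).le, hq.2⟩
  have hpl : Tendsto p atTop (𝓝 q) := by
    have h1 : Tendsto (fun k => t k • q.1) atTop (𝓝 ((1 : ℝ) • q.1)) := htl.smul_const _
    rw [one_smul] at h1
    exact h1.prodMk_nhds tendsto_const_nhds
  have hpl' : Tendsto p atTop (𝓝[acQ m] q) :=
    tendsto_nhdsWithin_iff.2 ⟨hpl, Eventually.of_forall hpQ⟩
  have hJ : Tendsto (fun k => mmJ (m + 2) ε (H (p k))) atTop (𝓝 (mmJ (m + 2) ε (H q))) :=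
    (hH.cont q hq).tendsto.comp hpl'
  exact mm_lsc (by omega) hε (Eventually.of_forall fun k => hc _ (hpQ k) (hpn k)) hJ

/-- **the field `le` of `WidthSpec`** (given that the energy is nonnegative: `Mm/En.lean`). -/
theorem mm_le (m : ℕ) (hε : 0 < ε) (hE : ∀ z : mmHil (m + 2) ε, 0 ≤ mmEn (m + 2) ε z)
    {h : E (m + 2) × ℝ → E (m + 2) → ℝ} (hh : AcFam m h) {c : ℝ}
    (hc : ∀ q ∈ acQ m, ‖q.1‖ < 1 → acE (m + 2) ε (h q) ≤ c) : mmW m ε ≤ c := by
  obtain ⟨H, hH, hHE⟩ := mm_fam m hε hh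
  have hC : 0 < acC := by unfold acC; positivity
  have hk : 0 < ((m + 2 : ℕ) : ℝ) / acC := by positivity
  have h1 : ∀ q ∈ acQ m, mmEn (m + 2) ε (H q) ≤ c / (((m + 2 : ℕ) : ℝ) / acC) := by
    refine mm_fam_lsc m hε hH fun q hq hq1 => ?_
    rw [le_div_iff₀ hk, mul_comm, hHE q hq]
    exact hc q hq hq1
  have hne : (acQ m).Nonempty := ⟨0, by simp [acQ]⟩
  have h2 := mma_width_le (E := fun z : mmHil (m + 2) ε => mmEn (m + 2) ε z) hE hne hH h1
  unfold mmW
  rw [le_div_iff₀ hk] at h2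
  linarith

end Claimed.Agent.R323
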