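import Mathlib

/-!
# Row 323, block B: ABSTRACT LOWER SEMICONTINUITY (Mathlib only).   helper20.  Prefix `mma`.

`J : H →L L` injective between Hilbert spaces.  If `J (z k) → J z₀` and `‖z k‖ ≤ c` eventually then `‖z₀‖ ≤ c`.
Proof: `⟪z k, J† f⟫ = ⟪J (z k), f⟫ → ⟪z₀, J† f⟫`, so `⟪z₀, w⟫ ≤ c ‖w‖` for `w` in the range of `J†`, which is dense (`(ker J)ᗮ = closure (range J†)`).
-/

set_option autoImplicit false

open Filter Topology
open scoped RealInnerProductSpace

namespace Claimed.Agent.R323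

theorem mma_lsc_norm {H L : Type*} [NormedAddCommGroup H] [InnerProductSpace ℝ H] [CompleteSpace H]
    [NormedAddCommGroup L] [InnerProductSpace ℝ L] [CompleteSpace L] (J : H →L[ℝ] L)
    (hJ : Function.Injective J) {ι : Type*} {l : Filter ι} [l.NeBot] {z : ι → H} {z₀ : H} {c : ℝ}
    (hc : ∀ᶠ k in l, ‖z k‖ ≤ c) (hlim : Tendsto (fun k => J (z k)) l (𝓝 (J z₀))) : ‖z₀‖ ≤ c := by
  -- the inequality on the range of the adjoint
  have h1 : ∀ f : L, ⟪z₀, ContinuousLinearMap.adjoint J f⟫ ≤ c * ‖ContinuousLinearMap.adjoint J f‖ := by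
    intro f
    have t1 : Tendsto (fun k => ⟪z k, ContinuousLinearMap.adjoint J f⟫) l
        (𝓝 ⟪z₀, ContinuousLinearMap.adjoint J f⟫) := by
      simp only [ContinuousLinearMap.adjoint_inner_right]
      exact hlim.inner tendsto_const_nhds
    refine le_of_tendsto t1 ?_
    filter_upwards [hc] with k hk
    exact (real_inner_le_norm _ _).trans (mul_le_mul_of_nonneg_right hk (norm_nonneg _))
  -- density
  have h2 : z₀ ∈ (ContinuousLinearMap.adjoint J).range.topologicalClosure := by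
    rw [← ContinuousLinearMap.orthogonal_ker]
    have : J.ker = ⊥ := LinearMap.ker_eq_bot.2 hJ
    rw [this, Submodule.bot_orthogonal_eq_top]
    trivial
  have h3 : ∀ w ∈ (ContinuousLinearMap.adjoint J).range.topologicalClosure, ⟪z₀, w⟫ ≤ c * ‖w‖ := by
    intro w hw
    rw [← SetLike.mem_coe, Submodule.topologicalClosure_coe] at hw
    refine closure_minimal (s := ((ContinuousLinearMap.adjoint J).range : Set H))
      (t := {w | ⟪z₀, w⟫ ≤ c * ‖w‖}) ?_ ?_ hw
    · rintro _ ⟨f, rfl⟩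
      exact h1 f
    · exact isClosed_le (by fun_prop) (by fun_prop)
  have h4 := h3 z₀ h2
  rw [real_inner_self_eq_norm_sq] at h4
  by_cases h0 : ‖z₀‖ = 0
  · rw [h0]
    obtain ⟨k, hk⟩ := hc.exists
    exact (norm_nonneg _).trans hk
  · have hp : 0 < ‖z₀‖ := lt_of_le_of_ne (norm_nonneg _) (Ne.symm h0)
    nlinarith

end Claimed.Agent.R323
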