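import Claimed.Agent.R323.Mm.RegA
import Claimed.Agent.R323.Mm.Hil

/-!
# Row 323, block B5c (regularity), part B: from `MmWeak` to the very weak form on the punctured ball.   helper240.  Prefix `mmr`.
-/

set_option autoImplicit false

namespace Claimed.Agent.R323

open Claimed.Agent.Gmt Claimed.Agent.Lib.Ell MeasureTheory Metric Filter Set
open scoped ContDiff RealInnerProductSpace Gradient Topology

variable {n : ℕ}

/-! ### bridges between the two libraries -/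

theorem mmr_coord (Q : E n →L[ℝ] ℝ) (i : Fin n) : (sharpL Q : E n) i = Q (eb i) := by
  have h1 : ⟪(sharpL Q : E n), eb i⟫ = Q (eb i) := by
    rw [ell_sharpL_apply]
    exact InnerProductSpace.toDual_symm_apply
  rw [← h1]
  simp [eb, EuclideanSpace.inner_single_right]

theorem mmr_flLap_eq {U : Set (E n)} (hU : IsOpen U) {g : E n → ℝ} (hg : ContDiffOn ℝ 2 g U) {x : E n}
    (hx : x ∈ U) : flLap g x = ellLap g x := by
  have hd : DifferentiableAt ℝ (fderiv ℝ g) x :=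
    ((hg.fderiv_of_isOpen hU (m := 1) (by norm_num)).differentiableOn (by simp) x hx).differentiableAt
      (hU.mem_nhds hx)
  have h1 : HasFDerivAt (gradient g) ((sharpL : (E n →L[ℝ] ℝ) →L[ℝ] E n) ∘L ellD2 g x) x :=
    (sharpL : (E n →L[ℝ] ℝ) →L[ℝ] E n).hasFDerivAt.comp x hd.hasFDerivAt
  unfold flLap gmtDiv ellLap
  rw [h1.fderiv, ellTr_eq_sum (EuclideanSpace.basisFun (Fin n) ℝ)]
  refine Finset.sum_congr rfl fun i _ => ?_
  rw [ContinuousLinearMap.comp_apply, mmr_coord, EuclideanSpace.basisFun_apply]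
  rfl

theorem mmr_test_iff {U : Set (E n)} {φ : E n → ℝ} : IsTest U φ ↔ GmtTestS0 U φ :=
  ⟨fun h => ⟨h.1, h.2.1, h.2.2⟩, fun h => ⟨h.smooth, h.cpt, h.sub⟩⟩

theorem mmr_om_isOpen (n : ℕ) : IsOpen (mmOm n) := isOpen_ball.sdiff isClosed_singleton

theorem mmr_mem_om {x : E n} : x ∈ mmOm n ↔ ‖x‖ < 1 ∧ x ≠ 0 := by
  simp [mmOm]

/-- functions supported in the punctured ball vanish near the origin. -/
theorem mmr_supp_away {F : Type} [NormedAddCommGroup F] {T : E n → F} (hs : tsupport T ⊆ mmOm n) :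
    ∃ c > 0, ∀ x, ‖x‖ < c → T x = 0 := by
  have h0 : (0 : E n) ∉ tsupport T := fun h => (hs h).2 rfl
  have h1 : (tsupport T)ᶜ ∈ 𝓝 (0 : E n) := (isClosed_tsupport T).isOpen_compl.mem_nhds h0
  obtain ⟨c, hc, hb⟩ := Metric.mem_nhds_iff.1 h1
  refine ⟨c, hc, fun x hx => ?_⟩
  have : x ∈ (tsupport T)ᶜ := hb (by simpa using hx)
  exact image_eq_zero_of_notMem_tsupport this

theorem mmr_supp_ball {F : Type} [NormedAddCommGroup F] {T : E n → F} (hs : tsupport T ⊆ mmOm n) {x : E n}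
    (hx : x ∉ ball (0 : E n) 1) : T x = 0 :=
  image_eq_zero_of_notMem_tsupport fun h => hx (hs h).1

theorem mmr_integral_nu {F : Type} [NormedAddCommGroup F] [NormedSpace ℝ F] {T : E n → F}
    (h : ∀ x, x ∉ ball (0 : E n) 1 → T x = 0) : ∫ x, T x ∂(mmNu n) = ∫ x, T x :=
  setIntegral_eq_integral_of_forall_compl_eq_zero h

/-! ### integrability against `G` -/

theorem mmr_G_integrable {ε : ℝ} {u : E n → ℝ} {G : E n → E n} (h : MmWeak n ε u G) {T : E n → E n}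
    (hT : Continuous T) (hc : HasCompactSupport T) (hs : tsupport T ⊆ mmOm n) :
    Integrable (fun x => ⟪G x, T x⟫) (mmNu n) := by
  obtain ⟨c, hc0, hcz⟩ := mmr_supp_away hs
  obtain ⟨C, hC⟩ := hc.exists_bound_of_continuous hT
  have h1 : Integrable (fun x => ‖x‖ • G x) (mmNu n) := h.memG.integrable (by norm_num)
  have e : ∀ x, ⟪G x, T x⟫ = ⟪‖x‖ • G x, ‖x‖⁻¹ • T x⟫ := by
    intro x
    by_cases hx : x = 0
    · rw [hcz x (by rw [hx, norm_zero]; exact hc0)]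
      simp
    · rw [inner_smul_left, inner_smul_right]
      have : ‖x‖ ≠ 0 := norm_ne_zero_iff.2 hx
      simp only [conj_trivial]
      field_simp
  have hm : AEStronglyMeasurable (fun x => ‖x‖⁻¹ • T x) (mmNu n) :=
    (measurable_norm.inv.aestronglyMeasurable).smul hT.aestronglyMeasurable
  simp_rw [e]
  refine (h1.norm.const_mul (c⁻¹ * C)).mono' (h1.aestronglyMeasurable.inner hm) (Eventually.of_forall fun x => ?_)
  have h2 : ‖‖x‖⁻¹ • T x‖ ≤ c⁻¹ * C := by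
    by_cases hx : ‖x‖ < c
    · rw [hcz x hx, smul_zero, norm_zero]
      exact mul_nonneg (inv_nonneg.2 hc0.le) ((norm_nonneg _).trans (hC x))
    · rw [norm_smul, norm_inv, norm_norm]
      exact mul_le_mul (inv_anti₀ hc0 (not_lt.1 hx)) (hC x) (norm_nonneg _) (inv_nonneg.2 hc0.le)
  calc ‖⟪‖x‖ • G x, ‖x‖⁻¹ • T x⟫‖ ≤ ‖‖x‖ • G x‖ * ‖‖x‖⁻¹ • T x‖ := norm_inner_le_norm _ _
    _ ≤ ‖‖x‖ • G x‖ * (c⁻¹ * C) := mul_le_mul_of_nonneg_left h2 (norm_nonneg _)
    _ = _ := mul_comm _ _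

theorem mmr_acW'_abs_le {s : ℝ} (hs : |s| ≤ 1) : |acW' s| ≤ 2 := by
  unfold acW'
  have h1 : |s ^ 3| ≤ 1 := by
    rw [abs_pow]
    exact pow_le_one₀ (abs_nonneg s) hs
  calc |s ^ 3 - s| ≤ |s ^ 3| + |s| := abs_sub _ _
    _ ≤ 2 := by linarith

theorem mmr_acW'_continuous : Continuous acW' := by
  unfold acW'
  fun_prop

/-! ### the very weak form -/

/-- extension by zero. -/
noncomputable def mmrExt (n : ℕ) (u : E n → ℝ) : E n → ℝ := (ball (0 : E n) 1).indicator u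

/-- the right hand side. -/
noncomputable def mmrRhs (n : ℕ) (ε : ℝ) (v : E n → ℝ) (x : E n) : ℝ := (ε ^ 2)⁻¹ * ((‖x‖ ^ 2)⁻¹ * acW' (v x))

theorem mmr_ext_meas {ε : ℝ} {u : E n → ℝ} {G : E n → E n} (h : MmWeak n ε u G) :
    AEStronglyMeasurable (mmrExt n u) volume :=
  (aestronglyMeasurable_indicator_iff measurableSet_ball).2 h.meas

theorem mmr_ext_bdd {ε : ℝ} {u : E n → ℝ} {G : E n → E n} (h : MmWeak n ε u G) : ∀ᵐ x, |mmrExt n u x| ≤ 1 := by
  have h1 := (ae_restrict_iff' measurableSet_ball).1 h.bdd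
  filter_upwards [h1] with x hx
  unfold mmrExt
  by_cases hb : x ∈ ball (0 : E n) 1
  · rw [indicator_of_mem hb]
    exact hx hb
  · rw [indicator_of_notMem hb]
    simp

theorem mmr_rhs_meas (ε : ℝ) {v : E n → ℝ} {μ : Measure (E n)} (hv : AEStronglyMeasurable v μ) :
    AEStronglyMeasurable (mmrRhs n ε v) μ :=
  (((measurable_norm.pow_const 2).inv.aestronglyMeasurable).mul
    (mmr_acW'_continuous.comp_aestronglyMeasurable hv)).const_mul _

theorem mmr_rhs_abs_le {ε c : ℝ} (hc : 0 < c) {v : E n → ℝ} {x : E n} (hv : |v x| ≤ 1) (hx : c ≤ ‖x‖) :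
    |mmrRhs n ε v x| ≤ (ε ^ 2)⁻¹ * ((c ^ 2)⁻¹ * 2) := by
  unfold mmrRhs
  rw [abs_mul, abs_mul, abs_of_nonneg (inv_nonneg.2 (sq_nonneg ε)), abs_of_nonneg (inv_nonneg.2 (sq_nonneg ‖x‖))]
  refine mul_le_mul_of_nonneg_left ?_ (inv_nonneg.2 (sq_nonneg ε))
  exact mul_le_mul (inv_anti₀ (by positivity) (pow_le_pow_left₀ hc.le hx 2)) (mmr_acW'_abs_le hv) (abs_nonneg _)
    (by positivity)

theorem mmr_vw {ε : ℝ} (hε : 0 < ε) {u : E n → ℝ} {G : E n → E n} (h : MmWeak n ε u G) :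
    MmrVW (mmOm n) (mmrExt n u) (mmrRhs n ε (mmrExt n u)) := by
  intro φ hφ
  have hφ' : GmtTestS0 (mmOm n) φ := mmr_test_iff.1 hφ
  have hT : GmtTest (mmOm n) (gradient φ) := fl_grad_test hφ.1 hφ.2.1 hφ.2.2
  obtain ⟨c, hc0, hcz⟩ := mmr_supp_away hφ.2.2
  obtain ⟨C, hC⟩ := hφ.2.1.exists_bound_of_continuous hφ.1.continuous
  -- left hand side
  have e1 : ∫ x, mmrExt n u x * ellLap φ x = ∫ x, u x * gmtDiv (gradient φ) x ∂(mmNu n) := by
    have a1 : ∀ x, mmrExt n u x * ellLap φ x = (ball (0 : E n) 1).indicator (fun x => u x * gmtDiv (gradient φ) x) x := by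
      intro x
      unfold mmrExt
      by_cases hb : x ∈ ball (0 : E n) 1
      · rw [indicator_of_mem hb, indicator_of_mem hb,
          ← mmr_flLap_eq isOpen_univ (hφ.1.contDiffOn.of_le (by norm_cast)) (mem_univ x)]
        rfl
      · rw [indicator_of_notMem hb, indicator_of_notMem hb, zero_mul]
    simp_rw [a1]
    exact integral_indicator measurableSet_ball
  -- right hand side
  have e2 : ∫ x, mmrRhs n ε (mmrExt n u) x * φ x = ∫ x, mmrRhs n ε u x * φ x ∂(mmNu n) := by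
    rw [← mmr_integral_nu (T := fun x => mmrRhs n ε (mmrExt n u) x * φ x)
      (fun x hx => by rw [mmr_supp_ball hφ.2.2 hx, mul_zero])]
    refine setIntegral_congr_fun measurableSet_ball fun x hx => ?_
    show mmrRhs n ε (mmrExt n u) x * φ x = mmrRhs n ε u x * φ x
    unfold mmrRhs mmrExt
    rw [indicator_of_mem hx]
  have i1 : Integrable (fun x => ⟪G x, gradient φ x⟫) (mmNu n) :=
    mmr_G_integrable h hT.c1.continuous hT.cpt hT.sub
  have i2 : Integrable (fun x => mmrRhs n ε u x * φ x) (mmNu n) := by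
    refine Integrable.of_bound ((mmr_rhs_meas ε h.meas).mul hφ.1.continuous.aestronglyMeasurable)
      ((ε ^ 2)⁻¹ * ((c ^ 2)⁻¹ * 2) * C) ?_
    filter_upwards [h.bdd] with x hx
    by_cases hxc : ‖x‖ < c
    · rw [hcz x hxc, mul_zero, norm_zero]
      have := (norm_nonneg _).trans (hC x)
      positivity
    · rw [norm_mul]
      exact mul_le_mul (mmr_rhs_abs_le hc0 hx (not_lt.1 hxc)) (hC x) (norm_nonneg _) (by positivity)
  have e3 := h.eq φ hφ'
  have e4 : ∀ x, ε ^ 2 * ⟪G x, gradient φ x⟫ + (‖x‖ ^ 2)⁻¹ * acW' (u x) * φ x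
      = ε ^ 2 * ⟪G x, gradient φ x⟫ + ε ^ 2 * (mmrRhs n ε u x * φ x) := by
    intro x
    unfold mmrRhs
    field_simp
  simp_rw [e4] at e3
  rw [integral_add (i1.const_mul _) (i2.const_mul _), integral_const_mul, integral_const_mul, ← mul_add] at e3
  have e5 := (mul_eq_zero.1 e3).resolve_left (by positivity)
  rw [e1, e2, h.grad _ hT]
  linarith

/-! ### smoothness of the precise representative -/

/-- the structure functions of the equation. -/
def mmrA (n : ℕ) (ζ : E n × ℝ × E n) : E n := ζ.2.2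

noncomputable def mmrB (n : ℕ) (ε : ℝ) (ζ : E n × ℝ × E n) : ℝ := (ε ^ 2)⁻¹ * ((‖ζ.1‖ ^ 2)⁻¹ * acW' ζ.2.1)

def mmrO (n : ℕ) : Set (E n × ℝ × E n) := {ζ | ζ.1 ≠ 0}

theorem mmr_O_isOpen (n : ℕ) : IsOpen (mmrO n) := isOpen_ne_fun continuous_fst continuous_const

theorem mmr_A_contDiff (n : ℕ) : ContDiff ℝ ∞ (mmrA n) := contDiff_snd.comp contDiff_snd

theorem mmr_dpA (ζ : E n × ℝ × E n) : dpA (mmrA n) ζ = ContinuousLinearMap.id ℝ (E n) := by
  have h1 : HasFDerivAt (mmrA n)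
      ((ContinuousLinearMap.snd ℝ ℝ (E n)) ∘L (ContinuousLinearMap.snd ℝ (E n) (ℝ × E n))) ζ :=
    ((ContinuousLinearMap.snd ℝ ℝ (E n)) ∘L (ContinuousLinearMap.snd ℝ (E n) (ℝ × E n))).hasFDerivAt
  unfold dpA
  rw [h1.fderiv]
  ext v
  simp

theorem mmr_B_contDiffOn (n : ℕ) (ε : ℝ) : ContDiffOn ℝ ∞ (mmrB n ε) (mmrO n) := by
  unfold mmrB acW'
  refine contDiffOn_const.mul (ContDiffOn.mul ?_ ?_)
  · refine ContDiffOn.inv ((contDiff_norm_sq ℝ).comp contDiff_fst).contDiffOn fun ζ hζ => ?_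
    exact pow_ne_zero 2 (norm_ne_zero_iff.2 hζ)
  · have h1 : ContDiff ℝ ∞ (fun ζ : E n × ℝ × E n => ζ.2.1) := contDiff_fst.comp contDiff_snd
    exact ((h1.pow 3).sub h1).contDiffOn

theorem mmr_smooth_aux {ε : ℝ} {V : E n → ℝ} (h1 : ContDiffOn ℝ 1 V (mmOm n))
    (h2 : ∀ x ∈ mmOm n, ∃ r > 0, ∃ K, HolOn (1 / 2) K (ball x r) (fderiv ℝ V))
    (hwk : ∀ φ, IsTest (mmOm n) φ → ∫ x, ⟪∇ V x, ∇ φ x⟫ = - ∫ x, mmrRhs n ε V x * φ x) :
    ContDiffOn ℝ ∞ V (mmOm n) ∧ ∀ x ∈ mmOm n, ellLap V x = mmrRhs n ε V x := by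
  have hO := mmr_om_isOpen n
  have hq : WeakQuasi (mmOm n) (mmrA n) (mmrB n ε) V := by
    intro φ hφ
    have := hwk φ hφ
    have e1 : ∀ x, mmrA n (x, V x, ∇ V x) = ∇ V x := fun x => rfl
    have e2 : ∀ x, mmrB n ε (x, V x, ∇ V x) = mmrRhs n ε V x := fun x => rfl
    simp_rw [e1, e2]
    rw [this]
    ring
  have hsym : ∀ ζ ∈ mmrO n, ∀ η η' : E n, ⟪dpA (mmrA n) ζ η, η'⟫ = ⟪η, dpA (mmrA n) ζ η'⟫ := by
    intro ζ _ η η'
    rw [mmr_dpA]
    rfl
  have hpos : ∀ ζ ∈ mmrO n, ∀ η : E n, η ≠ 0 → 0 < ⟪dpA (mmrA n) ζ η, η⟫ := by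
    intro ζ _ η hη
    rw [mmr_dpA]
    exact real_inner_self_pos.2 hη
  have hgr : ∀ x ∈ mmOm n, (x, V x, ∇ V x) ∈ mmrO n := fun x hx => (mmr_mem_om.1 hx).2
  have hs : ContDiffOn ℝ ∞ V (mmOm n) :=
    ell_quasi_smooth hO (mmr_O_isOpen n) (α := 1 / 2) (by norm_num) (mmr_A_contDiff n).contDiffOn
      (mmr_B_contDiffOn n ε) hsym hpos h1 hgr h2 hq
  refine ⟨hs, ?_⟩
  refine mmr_classical hO (hs.of_le (by norm_cast)) ?_ hwk
  have hc : ContinuousOn (fun x => ((x, V x, (0 : E n)) : E n × ℝ × E n)) (mmOm n) :=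
    continuousOn_id.prodMk (hs.continuousOn.prodMk continuousOn_const)
  have hc2 := (mmr_B_contDiffOn n ε).continuousOn.comp hc fun x hx => (mmr_mem_om.1 hx).2
  exact hc2

theorem mmr_smooth {ε : ℝ} (hε : 0 < ε) {u : E n → ℝ} {G : E n → E n} (h : MmWeak n ε u G) :
    ContDiffOn ℝ ∞ (mmrLim (mmrExt n u)) (mmOm n) ∧ (∀ x ∈ mmOm n, |mmrLim (mmrExt n u) x| ≤ 1) ∧
      ∀ x ∈ mmOm n, ellLap (mmrLim (mmrExt n u)) x = mmrRhs n ε (mmrLim (mmrExt n u)) x := by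
  have hO := mmr_om_isOpen n
  have hum := mmr_ext_meas h
  have hub := mmr_ext_bdd h
  have hw := mmr_vw hε h
  have hae : mmrLim (mmrExt n u) =ᵐ[volume] mmrExt n u := mmr_lim_ae (mmr_locInt hum hub)
  have hfb : ∀ x ∈ mmOm n, ∃ r > 0, ∃ K, ∀ᵐ z, z ∈ ball x r → |mmrRhs n ε (mmrExt n u) z| ≤ K := by
    intro x hx
    have hx0 : 0 < ‖x‖ := norm_pos_iff.2 (mmr_mem_om.1 hx).2
    refine ⟨‖x‖ / 2, by positivity, (ε ^ 2)⁻¹ * (((‖x‖ / 2) ^ 2)⁻¹ * 2), ?_⟩
    filter_upwards [hub] with z hz hzb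
    refine mmr_rhs_abs_le (by positivity) hz ?_
    have a1 : ‖z - x‖ < ‖x‖ / 2 := by simpa [dist_eq_norm] using hzb
    have a2 : ‖x‖ ≤ ‖z‖ + ‖z - x‖ := by
      have := norm_sub_le z (z - x)
      simpa using this
    linarith
  obtain ⟨h1, h2, h3⟩ := mmr_c1a hO hum hub (mmr_rhs_meas ε hum) hfb hw
  have hwk : ∀ φ, IsTest (mmOm n) φ → ∫ x, ⟪∇ (mmrLim (mmrExt n u)) x, ∇ φ x⟫
      = - ∫ x, mmrRhs n ε (mmrLim (mmrExt n u)) x * φ x := by
    intro φ hφ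
    rw [mmr_weak hO h1 hae hw hφ]
    congr 1
    refine integral_congr_ae ?_
    filter_upwards [hae] with x hx
    unfold mmrRhs
    rw [hx]
  obtain ⟨h4, h5⟩ := mmr_smooth_aux h1 h2 hwk
  exact ⟨h4, h3, h5⟩

/-! ### homogeneity -/

theorem mmr_smul_mem_om {x : E n} (hx : x ∈ mmOm n) {t : ℝ} (ht : 0 < t) (ht1 : t ≤ 1) : t • x ∈ mmOm n := by
  obtain ⟨h1, h2⟩ := mmr_mem_om.1 hx
  refine mmr_mem_om.2 ⟨?_, smul_ne_zero ht.ne' h2⟩
  rw [norm_smul, Real.norm_of_nonneg ht.le]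
  calc t * ‖x‖ ≤ 1 * ‖x‖ := mul_le_mul_of_nonneg_right ht1 (norm_nonneg x)
    _ < 1 := by rw [one_mul]; exact h1

theorem mmr_hom_le {ε : ℝ} {u : E n → ℝ} {G : E n → E n} (h : MmWeak n ε u G) {V : E n → ℝ}
    (hV : ContinuousOn V (mmOm n)) (hae : V =ᵐ[volume] mmrExt n u) {t : ℝ} (ht : 0 < t) (ht1 : t ≤ 1) {x : E n}
    (hx : x ∈ mmOm n) : V (t • x) = V x := by
  have hO := mmr_om_isOpen n
  have hsub : mmOm n ⊆ ball (0 : E n) 1 := fun y hy => hy.1
  have h1 : ∀ᵐ y : E n, V (t • y) = mmrExt n u (t • y) := by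
    have := mmr_ae_comp (s := -t) (neg_ne_zero.2 ht.ne') (0 : E n) hae
    filter_upwards [this] with y hy
    simpa using hy
  have h2 : ∀ᵐ y : E n, y ∈ ball (0 : E n) 1 → u (t • y) = u y :=
    (ae_restrict_iff' measurableSet_ball).1 (h.hom t ht ht1)
  have h3 : (fun y => V (t • y)) =ᵐ[volume.restrict (mmOm n)] V := by
    refine (ae_restrict_iff' hO.measurableSet).2 ?_
    filter_upwards [h1, h2, hae] with y a1 a2 a3 hy
    rw [a1, a3]
    unfold mmrExt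
    rw [indicator_of_mem (hsub hy), indicator_of_mem (hsub (mmr_smul_mem_om hy ht ht1))]
    exact a2 (hsub hy)
  have h4 : ContinuousOn (fun y => V (t • y)) (mmOm n) :=
    hV.comp (continuous_const_smul t).continuousOn fun y hy => mmr_smul_mem_om hy ht ht1
  exact Measure.eqOn_open_of_ae_eq h3 hO h4 hV hx

theorem mmr_hom {ε : ℝ} {u : E n → ℝ} {G : E n → E n} (h : MmWeak n ε u G) {V : E n → ℝ}
    (hV : ContinuousOn V (mmOm n)) (hae : V =ᵐ[volume] mmrExt n u) {t : ℝ} (ht : 0 < t) {x : E n}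
    (hx : x ∈ mmOm n) (htx : t • x ∈ mmOm n) : V (t • x) = V x := by
  rcases le_total t 1 with h1 | h1
  · exact mmr_hom_le h hV hae ht h1 hx
  · have := mmr_hom_le h hV hae (inv_pos.2 ht) (inv_le_one_of_one_le₀ h1) htx
    rw [smul_smul, inv_mul_cancel₀ ht.ne', one_smul] at this
    exact this.symm

/-! ### the homogeneous extension -/

open Classical in
/-- the `0`-homogeneous extension of the values on the sphere of radius `1/2`. -/
noncomputable def mmrHom (n : ℕ) (V : E n → ℝ) (x : E n) : ℝ := if x = 0 then 0 else V ((2 * ‖x‖)⁻¹ • x)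

theorem mmr_half_mem {x : E n} (hx : x ≠ 0) : (2 * ‖x‖)⁻¹ • x ∈ mmOm n := by
  have h0 : ‖x‖ ≠ 0 := norm_ne_zero_iff.2 hx
  refine mmr_mem_om.2 ⟨?_, smul_ne_zero (by positivity) hx⟩
  rw [norm_smul, norm_inv, norm_mul, norm_norm, Real.norm_of_nonneg (by norm_num : (0 : ℝ) ≤ 2)]
  have : (2 * ‖x‖)⁻¹ * ‖x‖ = 1 / 2 := by field_simp
  rw [this]
  norm_num

theorem mmrHom_of_ne (V : E n → ℝ) {x : E n} (hx : x ≠ 0) : mmrHom n V x = V ((2 * ‖x‖)⁻¹ • x) := by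
  unfold mmrHom
  rw [if_neg hx]

theorem mmrHom_smul (V : E n → ℝ) {t : ℝ} (ht : 0 < t) (x : E n) : mmrHom n V (t • x) = mmrHom n V x := by
  by_cases hx : x = 0
  · rw [hx, smul_zero]
  · rw [mmrHom_of_ne V hx, mmrHom_of_ne V (smul_ne_zero ht.ne' hx), norm_smul, Real.norm_of_nonneg ht.le, smul_smul]
    congr 2
    have h0 : ‖x‖ ≠ 0 := norm_ne_zero_iff.2 hx
    field_simp

theorem mmrHom_abs_le {V : E n → ℝ} (hV : ∀ x ∈ mmOm n, |V x| ≤ 1) (x : E n) : |mmrHom n V x| ≤ 1 := by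
  by_cases hx : x = 0
  · unfold mmrHom
    rw [if_pos hx]
    simp
  · rw [mmrHom_of_ne V hx]
    exact hV _ (mmr_half_mem hx)

theorem mmrHom_contDiffOn {V : E n → ℝ} (hV : ContDiffOn ℝ ∞ V (mmOm n)) : ContDiffOn ℝ ∞ (mmrHom n V) {0}ᶜ := by
  have h1 : ContDiffOn ℝ ∞ (fun x : E n => (2 * ‖x‖)⁻¹ • x) {0}ᶜ := by
    have h2 : ContDiffOn ℝ ∞ (fun x : E n => ‖x‖) {0}ᶜ := fun x hx => (contDiffAt_norm ℝ hx).contDiffWithinAt
    have h3 : ContDiffOn ℝ ∞ (fun x : E n => 2 * ‖x‖) {0}ᶜ := contDiffOn_const.mul h2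
    refine ContDiffOn.smul (h3.inv ?_) contDiffOn_id
    intro x hx
    have h0 : ‖x‖ ≠ 0 := norm_ne_zero_iff.2 hx
    positivity
  refine (hV.comp h1 fun x hx => mmr_half_mem hx).congr fun x hx => ?_
  exact mmrHom_of_ne V hx

theorem mmrHom_eq {V : E n → ℝ} (hh : ∀ t : ℝ, 0 < t → ∀ x ∈ mmOm n, t • x ∈ mmOm n → V (t • x) = V x) {x : E n}
    (hx : x ∈ mmOm n) : mmrHom n V x = V x := by
  have hx0 := (mmr_mem_om.1 hx).2
  have h0 : 0 < ‖x‖ := norm_pos_iff.2 hx0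
  rw [mmrHom_of_ne V hx0]
  exact hh _ (by positivity) x hx (mmr_half_mem hx0)

theorem mmr_tr_smul (c : ℝ) (H : E n →L[ℝ] E n →L[ℝ] ℝ) :
    ellTr (c • ContinuousLinearMap.id ℝ (E n)) H = c * ellTr (ContinuousLinearMap.id ℝ (E n)) H := by
  unfold ellTr
  rw [Finset.mul_sum]
  refine Finset.sum_congr rfl fun i _ => ?_
  simp

theorem mmrHom_lap {ε : ℝ} (hε : 0 < ε) {V : E n → ℝ} (hV : ContDiffOn ℝ ∞ V (mmOm n))
    (hh : ∀ t : ℝ, 0 < t → ∀ x ∈ mmOm n, t • x ∈ mmOm n → V (t • x) = V x)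
    (heq : ∀ x ∈ mmOm n, ellLap V x = mmrRhs n ε V x) {x : E n} (hx : x ≠ 0) :
    ε ^ 2 * ‖x‖ ^ 2 * flLap (mmrHom n V) x = acW' (mmrHom n V x) := by
  have h0 : 0 < ‖x‖ := norm_pos_iff.2 hx
  obtain ⟨lam, hlamdef⟩ : ∃ lam : ℝ, lam = (2 * ‖x‖)⁻¹ := ⟨_, rfl⟩
  have hlam : 0 < lam := by rw [hlamdef]; positivity
  obtain ⟨L, hL⟩ : ∃ L : E n →L[ℝ] E n, L = lam • ContinuousLinearMap.id ℝ (E n) := ⟨_, rfl⟩
  have hLa : ∀ y, (0 : E n) + L y = lam • y := fun y => by rw [hL]; simp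
  have hLx : (0 : E n) + L x ∈ mmOm n := by
    rw [hLa, hlamdef]
    exact mmr_half_mem hx
  have hev : mmrHom n V =ᶠ[𝓝 x] fun y => V (0 + L y) := by
    have hc : Continuous fun y : E n => (0 : E n) + L y := continuous_const.add L.continuous
    have : {y | (0 : E n) + L y ∈ mmOm n} ∈ 𝓝 x := ((mmr_om_isOpen n).preimage hc).mem_nhds hLx
    filter_upwards [this] with y hy
    have hy' : (0 : E n) + L y ∈ mmOm n := hy
    rw [hLa] at hy' ⊢
    rw [← mmrHom_smul V hlam y, mmrHom_eq hh hy']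
  rw [mmr_flLap_eq isOpen_compl_singleton ((mmrHom_contDiffOn hV).of_le (by norm_cast)) hx]
  have e1 : ellLap (mmrHom n V) x = ellLap (fun y => V (0 + L y)) x := by
    unfold ellLap ellD2
    rw [hev.fderiv.fderiv_eq]
  have e2 : L ∘L ContinuousLinearMap.adjoint L = (lam ^ 2) • ContinuousLinearMap.id ℝ (E n) := by
    rw [hL, map_smulₛₗ, ContinuousLinearMap.adjoint_id]
    ext v
    simp [smul_smul, sq]
  have e3 : ellTr (ContinuousLinearMap.id ℝ (E n)) (ellD2 V (0 + L x)) = mmrRhs n ε V (0 + L x) := heq _ hLx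
  rw [e1, ell_lap_comp_affine (mmr_om_isOpen n) (hV.of_le (by norm_cast)) L hLx, e2, mmr_tr_smul, e3, hLa,
    mmrHom_of_ne V hx, ← hlamdef]
  unfold mmrRhs
  rw [norm_smul, Real.norm_of_nonneg hlam.le, hlamdef]
  field_simp

/-! ### the gradient -/

theorem mmr_G_locInt {ε : ℝ} {u : E n → ℝ} {G : E n → E n} (h : MmWeak n ε u G) :
    LocallyIntegrableOn G (mmOm n) (mmNu n) := by
  refine (locallyIntegrableOn_iff (mmr_om_isOpen n).isLocallyClosed).2 fun K hK hKc => ?_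
  have h0 : (0 : E n) ∉ K := fun h => (hK h).2 rfl
  obtain ⟨c, hc, hb⟩ := Metric.mem_nhds_iff.1 (hKc.isClosed.isOpen_compl.mem_nhds h0)
  have hcK : ∀ z ∈ K, c ≤ ‖z‖ := by
    intro z hz
    by_contra hlt
    exact hb (by simpa using not_le.1 hlt) hz
  have h1 : Integrable (fun x => ‖x‖ • G x) ((mmNu n).restrict K) :=
    (h.memG.integrable (by norm_num)).integrableOn
  have hm : AEStronglyMeasurable G ((mmNu n).restrict K) := by
    refine ((measurable_norm.inv.aestronglyMeasurable).smul h1.aestronglyMeasurable).congr ?_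
    refine ae_restrict_of_forall_mem hKc.measurableSet fun z hz => ?_
    have : ‖z‖ ≠ 0 := (hc.trans_le (hcK z hz)).ne'
    show ‖z‖⁻¹ • ‖z‖ • G z = G z
    rw [smul_smul, inv_mul_cancel₀ this, one_smul]
  refine (h1.smul c⁻¹).mono hm ?_
  refine ae_restrict_of_forall_mem hKc.measurableSet fun z hz => ?_
  show ‖G z‖ ≤ ‖c⁻¹ • ‖z‖ • G z‖
  rw [norm_smul, norm_smul, norm_norm, norm_inv, Real.norm_of_nonneg hc.le, ← mul_assoc]
  have : 1 ≤ c⁻¹ * ‖z‖ := by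
    rw [inv_mul_eq_div, le_div_iff₀ hc, one_mul]
    exact hcK z hz
  calc ‖G z‖ = 1 * ‖G z‖ := (one_mul _).symm
    _ ≤ _ := mul_le_mul_of_nonneg_right this (norm_nonneg _)

theorem mmr_grad_key {ε : ℝ} {u : E n → ℝ} {G : E n → E n} (h : MmWeak n ε u G) {U : E n → ℝ}
    (hU : ContDiffOn ℝ 1 U (mmOm n)) (hae : U =ᵐ[mmNu n] u) {T : E n → E n} (hT : GmtTest (mmOm n) T) :
    ∫ x, ⟪G x - gradient U x, T x⟫ ∂(mmNu n) = 0 := by
  have hO := mmr_om_isOpen n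
  have i1 : Integrable (fun x => ⟪G x, T x⟫) (mmNu n) := mmr_G_integrable h hT.c1.continuous hT.cpt hT.sub
  obtain ⟨c1, c2⟩ := gmt_fderiv_apply_test hO hU hT
  have e0 : ∀ x, ⟪gradient U x, T x⟫ = fderiv ℝ U x (T x) := fun x => (ell_dd_eq_inner U x (T x)).symm
  have i2 : Integrable (fun x => ⟪gradient U x, T x⟫) (mmNu n) := by
    simp_rw [e0]
    exact (c1.integrable_of_hasCompactSupport c2).integrableOn
  simp_rw [inner_sub_left]
  rw [integral_sub i1 i2]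
  have e1 : ∫ x, u x * gmtDiv T x ∂(mmNu n) = ∫ x, U x * gmtDiv T x := by
    rw [← mmr_integral_nu (T := fun x => U x * gmtDiv T x) (fun x hx => by
      rw [gmtDiv_eq_zero_of_notMem (fun hh => hx (hT.sub hh).1), mul_zero])]
    refine integral_congr_ae ?_
    filter_upwards [hae] with x hx
    rw [hx]
  have e2 : ∫ x, ⟪gradient U x, T x⟫ ∂(mmNu n) = ∫ x, fderiv ℝ U x (T x) := by
    simp_rw [e0]
    exact mmr_integral_nu (T := fun x => fderiv ℝ U x (T x)) (fun x hx => by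
      rw [mmr_supp_ball hT.sub hx, map_zero])
  have e3 := h.grad T hT
  rw [e1, integral_mul_gmtDiv hO hU hT] at e3
  rw [e2]
  linarith

theorem mmr_ae_mem_om (hn : 1 ≤ n) : ∀ᵐ x ∂(mmNu n), x ∈ mmOm n := by
  have : Nonempty (Fin n) := ⟨⟨0, by omega⟩⟩
  have : Nontrivial (E n) := inferInstance
  have h1 : ∀ᵐ x ∂(mmNu n), x ∈ ball (0 : E n) 1 := ae_restrict_mem measurableSet_ball
  have h2 : ∀ᵐ x ∂(mmNu n), x ≠ 0 := by
    refine ae_restrict_of_ae ?_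
    exact compl_mem_ae_iff.2 (measure_singleton (0 : E n))
  filter_upwards [h1, h2] with x a1 a2
  exact ⟨a1, a2⟩

theorem mmr_grad {ε : ℝ} (hn : 1 ≤ n) {u : E n → ℝ} {G : E n → E n} (h : MmWeak n ε u G) {U : E n → ℝ}
    (hU : ContDiffOn ℝ 1 U (mmOm n)) (hae : U =ᵐ[mmNu n] u) : (fun x => gradient U x) =ᵐ[mmNu n] G := by
  have hO := mmr_om_isOpen n
  have hg : ContinuousOn (gradient U) (mmOm n) := by
    have := hU.continuousOn_fderiv_of_isOpen hO le_rfl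
    exact (sharpL : (E n →L[ℝ] ℝ) →L[ℝ] E n).continuous.comp_continuousOn this
  have hl : LocallyIntegrableOn (fun x => G x - gradient U x) (mmOm n) (mmNu n) :=
    (mmr_G_locInt h).sub (hg.locallyIntegrableOn hO.measurableSet)
  have hz := hO.ae_eq_zero_of_integral_contDiff_smul_eq_zero hl (fun g hg1 hg2 hg3 => by
    by_cases hi : Integrable (fun x => g x • (G x - gradient U x)) (mmNu n)
    · refine ext_inner_left ℝ fun e => ?_
      rw [inner_zero_right, ← integral_inner hi]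
      have hT : GmtTest (mmOm n) (fun x => g x • e) :=
        ⟨(hg1.of_le (by norm_cast)).smul contDiff_const, hg2.smul_right,
          (tsupport_smul_subset_left g _).trans hg3⟩
      rw [← mmr_grad_key h hU hae hT]
      refine integral_congr_ae (Eventually.of_forall fun x => ?_)
      show ⟪e, g x • (G x - gradient U x)⟫ = ⟪G x - gradient U x, g x • e⟫
      rw [inner_smul_right, inner_smul_right, real_inner_comm]
    · exact integral_undef hi)
  filter_upwards [hz, mmr_ae_mem_om hn] with x a1 a2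
  exact (sub_eq_zero.1 (a1 a2)).symm

/-! ### the theorem -/

/-- **regularity**: bounded, a.e. homogeneous weak solutions on the punctured ball are smooth solutions on the sphere. -/
theorem mmr_reg {ε : ℝ} (hn : 1 ≤ n) (hε : 0 < ε) {u : E n → ℝ} {G : E n → E n} (h : MmWeak n ε u G) :
    ∃ U, AcSol n ε U ∧ U =ᵐ[mmNu n] u ∧ (fun x => gradient U x) =ᵐ[mmNu n] G := by
  obtain ⟨h1, h2, h3⟩ := mmr_smooth hε h
  have hae : mmrLim (mmrExt n u) =ᵐ[volume] mmrExt n u :=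
    mmr_lim_ae (mmr_locInt (mmr_ext_meas h) (mmr_ext_bdd h))
  have hh : ∀ t : ℝ, 0 < t → ∀ x ∈ mmOm n, t • x ∈ mmOm n →
      mmrLim (mmrExt n u) (t • x) = mmrLim (mmrExt n u) x :=
    fun t ht x hx htx => mmr_hom h h1.continuousOn hae ht hx htx
  have hs := mmrHom_contDiffOn h1
  have hUu : mmrHom n (mmrLim (mmrExt n u)) =ᵐ[mmNu n] u := by
    filter_upwards [mmr_ae_mem_om hn, ae_restrict_of_ae hae] with x a1 a2
    rw [mmrHom_eq hh a1, a2]
    unfold mmrExt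
    rw [indicator_of_mem a1.1]
  refine ⟨mmrHom n (mmrLim (mmrExt n u)), ⟨hs, fun t ht x => mmrHom_smul _ ht x, mmrHom_abs_le h2,
    fun x hx => mmrHom_lap hε h1 hh h3 hx⟩, hUu, ?_⟩
  refine mmr_grad hn h ((hs.of_le (by norm_cast)).mono fun x hx => ?_) hUu
  exact (mmr_mem_om.1 hx).2

end Claimed.Agent.R323
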