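import Claimed.Agent.R323.Mm.Hil
import Claimed.Agent.R323.Mm.RegB

/-!
# Row 323, block B5c: REGULARITY: EXIT CONTRACT.   Owner helper240 (`Mm/Reg*.lean`, `mmr_reg`, `mmr_grad`); this file = the adapter to `MmWeak` (helper120).

Very weak form: `T = gradient φ` in `MmWeak.grad` (`flLap φ = gmtDiv (gradient φ)`): `ε² ∫ u flLap φ dν = - ε² ∫ ⟪G, ∇φ⟫ dν = ∫ ‖x‖⁻² W'(u) φ dν`.
-/

set_option autoImplicit false
open scoped ContDiff ENNReal NNReal RealInnerProductSpace Topology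
open MeasureTheory Metric Set Filter

namespace Claimed.Agent.R323

open Claimed.Agent.Gmt

theorem mm_reg {n : ℕ} (hn : 3 ≤ n) {ε : ℝ} (hε : 0 < ε) {u : E n → ℝ} {G : E n → E n} (h : MmWeak n ε u G) :
    ∃ U, AcSol n ε U ∧ U =ᵐ[mmNu n] u ∧ (fun x => gradient U x) =ᵐ[mmNu n] G :=
  mmr_reg (by omega) hε h

end Claimed.Agent.R323
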