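import Claimed.Agent.R323.Defs
import Claimed.Agent.R323.Mm.En
import Claimed.Agent.R323.Mm.Fam
import Claimed.Agent.R323.Mm.Gap
import Claimed.Agent.R323.Mm.Crit
import Claimed.Agent.R323.Mm.RegExit
import Claimed.Agent.R323.Mm.Lsc

/-!
# Row 323, block B (Hilbert space min-max + gap): CONTRACT, ASSEMBLED (helper120) from
`mm_step`, `mm_ps`, `mm_acE_eq` (Mm/En), `mm_crit` (Mm/Crit), `mm_reg` (Mm/RegExit), `mm_fam` (Mm/Fam), `mm_gap` (Mm/Gap), `mma_*` (Mm/Abs).
-/

set_option autoImplicit false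
open scoped ContDiff ENNReal NNReal RealInnerProductSpace Topology
open MeasureTheory Metric Set Filter

namespace Claimed.Agent.R323

open Claimed.Agent.Gmt

theorem acC_pos : 0 < acC := by
  unfold acC
  positivity

/-- `mmGr` of the regular representative is the second component -/
theorem mm_snd_of_gd {n : ℕ} {ε : ℝ} (hε : 0 < ε) (hn : 1 ≤ n) {U : E n → ℝ} {z : MmAmb n}
    (h : (fun x => gradient U x) =ᵐ[mmNu n] mmGd n ε z) : (z.snd : E n → E n) =ᵐ[mmNu n] mmGr n ε U := by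
  have h0 : ∀ᵐ x ∂(mmNu n), x ≠ 0 := by
    haveI : Nontrivial (E n) := by
      haveI : Nonempty (Fin n) := ⟨⟨0, hn⟩⟩
      infer_instance
    apply ae_restrict_of_ae
    have : (volume : Measure (E n)) {(0 : E n)} = 0 := measure_singleton 0
    exact compl_mem_ae_iff.2 this
  filter_upwards [h, h0] with x hx hx0
  unfold mmGr
  rw [hx]
  unfold mmGd
  rw [smul_smul]
  have h1 : ‖x‖ ≠ 0 := norm_ne_zero_iff.2 hx0
  have h2 : Real.sqrt 2 ≠ 0 := by positivity
  have : ε / Real.sqrt 2 * ‖x‖ * (Real.sqrt 2 / (ε * ‖x‖)) = 1 := by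
    field_simp
  rw [this, one_smul]

theorem mm_width_spec (m : ℕ) (hm : 2 ≤ m) : WidthSpec m (mmW m) where
  sol := by
    intro ε hε
    obtain ⟨z, hz, hE⟩ := mma_critical (mm_step (n := m + 2) hε) (fun z => mmEn_nonneg hε _) (mm_ps (by omega) hε)
      (acQ_nonempty m) (mm_levels_nonempty m ε)
    obtain ⟨U, hU, h1, h2⟩ := mm_reg (by omega) hε (mm_crit (by omega) hε z hz)
    refine ⟨U, hU, ?_⟩
    rw [← mm_acE_eq hε hU.bdd h1.symm (mm_snd_of_gd hε (by omega) h2)]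
    unfold mmW
    rw [← hE]
  gap := by
    obtain ⟨g, hg, h⟩ := mm_gap m hm
    refine ⟨g, hg, ?_⟩
    filter_upwards [h, self_mem_nhdsWithin] with ε hε hε0
    have hε0 : 0 < ε := hε0
    have hc : 0 < ((m + 2 : ℕ) : ℝ) / acC := div_pos (by positivity) acC_pos
    unfold mmW
    rw [← div_le_iff₀' hc]
    refine mma_le_width (mm_levels_nonempty m ε) fun f hf => ?_
    obtain ⟨q, hq, hle⟩ := hε f hf
    exact ⟨q, hq, by rw [div_le_iff₀' hc]; exact hle⟩
  le := fun ε hε h hh c hc => mm_le m hε (fun z => mmEn_nonneg hε _) hh hc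

theorem mm_width (m : ℕ) (hm : 2 ≤ m) : ∃ w : ℝ → ℝ, WidthSpec m w := ⟨mmW m, mm_width_spec m hm⟩

end Claimed.Agent.R323
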