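import Claimed.Agent.Lib.Ell.Api

/-!
# Row 323, block B5c (regularity), part A: bounded very weak solutions of `Δ u = f`, `f` locally bounded, are `C^{1,1/2}`.   helper240.  Prefix `mmr`.

General finite dimensional inner product space `W`; only `Lib/Ell` is used.

* `MmrVW U u f` : `∫ u Δφ = ∫ f φ` for all tests of `U`;
* `mmr_mol_eq`  : the mollified equation is classical;
* `mmr_ae_tendsto` : `u_s → u` a.e. (Lebesgue points);
* `mmrLim u`    : the precise representative `lim_k u_{1/(k+1)}`.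
-/

set_option autoImplicit false
set_option linter.unusedSectionVars false

namespace Claimed.Agent.R323

open Claimed.Agent.Lib.Ell MeasureTheory Metric Filter Set
open scoped ContDiff RealInnerProductSpace Gradient Topology

universe u

variable {W : Type u} [NormedAddCommGroup W] [InnerProductSpace ℝ W] [FiniteDimensional ℝ W]
  [MeasurableSpace W] [BorelSpace W]

/-- very weak solutions of `Δ u = f` on `U`. -/
def MmrVW (U : Set W) (u f : W → ℝ) : Prop :=
  ∀ φ : W → ℝ, IsTest U φ → ∫ x, u x * ellLap φ x = ∫ x, f x * φ x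

theorem MmrVW.mono {U V : Set W} {u f : W → ℝ} (h : MmrVW U u f) (hVU : V ⊆ U) : MmrVW V u f :=
  fun φ hφ => h φ ⟨hφ.1, hφ.2.1, hφ.2.2.trans hVU⟩

/-- only the values of `f` on `U` matter. -/
theorem MmrVW.congr_right {U : Set W} {u f f' : W → ℝ} (h : MmrVW U u f) (hf : ∀ x ∈ U, f x = f' x) :
    MmrVW U u f' := by
  intro φ hφ
  rw [h φ hφ]
  refine integral_congr_ae (Eventually.of_forall fun x => ?_)
  by_cases hx : x ∈ tsupport φ
  · simp only [hf x (hφ.2.2 hx)]
  · simp only [image_eq_zero_of_notMem_tsupport hx, mul_zero]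

theorem mmr_locInt {u : W → ℝ} {M : ℝ} (hm : AEStronglyMeasurable u volume) (hb : ∀ᵐ x, |u x| ≤ M) :
    LocallyIntegrable u :=
  (memLp_top_of_bound hm M (by simpa using hb)).locallyIntegrable le_top

/-- the affine maps `y ↦ x - s y` preserve null sets. -/
theorem mmr_ae_comp {s : ℝ} (hs : s ≠ 0) (x : W) {p : W → Prop} (h : ∀ᵐ z, p z) : ∀ᵐ y : W, p (x - s • y) := by
  have h1 : Measure.QuasiMeasurePreserving (fun y : W => s • y) volume volume := by
    refine ⟨measurable_const_smul s, ?_⟩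
    rw [Measure.map_addHaar_smul volume hs]
    exact Measure.smul_absolutelyContinuous
  have h2 : Measure.QuasiMeasurePreserving (fun z : W => x - z) volume volume :=
    ((volume : Measure W).measurePreserving_sub_left x).quasiMeasurePreserving
  exact (h2.comp h1).ae h

theorem mmr_mol_integrable {κ G : W → ℝ} (hκ : IsKer κ) (hG : LocallyIntegrable G) {s : ℝ} (hs : 0 < s) (x : W) :
    Integrable (fun y => κ y * G (x - s • y)) := by
  have h1 : Integrable (fun z => κ (s⁻¹ • (x - z)) * G z) := by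
    have hc : Continuous fun z => κ (s⁻¹ • (x - z)) := hκ.continuous.comp (by fun_prop)
    have hcs : HasCompactSupport fun z => κ (s⁻¹ • (x - z)) := (ell_ker_isTest (U := univ) hκ hs (subset_univ _)).2.1
    exact hG.integrable_smul_left_of_hasCompactSupport hc hcs
  have h2 := (h1.comp_sub_left x).comp_smul hs.ne'
  refine h2.congr (Eventually.of_forall fun y => ?_)
  simp only [ell_cv_arg hs]

theorem mmr_mol_abs_le {κ u : W → ℝ} {M : ℝ} (hκ : IsKer κ) (hb : ∀ᵐ x, |u x| ≤ M) {s : ℝ} (hs : 0 < s) (x : W) :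
    |ellMol κ s u x| ≤ kerL1 κ * M := by
  unfold ellMol kerL1
  rw [← integral_mul_const]
  refine (abs_integral_le_integral_abs).trans ?_
  by_cases hi : Integrable fun y => |κ y * u (x - s • y)|
  · refine integral_mono_ae hi (hκ.integrable.abs.mul_const M) ?_
    filter_upwards [mmr_ae_comp hs.ne' x hb] with y hy
    rw [abs_mul]
    exact mul_le_mul_of_nonneg_left hy (abs_nonneg _)
  · rw [integral_undef hi]
    have hM : 0 ≤ M := by
      obtain ⟨z, hz⟩ := hb.exists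
      exact (abs_nonneg _).trans hz
    exact integral_nonneg fun y => mul_nonneg (abs_nonneg _) hM

omit [FiniteDimensional ℝ W] [MeasurableSpace W] [BorelSpace W] in
theorem mmr_dd_const_mul (c : ℝ) {g : W → ℝ} {x : W} (hd : DifferentiableAt ℝ g x) (h : W) :
    dd h (fun x => c * g x) x = c * dd h g x := by
  unfold dd
  rw [fderiv_const_mul hd]
  simp

/-- both derivatives fall on the kernel. -/
theorem mmr_molg_dd2 {κ G : W → ℝ} (hκ : IsKer κ) (hG : LocallyIntegrable G) {s : ℝ} (hs : 0 < s) (h k x : W) :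
    dd h (dd k (ellMol κ s G)) x = s⁻¹ ^ 2 * ellMol (dd h (dd k κ)) s G x := by
  have h1 : dd k (ellMol κ s G) = fun x => s⁻¹ * ellMol (dd k κ) s G x := funext fun x => ell_molg_dd hκ hG hs k x
  have hd : DifferentiableAt ℝ (ellMol (dd k κ) s G) x :=
    ((ell_molg_contDiff (hκ.ker_dd k) hG hs).differentiable (by simp)) x
  rw [h1, mmr_dd_const_mul _ hd, ell_molg_dd (hκ.ker_dd k) hG hs h x]
  ring

theorem mmr_molg_lap {κ G : W → ℝ} (hκ : IsKer κ) (hG : LocallyIntegrable G) {s : ℝ} (hs : 0 < s) (x : W) :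
    ellLap (ellMol κ s G) x = s⁻¹ ^ 2 * ∑ i, ellMol (dd (stdOrthonormalBasis ℝ W i) (dd (stdOrthonormalBasis ℝ W i) κ)) s G x := by
  have hc : ContDiffOn ℝ 2 (ellMol κ s G) univ := ((ell_molg_contDiff hκ hG hs).of_le (by norm_cast)).contDiffOn
  rw [ell_lap_eq_sum_dd isOpen_univ hc (mem_univ x), Finset.mul_sum]
  exact Finset.sum_congr rfl fun i _ => mmr_molg_dd2 hκ hG hs _ _ x

/-- the Laplacian of a rescaled reflected kernel. -/
theorem mmr_ker_lap {κ : W → ℝ} (hκ : IsKer κ) (s : ℝ) (x z : W) :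
    ellLap (fun z => κ (s⁻¹ • (x - z))) z
      = s⁻¹ ^ 2 * ∑ i, dd (stdOrthonormalBasis ℝ W i) (dd (stdOrthonormalBasis ℝ W i) κ) (s⁻¹ • (x - z)) := by
  have key : ∀ (κ' : W → ℝ), IsKer κ' → ∀ (h z : W),
      dd h (fun z => κ' (s⁻¹ • (x - z))) z = -(s⁻¹ * dd h κ' (s⁻¹ • (x - z))) := by
    intro κ' hκ' h z
    have h1 : HasFDerivAt (fun z : W => s⁻¹ • (x - z)) (s⁻¹ • (-(ContinuousLinearMap.id ℝ W))) z :=
      ((hasFDerivAt_id z).const_sub x).const_smul s⁻¹
    have h2 := (hκ'.differentiable (s⁻¹ • (x - z))).hasFDerivAt.comp z h1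
    unfold dd
    have h3 : (fun z => κ' (s⁻¹ • (x - z))) = κ' ∘ fun z : W => s⁻¹ • (x - z) := rfl
    rw [h3, h2.fderiv]
    simp
  have hc : ContDiffOn ℝ 2 (fun z => κ (s⁻¹ • (x - z))) univ := by
    have : ContDiff ℝ ∞ (fun z => κ (s⁻¹ • (x - z))) := hκ.1.comp (by fun_prop)
    exact (this.of_le (by norm_cast)).contDiffOn
  rw [ell_lap_eq_sum_dd isOpen_univ hc (mem_univ z), Finset.mul_sum]
  refine Finset.sum_congr rfl fun i _ => ?_
  have h1 : dd (stdOrthonormalBasis ℝ W i) (fun z => κ (s⁻¹ • (x - z)))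
      = fun z => (-s⁻¹) * (dd (stdOrthonormalBasis ℝ W i) κ) (s⁻¹ • (x - z)) := by
    funext z
    rw [key κ hκ]
    ring
  rw [h1]
  have hd : DifferentiableAt ℝ (fun z => (dd (stdOrthonormalBasis ℝ W i) κ) (s⁻¹ • (x - z))) z := by
    have : Differentiable ℝ (fun z => (dd (stdOrthonormalBasis ℝ W i) κ) (s⁻¹ • (x - z))) :=
      (hκ.ker_dd _).differentiable.comp (by fun_prop)
    exact this z
  rw [mmr_dd_const_mul _ hd, key _ (hκ.ker_dd (stdOrthonormalBasis ℝ W i)) (stdOrthonormalBasis ℝ W i) z]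
  ring

/-- **the mollified equation is classical.** -/
theorem mmr_mol_eq {U : Set W} {u f : W → ℝ} (hw : MmrVW U u f) (hu : LocallyIntegrable u) {κ : W → ℝ} (hκ : IsKer κ)
    {s : ℝ} (hs : 0 < s) {x : W} (hx : closedBall x s ⊆ U) : ellLap (ellMol κ s u) x = ellMol κ s f x := by
  have h1 := hw _ (ell_ker_isTest hκ hs hx)
  have h2 : ∫ z, f z * κ (s⁻¹ • (x - z)) = s ^ (Module.finrank ℝ W) * ellMol κ s f x := by
    rw [← ell_mol_change_var κ f x hs]
    exact integral_congr_ae (Eventually.of_forall fun z => mul_comm _ _)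
  have h3 : ∫ z, u z * ellLap (fun z => κ (s⁻¹ • (x - z))) z
      = s ^ (Module.finrank ℝ W) * ellLap (ellMol κ s u) x := by
    rw [mmr_molg_lap hκ hu hs]
    simp only [mmr_ker_lap hκ]
    have hi : ∀ i ∈ (Finset.univ : Finset (Fin (Module.finrank ℝ W))), Integrable fun z =>
        dd (stdOrthonormalBasis ℝ W i) (dd (stdOrthonormalBasis ℝ W i) κ) (s⁻¹ • (x - z)) * u z := by
      intro i _
      have hk := (hκ.ker_dd (stdOrthonormalBasis ℝ W i)).ker_dd (stdOrthonormalBasis ℝ W i)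
      have hc : Continuous fun z => dd (stdOrthonormalBasis ℝ W i) (dd (stdOrthonormalBasis ℝ W i) κ) (s⁻¹ • (x - z)) :=
        hk.continuous.comp (by fun_prop)
      exact hu.integrable_smul_left_of_hasCompactSupport hc (ell_ker_isTest (U := univ) hk hs (subset_univ _)).2.1
    have h4 : ∀ z, u z * (s⁻¹ ^ 2 * ∑ i, dd (stdOrthonormalBasis ℝ W i) (dd (stdOrthonormalBasis ℝ W i) κ) (s⁻¹ • (x - z)))
        = s⁻¹ ^ 2 * ∑ i, dd (stdOrthonormalBasis ℝ W i) (dd (stdOrthonormalBasis ℝ W i) κ) (s⁻¹ • (x - z)) * u z := by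
      intro z
      rw [← Finset.sum_mul]
      ring
    simp only [h4]
    rw [integral_const_mul, integral_finsetSum _ hi]
    simp only [ell_mol_change_var _ u x hs]
    rw [← Finset.mul_sum]
    ring
  rw [h2, h3] at h1
  exact mul_left_cancel₀ (pow_ne_zero _ hs.ne') h1

/-! ### convergence of the mollifications at Lebesgue points -/

theorem mmr_mol_sub_le {u : W → ℝ} (hu : LocallyIntegrable u) {C : ℝ} (hC : ∀ y : W, ‖(ellRho : W → ℝ) y‖ ≤ C) {s : ℝ}
    (hs : 0 < s) (x : W) :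
    |ellMol ellRho s u x - u x|
      ≤ C * (volume : Measure W).real (closedBall 0 1) * ⨍ z in closedBall x s, ‖u z - u x‖ := by
  set Φ : W → ℝ := (closedBall x s).indicator fun z => ‖u z - u x‖ with hΦ
  have hΦi : Integrable Φ := by
    have h0 : IntegrableOn (fun z => u z - u x) (closedBall x s) :=
      (hu.sub (locallyIntegrable_const (u x))).integrableOn_isCompact (isCompact_closedBall x s)
    have h0' : IntegrableOn (fun z => ‖u z - u x‖) (closedBall x s) := h0.norm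
    exact h0'.integrable_indicator measurableSet_closedBall
  have hΦc : Integrable fun y => Φ (x - s • y) := (hΦi.comp_sub_left x).comp_smul hs.ne'
  have h1 : ellMol ellRho s u x - u x = ∫ y, ellRho y * (u (x - s • y) - u x) := by
    have e1 : u x = ∫ y : W, ellRho y * u x := by rw [integral_mul_const, ellRho_integral, one_mul]
    conv_lhs => rw [e1]
    unfold ellMol
    rw [← integral_sub (mmr_mol_integrable ellRho_isKer hu hs x) (ellRho_isKer.integrable.mul_const _)]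
    exact integral_congr_ae (Eventually.of_forall fun y => by simp only; ring)
  have h2 : |∫ y, ellRho y * (u (x - s • y) - u x)| ≤ ∫ y, C * Φ (x - s • y) := by
    refine (abs_integral_le_integral_abs).trans ?_
    have hle : ∀ y, |ellRho y * (u (x - s • y) - u x)| ≤ C * Φ (x - s • y) := by
      intro y
      rcases ell_mol_cases ellRho_isKer y with hy | hy
      · have hm : x - s • y ∈ closedBall x s := ell_mol_mem hs.le hy
        rw [hΦ, indicator_of_mem hm, abs_mul, ← Real.norm_eq_abs, ← Real.norm_eq_abs]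
        exact mul_le_mul_of_nonneg_right (hC y) (norm_nonneg _)
      · rw [hy, zero_mul, abs_zero]
        have hC0 : 0 ≤ C := (norm_nonneg _).trans (hC 0)
        exact mul_nonneg hC0 (indicator_nonneg (fun _ _ => norm_nonneg _) _)
    by_cases hi : Integrable fun y => |ellRho y * (u (x - s • y) - u x)|
    · exact integral_mono hi (hΦc.const_mul C) hle
    · rw [integral_undef hi]
      exact integral_nonneg fun y => (abs_nonneg _).trans (hle y)
  have h3 : ∫ z, Φ z = s ^ (Module.finrank ℝ W) * ∫ y, Φ (x - s • y) := ell_change_var Φ x hs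
  have h4 : ∫ z, Φ z = ∫ z in closedBall x s, ‖u z - u x‖ := integral_indicator measurableSet_closedBall
  have hv : (volume : Measure W).real (closedBall x s)
      = s ^ (Module.finrank ℝ W) * (volume : Measure W).real (closedBall 0 1) :=
    Measure.addHaar_real_closedBall' volume x hs.le
  have hv1 : 0 < (volume : Measure W).real (closedBall 0 1) := by
    have : 0 < (volume : Measure W) (closedBall 0 1) := measure_closedBall_pos _ _ one_pos
    exact ENNReal.toReal_pos this.ne' measure_closedBall_lt_top.ne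
  have hsn : 0 < s ^ (Module.finrank ℝ W) := pow_pos hs _
  rw [h1]
  refine h2.trans (le_of_eq ?_)
  rw [integral_const_mul, setAverage_eq, hv, ← h4, h3, smul_eq_mul]
  field_simp

theorem mmr_ae_tendsto {u : W → ℝ} (hu : LocallyIntegrable u) :
    ∀ᵐ x, Tendsto (fun s => ellMol ellRho s u x) (𝓝[>] 0) (𝓝 (u x)) := by
  obtain ⟨C, hC⟩ := (ellRho_isKer (W := W)).continuous.bounded_above_of_compact_support
    (ellRho_isKer (W := W)).hasCompactSupport
  filter_upwards [IsUnifLocDoublingMeasure.ae_tendsto_average_norm_sub (μ := (volume : Measure W)) hu 1] with x hx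
  have hA : Tendsto (fun s : ℝ => ⨍ z in closedBall x s, ‖u z - u x‖) (𝓝[>] 0) (𝓝 0) := by
    refine hx (fun _ => x) id tendsto_id ?_
    filter_upwards [self_mem_nhdsWithin] with s hs
    have hs' : (0 : ℝ) < s := hs
    simp [hs'.le]
  rw [tendsto_iff_norm_sub_tendsto_zero]
  have hB := hA.const_mul (C * (volume : Measure W).real (closedBall 0 1))
  rw [mul_zero] at hB
  refine squeeze_zero' (Eventually.of_forall fun _ => norm_nonneg _) ?_ hB
  filter_upwards [self_mem_nhdsWithin] with s hs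
  exact mmr_mol_sub_le hu hC hs x

/-! ### the precise representative -/

/-- the mollifications at the scales `1/(k+1)`. -/
noncomputable def mmrSeq (u : W → ℝ) (k : ℕ) : W → ℝ := ellMol ellRho (1 / ((k : ℝ) + 1)) u

/-- the precise representative. -/
noncomputable def mmrLim (u : W → ℝ) (x : W) : ℝ := limUnder atTop fun k => mmrSeq u k x

theorem mmr_scale_pos (k : ℕ) : (0 : ℝ) < 1 / ((k : ℝ) + 1) := by positivity

theorem mmr_scale_tendsto : Tendsto (fun k : ℕ => 1 / ((k : ℝ) + 1)) atTop (𝓝[>] 0) :=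
  tendsto_nhdsWithin_iff.2 ⟨tendsto_one_div_add_atTop_nhds_zero_nat, Eventually.of_forall mmr_scale_pos⟩

theorem mmr_seq_ae_tendsto {u : W → ℝ} (hu : LocallyIntegrable u) :
    ∀ᵐ x, Tendsto (fun k => mmrSeq u k x) atTop (𝓝 (u x)) := by
  filter_upwards [mmr_ae_tendsto hu] with x hx
  exact hx.comp mmr_scale_tendsto

theorem mmr_lim_ae {u : W → ℝ} (hu : LocallyIntegrable u) : mmrLim u =ᵐ[volume] u := by
  filter_upwards [mmr_seq_ae_tendsto hu] with x hx
  exact hx.limUnder_eq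

/-! ### uniform estimates, the local theorem -/

omit [MeasurableSpace W] [BorelSpace W] in
theorem mmr_ellMat_id : EllMat 1 1 (ContinuousLinearMap.id ℝ W) := by
  refine ⟨fun ξ η => rfl, fun ξ => ?_, ContinuousLinearMap.norm_id_le⟩
  rw [ContinuousLinearMap.id_apply, real_inner_self_eq_norm_sq, one_mul]

omit [MeasurableSpace W] [BorelSpace W] in
theorem mmr_ellDiv_zero (x : W) : ellDiv (fun _ : W => (0 : W)) x = 0 := by
  unfold ellDiv
  simp

/-- uniform `C^{1,1/2}` bounds of the mollifications. -/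
theorem mmr_unif (W : Type u) [NormedAddCommGroup W] [InnerProductSpace ℝ W] [FiniteDimensional ℝ W]
    [MeasurableSpace W] [BorelSpace W] :
    ∃ C θ : ℝ, 0 ≤ C ∧ 0 < θ ∧ θ ≤ 1 / 2 ∧ ∀ (x₁ : W) (ϱ M s : ℝ) (u f : W → ℝ), 0 < ϱ → 0 ≤ M →
      AEStronglyMeasurable u volume → AEStronglyMeasurable f volume → (∀ᵐ x, |u x| ≤ M) →
      (∀ᵐ x, |f x| ≤ M / ϱ ^ 2) → MmrVW (ball x₁ (2 * ϱ)) u f → 0 < s → s ≤ ϱ →
      BdOn (C * M / ϱ) (ball x₁ (θ * ϱ)) (fderiv ℝ (ellMol ellRho s u)) ∧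
        HolOn (1 / 2) (C * M / ϱ ^ (1 + (1 / 2 : ℝ))) (ball x₁ (θ * ϱ)) (fderiv ℝ (ellMol ellRho s u)) := by
  obtain ⟨C, θ, hC, hθ, hθ', H⟩ := ell_cc_smooth W (α := 1 / 2) (lam := 1) (Lam := 1) (by norm_num) (by norm_num)
    one_pos le_rfl
  refine ⟨C, θ, hC, hθ, hθ', ?_⟩
  intro x₁ ϱ M s u f hϱ hM hum hfm hub hfb hw hs hsϱ
  have hu : LocallyIntegrable u := mmr_locInt hum hub
  have hf : LocallyIntegrable f := mmr_locInt hfm hfb
  refine H (ContinuousLinearMap.id ℝ W) x₁ ϱ M (ellMol ellRho s u) (fun _ => 0) (ellMol ellRho s f) mmr_ellMat_id hϱ hM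
    (ell_molg_contDiff ellRho_isKer hu hs).contDiffOn contDiffOn_const
    (ell_molg_contDiff ellRho_isKer hf hs).contDiffOn ?_ ?_ ?_ ?_
  · intro x hx
    rw [mmr_ellDiv_zero, zero_add]
    refine mmr_mol_eq hw hu ellRho_isKer hs ?_
    intro z hz
    rw [mem_ball] at hx ⊢
    rw [mem_closedBall] at hz
    have := dist_triangle z x x₁
    linarith
  · intro x _
    have := mmr_mol_abs_le ellRho_isKer hub hs x
    rwa [ellRho_kerL1, one_mul] at this
  · exact holOn_const 0 (by positivity)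
  · intro x _
    have := mmr_mol_abs_le ellRho_isKer hfb hs x
    rwa [ellRho_kerL1, one_mul] at this

/-- an equi-Lipschitz sequence which converges on a dense set converges everywhere. -/
theorem mmr_tendsto_of_dense {B : Set W} (hB : IsOpen B) {w : ℕ → W → ℝ} {K : ℝ} (hK : 0 ≤ K)
    (hl : ∀ n, ∀ x ∈ B, ∀ y ∈ B, |w n x - w n y| ≤ K * ‖x - y‖) {S : Set W} (hS : Dense S)
    (hc : ∀ x ∈ S, ∃ l, Tendsto (fun n => w n x) atTop (𝓝 l)) {x : W} (hx : x ∈ B) :
    ∃ l, Tendsto (fun n => w n x) atTop (𝓝 l) := by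
  refine cauchySeq_tendsto_of_complete ?_
  rw [Metric.cauchySeq_iff]
  intro ε hε
  have hδ : 0 < ε / (3 * (K + 1)) := by positivity
  obtain ⟨x', hx'S, hx'o⟩ := hS.exists_mem_open (hB.inter (isOpen_ball (x := x) (ε := ε / (3 * (K + 1)))))
    ⟨x, hx, mem_ball_self hδ⟩
  obtain ⟨l, hl'⟩ := hc x' hx'S
  obtain ⟨N, hN⟩ := Metric.cauchySeq_iff.1 hl'.cauchySeq (ε / 3) (by positivity)
  refine ⟨N, fun m hm n hn => ?_⟩
  have h1 : ‖x - x'‖ < ε / (3 * (K + 1)) := by
    have := hx'o.2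
    rwa [mem_ball, dist_comm, dist_eq_norm] at this
  have h2 : K * ‖x - x'‖ < ε / 3 := by
    have h3 : K * ‖x - x'‖ ≤ (K + 1) * ‖x - x'‖ := by nlinarith [norm_nonneg (x - x')]
    have h4 : (K + 1) * ‖x - x'‖ < (K + 1) * (ε / (3 * (K + 1))) := by
      apply mul_lt_mul_of_pos_left h1
      linarith
    have h5 : (K + 1) * (ε / (3 * (K + 1))) = ε / 3 := by
      field_simp
    linarith
  have a1 := hl m x hx x' hx'o.1
  have a2 := hl n x hx x' hx'o.1
  have a3 := hN m hm n hn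
  rw [Real.dist_eq] at a3 ⊢
  have : w m x - w n x = (w m x - w m x') + (w m x' - w n x') - (w n x - w n x') := by ring
  rw [this]
  calc |(w m x - w m x') + (w m x' - w n x') - (w n x - w n x')|
      ≤ |w m x - w m x'| + |w m x' - w n x'| + |w n x - w n x'| := by
        refine (abs_sub _ _).trans ?_
        gcongr
        exact abs_add_le _ _
    _ < ε := by linarith

/-- **the local theorem.** -/
theorem mmr_local {x₁ : W} {ϱ M : ℝ} {u f : W → ℝ} (hϱ : 0 < ϱ) (hum : AEStronglyMeasurable u volume)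
    (hfm : AEStronglyMeasurable f volume) (hub : ∀ᵐ x, |u x| ≤ M) (hfb : ∀ᵐ x, |f x| ≤ M)
    (hw : MmrVW (ball x₁ (2 * ϱ)) u f) :
    ∃ r > 0, ∃ K, (∀ x ∈ ball x₁ r, Tendsto (fun k => mmrSeq u k x) atTop (𝓝 (mmrLim u x))) ∧
      DifferentiableOn ℝ (mmrLim u) (ball x₁ r) ∧ BdOn K (ball x₁ r) (fderiv ℝ (mmrLim u)) ∧
      HolOn (1 / 2) K (ball x₁ r) (fderiv ℝ (mmrLim u)) := by
  obtain ⟨C, θ, hC, hθ, -, H⟩ := mmr_unif W
  have hM : 0 ≤ M := by
    obtain ⟨z, hz⟩ := hub.exists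
    exact (abs_nonneg _).trans hz
  set M' : ℝ := M * (1 + ϱ ^ 2) with hM'
  have hM'0 : 0 ≤ M' := by positivity
  have hMM' : M ≤ M' := by
    rw [hM']
    nlinarith [sq_nonneg ϱ]
  have hMM'' : M ≤ M' / ϱ ^ 2 := by
    rw [le_div_iff₀ (by positivity), hM']
    nlinarith [sq_nonneg ϱ]
  have hub' : ∀ᵐ x, |u x| ≤ M' := hub.mono fun x hx => hx.trans hMM'
  have hfb' : ∀ᵐ x, |f x| ≤ M' / ϱ ^ 2 := hfb.mono fun x hx => hx.trans hMM''
  have hu : LocallyIntegrable u := mmr_locInt hum hub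
  set K : ℝ := max (C * M' / ϱ) (C * M' / ϱ ^ (1 + (1 / 2 : ℝ))) with hK
  have hK0 : 0 ≤ K := le_max_of_le_left (by positivity)
  set B : Set W := ball x₁ (θ * ϱ) with hB
  have hBo : IsOpen B := isOpen_ball
  have hBc : Convex ℝ B := convex_ball _ _
  -- the scales below `ϱ`
  obtain ⟨k₀, hk₀⟩ : ∃ k₀ : ℕ, ∀ n : ℕ, 1 / (((n + k₀ : ℕ) : ℝ) + 1) ≤ ϱ := by
    obtain ⟨k₀, hk₀⟩ := exists_nat_gt (1 / ϱ)
    refine ⟨k₀, fun n => ?_⟩
    rw [div_le_iff₀ (by positivity)]
    rw [div_lt_iff₀ hϱ] at hk₀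
    push_cast
    have : (0 : ℝ) ≤ n := Nat.cast_nonneg n
    nlinarith
  set w : ℕ → W → ℝ := fun n => mmrSeq u (n + k₀) with hw'
  have hest : ∀ n, BdOn K B (fderiv ℝ (w n)) ∧ HolOn (1 / 2) K B (fderiv ℝ (w n)) := by
    intro n
    obtain ⟨h1, h2⟩ := H x₁ ϱ M' _ u f hϱ hM'0 hum hfm hub' hfb' hw (mmr_scale_pos (n + k₀)) (hk₀ n)
    exact ⟨h1.mono subset_rfl (le_max_left _ _), h2.mono subset_rfl (le_max_right _ _)⟩
  have hdiff : ∀ n, DifferentiableOn ℝ (w n) B := fun n =>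
    ((ell_molg_contDiff ellRho_isKer hu (mmr_scale_pos (n + k₀))).differentiable (by simp)).differentiableOn
  have hlip : ∀ n, ∀ x ∈ B, ∀ y ∈ B, |w n x - w n y| ≤ K * ‖x - y‖ := by
    intro n x hx y hy
    have := holOn_one_of_fderiv_le hBc hBo (hdiff n) (hest n).1 x hx y hy
    rwa [Real.rpow_one, Real.norm_eq_abs] at this
  have hdense : Dense {x : W | Tendsto (fun k => mmrSeq u k x) atTop (𝓝 (u x))} :=
    Measure.dense_of_ae (mmr_seq_ae_tendsto hu)
  have hconv : ∀ x ∈ B, Tendsto (fun k => mmrSeq u k x) atTop (𝓝 (mmrLim u x)) := by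
    intro x hx
    obtain ⟨l, hl⟩ := mmr_tendsto_of_dense hBo hK0 hlip hdense
      (fun y hy => ⟨u y, (tendsto_add_atTop_iff_nat k₀).2 hy⟩) hx
    have hl' : Tendsto (fun k => mmrSeq u k x) atTop (𝓝 l) := (tendsto_add_atTop_iff_nat k₀).1 hl
    have : mmrLim u x = l := hl'.limUnder_eq
    rwa [this]
  obtain ⟨d1, d2, d3, -⟩ := ell_c1a_limit hBo hBc (α := 1 / 2) (K := K) (by norm_num) hdiff (fun n => (hest n).1)
    (fun n => (hest n).2) (w := mmrLim u) (fun x hx => (tendsto_add_atTop_iff_nat k₀).2 (hconv x hx))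
  exact ⟨θ * ϱ, by positivity, K, hconv, d1, d2, d3⟩

/-! ### the global theorem -/

/-- **bounded very weak solutions with locally bounded right hand side are `C^{1,1/2}`.** -/
theorem mmr_c1a {U : Set W} (hU : IsOpen U) {u f : W → ℝ} {M : ℝ} (hum : AEStronglyMeasurable u volume)
    (hub : ∀ᵐ x, |u x| ≤ M) (hfm : AEStronglyMeasurable f volume)
    (hfb : ∀ x ∈ U, ∃ r > 0, ∃ K, ∀ᵐ z, z ∈ ball x r → |f z| ≤ K) (hw : MmrVW U u f) :
    ContDiffOn ℝ 1 (mmrLim u) U ∧ (∀ x ∈ U, ∃ r > 0, ∃ K, HolOn (1 / 2) K (ball x r) (fderiv ℝ (mmrLim u))) ∧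
      ∀ x ∈ U, |mmrLim u x| ≤ M := by
  have key : ∀ x₁ ∈ U, ∃ r > 0, ∃ K, (∀ x ∈ ball x₁ r, Tendsto (fun k => mmrSeq u k x) atTop (𝓝 (mmrLim u x))) ∧
      DifferentiableOn ℝ (mmrLim u) (ball x₁ r) ∧ BdOn K (ball x₁ r) (fderiv ℝ (mmrLim u)) ∧
      HolOn (1 / 2) K (ball x₁ r) (fderiv ℝ (mmrLim u)) := by
    intro x₁ hx₁
    obtain ⟨r₁, hr₁, hr₁U⟩ := Metric.isOpen_iff.1 hU x₁ hx₁
    obtain ⟨r₂, hr₂, K, hK⟩ := hfb x₁ hx₁
    set ϱ : ℝ := min r₁ r₂ / 2 with hϱ
    have hϱ0 : 0 < ϱ := by positivity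
    have h2ϱ : 2 * ϱ = min r₁ r₂ := by rw [hϱ]; ring
    have hs1 : ball x₁ (2 * ϱ) ⊆ U := (ball_subset_ball (by rw [h2ϱ]; exact min_le_left _ _)).trans hr₁U
    have hs2 : ball x₁ (2 * ϱ) ⊆ ball x₁ r₂ := ball_subset_ball (by rw [h2ϱ]; exact min_le_right _ _)
    set f' : W → ℝ := (ball x₁ (2 * ϱ)).indicator f with hf'
    have hf'm : AEStronglyMeasurable f' volume := hfm.indicator measurableSet_ball
    have hM : 0 ≤ M := by
      obtain ⟨z, hz⟩ := hub.exists
      exact (abs_nonneg _).trans hz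
    have hf'b : ∀ᵐ z, |f' z| ≤ max M K := by
      filter_upwards [hK] with z hz
      by_cases hzb : z ∈ ball x₁ (2 * ϱ)
      · rw [hf', indicator_of_mem hzb]
        exact (hz (hs2 hzb)).trans (le_max_right _ _)
      · rw [hf', indicator_of_notMem hzb, abs_zero]
        exact hM.trans (le_max_left _ _)
    have hw' : MmrVW (ball x₁ (2 * ϱ)) u f' :=
      (hw.mono hs1).congr_right fun x hx => by rw [hf', indicator_of_mem hx]
    exact mmr_local hϱ0 hum hf'm (hub.mono fun x hx => hx.trans (le_max_left _ _)) hf'b hw'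
  refine ⟨?_, ?_, ?_⟩
  · intro x₁ hx₁
    obtain ⟨r, hr, K, -, hd, -, hh⟩ := key x₁ hx₁
    have hc : ContDiffOn ℝ 1 (mmrLim u) (ball x₁ r) := by
      have := (contDiffOn_succ_iff_fderiv_of_isOpen (𝕜 := ℝ) (n := 0) (f := mmrLim u) (isOpen_ball (x := x₁) (ε := r))).2
        ⟨hd, by simp, contDiffOn_zero.2 (hh.continuousOn (by norm_num))⟩
      simpa using this
    exact (hc.contDiffAt (isOpen_ball.mem_nhds (mem_ball_self hr))).contDiffWithinAt
  · intro x₁ hx₁
    obtain ⟨r, hr, K, -, -, -, hh⟩ := key x₁ hx₁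
    exact ⟨r, hr, K, hh⟩
  · intro x₁ hx₁
    obtain ⟨r, hr, K, hc, -, -, -⟩ := key x₁ hx₁
    refine le_of_tendsto (hc x₁ (mem_ball_self hr)).abs (Eventually.of_forall fun k => ?_)
    have := mmr_mol_abs_le ellRho_isKer hub (mmr_scale_pos k) x₁
    rwa [ellRho_kerL1, one_mul] at this

/-! ### weak forms -/

theorem mmr_inner_grad (v φ : W → ℝ) (x : W) :
    ⟪∇ v x, ∇ φ x⟫ = ∑ i, dd (stdOrthonormalBasis ℝ W i) v x * dd (stdOrthonormalBasis ℝ W i) φ x := by
  rw [← (stdOrthonormalBasis ℝ W).sum_inner_mul_inner]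
  refine Finset.sum_congr rfl fun i _ => ?_
  rw [ell_dd_eq_inner, ell_dd_eq_inner, real_inner_comm (∇ φ x)]

theorem mmr_test_dd {U : Set W} {φ : W → ℝ} (hφ : IsTest U φ) (h : W) : IsTest U (dd h φ) :=
  ⟨ell_dd_contDiff hφ.1 h, hφ.2.1.fderiv_apply ℝ h, (tsupport_fderiv_apply_subset ℝ h).trans hφ.2.2⟩

/-- `∫ ⟪∇v, ∇φ⟫ = - ∫ v Δφ` for `v ∈ C¹(U)`. -/
theorem mmr_ibp1 {U : Set W} (hU : IsOpen U) {v φ : W → ℝ} (hv : ContDiffOn ℝ 1 v U) (hφ : IsTest U φ) :
    ∫ x, ⟪∇ v x, ∇ φ x⟫ = - ∫ x, v x * ellLap φ x := by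
  have hφ2 : ContDiffOn ℝ 2 φ univ := (hφ.1.of_le (by norm_cast)).contDiffOn
  simp only [mmr_inner_grad, ell_lap_eq_sum_dd isOpen_univ hφ2 (mem_univ _), Finset.mul_sum]
  have hdc : ∀ i, ContinuousOn (dd (stdOrthonormalBasis ℝ W i) v) U := fun i =>
    (ContDiffOn.ell_dd (n := 0) hU (by simpa using hv) _).continuousOn
  rw [integral_finsetSum, integral_finsetSum, ← Finset.sum_neg_distrib]
  · refine Finset.sum_congr rfl fun i _ => ?_
    have ht := mmr_test_dd hφ (stdOrthonormalBasis ℝ W i)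
    exact ell_ibp_scalar hU hv (ht.1.of_le (by norm_cast)) ht.2.1 ht.2.2 _
  · intro i _
    have ht := mmr_test_dd (mmr_test_dd hφ (stdOrthonormalBasis ℝ W i)) (stdOrthonormalBasis ℝ W i)
    exact ell_integrable_mul_test hU hv.continuousOn ht.1.continuous ht.2.1 ht.2.2
  · intro i _
    have ht := mmr_test_dd hφ (stdOrthonormalBasis ℝ W i)
    exact ell_integrable_mul_test hU (hdc i) ht.1.continuous ht.2.1 ht.2.2

/-- `∫ ⟪∇v, ∇φ⟫ = - ∫ Δv φ` for `v ∈ C²(U)`. -/
theorem mmr_ibp2 {U : Set W} (hU : IsOpen U) {v φ : W → ℝ} (hv : ContDiffOn ℝ 2 v U) (hφ : IsTest U φ) :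
    ∫ x, ⟪∇ v x, ∇ φ x⟫ = - ∫ x, ellLap v x * φ x := by
  have hd1 : ∀ i, ContDiffOn ℝ 1 (dd (stdOrthonormalBasis ℝ W i) v) U := fun i =>
    ContDiffOn.ell_dd (n := 1) hU (by exact_mod_cast hv) _
  have hd2 : ∀ i, ContinuousOn (dd (stdOrthonormalBasis ℝ W i) (dd (stdOrthonormalBasis ℝ W i) v)) U := fun i =>
    (ContDiffOn.ell_dd (n := 0) hU (by simpa using hd1 i) _).continuousOn
  have e1 : ∀ x, ellLap v x * φ x
      = ∑ i, dd (stdOrthonormalBasis ℝ W i) (dd (stdOrthonormalBasis ℝ W i) v) x * φ x := by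
    intro x
    by_cases hx : x ∈ tsupport φ
    · rw [ell_lap_eq_sum_dd hU hv (hφ.2.2 hx), Finset.sum_mul]
    · simp [image_eq_zero_of_notMem_tsupport hx]
  simp only [mmr_inner_grad, e1]
  rw [integral_finsetSum, integral_finsetSum, ← Finset.sum_neg_distrib]
  · refine Finset.sum_congr rfl fun i _ => ?_
    rw [ell_ibp_scalar hU (hd1 i) (hφ.1.of_le (by norm_cast)) hφ.2.1 hφ.2.2, neg_neg]
  · intro i _
    exact ell_integrable_mul_test hU (hd2 i) hφ.1.continuous hφ.2.1 hφ.2.2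
  · intro i _
    have ht := mmr_test_dd hφ (stdOrthonormalBasis ℝ W i)
    exact ell_integrable_mul_test hU (hd1 i).continuousOn ht.1.continuous ht.2.1 ht.2.2

/-- the weak form of the equation for a `C¹` representative. -/
theorem mmr_weak {U : Set W} (hU : IsOpen U) {u v f : W → ℝ} (hv : ContDiffOn ℝ 1 v U) (hvu : v =ᵐ[volume] u)
    (hw : MmrVW U u f) {φ : W → ℝ} (hφ : IsTest U φ) : ∫ x, ⟪∇ v x, ∇ φ x⟫ = - ∫ x, f x * φ x := by
  rw [mmr_ibp1 hU hv hφ, ← hw φ hφ]
  congr 1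
  refine integral_congr_ae ?_
  filter_upwards [hvu] with x hx
  rw [hx]

/-- a `C²` weak solution is classical. -/
theorem mmr_classical {U : Set W} (hU : IsOpen U) {v g : W → ℝ} (hv : ContDiffOn ℝ 2 v U) (hg : ContinuousOn g U)
    (hw : ∀ φ, IsTest U φ → ∫ x, ⟪∇ v x, ∇ φ x⟫ = - ∫ x, g x * φ x) : ∀ x ∈ U, ellLap v x = g x := by
  have hL : ContinuousOn (ellLap v) U := ell_lap_continuousOn hU hv
  have hc : ContinuousOn (fun x => ellLap v x - g x) U := hL.sub hg
  have h0 : ∀ᵐ x, x ∈ U → ellLap v x - g x = 0 := by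
    refine hU.ae_eq_zero_of_integral_contDiff_smul_eq_zero (hc.locallyIntegrableOn hU.measurableSet) ?_
    intro φ h1 h2 h3
    have hφ : IsTest U φ := ⟨h1, h2, h3⟩
    have e := hw φ hφ
    rw [mmr_ibp2 hU hv hφ, neg_inj] at e
    have i1 := ell_integrable_mul_test hU hL h1.continuous h2 h3
    have i2 := ell_integrable_mul_test hU hg h1.continuous h2 h3
    have : ∀ x, φ x • (ellLap v x - g x) = ellLap v x * φ x - g x * φ x := fun x => by
      rw [smul_eq_mul]; ring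
    simp only [this]
    rw [integral_sub i1 i2, e, sub_self]
  have h1 : (fun x => ellLap v x - g x) =ᵐ[volume.restrict U] fun _ => (0 : ℝ) :=
    (ae_restrict_iff' hU.measurableSet).2 h0
  intro x hx
  have := Measure.eqOn_open_of_ae_eq h1 hU hc continuousOn_const hx
  simp only at this
  linarith

end Claimed.Agent.R323
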